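import Vale.Agent.Lib.P154.LN.CertPA

/-!
# The certificate inequality for Poisson trees
-/

namespace Vale.Agent.P154.LN

open Vale.Agent.Lib.P154.BoxPos (Ex tchk_sound)

/-- the point `(r, s)` of the box -/
noncomputable def pt2 (r s : ℝ) : ℕ → ℝ := fun i => if i = 0 then r else if i = 1 then s else 0

theorem pt2_nonneg {r s : ℝ} (hr : 0 ≤ r) (hs : 0 ≤ s) : ∀ i, 0 ≤ pt2 r s i := by
  intro i
  unfold pt2
  split_ifs <;> simp_all

theorem pt2_le {r s : ℝ} (hr : r ≤ 1) (hs : s ≤ 1) : ∀ i, pt2 r s i ≤ 1 := by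
  intro i
  unfold pt2
  split_ifs <;> simp_all

theorem pt2_zero (r s : ℝ) : pt2 r s 0 = r := by simp [pt2]
theorem pt2_one (r s : ℝ) : pt2 r s 1 = s := by simp [pt2]

theorem ck_at_zero (m : ℕ) : ck 0 m = 1 := by simp [ck]

theorem pa_sound {r s : ℝ} (hr : 0 ≤ r) (hr1 : r ≤ 1) (hs : 0 ≤ s) (hs1 : s ≤ 1) :
    PsiU 1 (1 / 8) 1 0 (r * (9 - 8 * s) / 9) (2 * (r * s) / 9) ≤
      (r * (3 - 2 * s) / 3) + 999 / 1000 * (r * (3 - 2 * s) / 3) ^ 2
        + 1 * (r * (3 - 2 * s) / 3) * (r * (1 - s)) + 1 / 8 * (r * (1 - s)) ^ 2 := by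
  set x := pt2 r s with hx
  have x0 : x 0 = r := pt2_zero r s
  have x1 : x 1 = s := pt2_one r s
  have ha : paa.den x = ((9 : ℤ) : ℝ) * (r * (9 - 8 * s) / 9) := by
    simp only [paa, Ex.den, x0, x1]; push_cast; ring
  have hb : pab.den x = ((9 : ℤ) : ℝ) * (2 * (r * s) / 9) := by
    simp only [pab, Ex.den, x0, x1]; push_cast; ring
  have hw : ∀ m, 1 ≤ m → m ≤ 6 → ((fun _ : ℕ => Ex.c 1) m).den x = 1 * ck 0 m := by
    intro m _ _
    simp [Ex.den, ck_at_zero]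
  have hA := UEx_den ha hb hw uA uA_ok
  have hP := UEx_den ha hb hw uP uP_ok
  have hR : paR.den x = 9000 * ((r * (3 - 2 * s) / 3) + 999 / 1000 * (r * (3 - 2 * s) / 3) ^ 2
        + 1 * (r * (3 - 2 * s) / 3) * (r * (1 - s)) + 1 / 8 * (r * (1 - s)) ^ 2) := by
    simp only [paR, paX3, paP, Ex.den, x0, x1]; push_cast; ring
  have h0 := tchk_sound 2 _ _ pa_chk x (pt2_nonneg hr hs) (pt2_le hr1 hs1)
  have h1 := tchk_sound 2 _ _ pa_chk1 x (pt2_nonneg hr hs) (pt2_le hr1 hs1)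
  have g0 := GEx_sound (K := 256 * ((9 : ℤ) : ℝ) ^ 6 * 1) (m := 1000) (by norm_num) (by norm_num) h0
    hA hP (by rw [Int.cast_mul, ipow_eq]; push_cast; ring)
    (rhs := (r * (3 - 2 * s) / 3) + 999 / 1000 * (r * (3 - 2 * s) / 3) ^ 2
        + 1 * (r * (3 - 2 * s) / 3) * (r * (1 - s)) + 1 / 8 * (r * (1 - s)) ^ 2)
    (by rw [hR, Int.cast_mul, ipow_eq]; push_cast; ring)
  have g1 := GEx1_sound (K := 256 * ((9 : ℤ) : ℝ) ^ 6 * 1) (m := 1000) (by norm_num) (by norm_num)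
    h1 hA (by rw [Int.cast_mul, ipow_eq]; push_cast; ring)
    (rhs := (r * (3 - 2 * s) / 3) + 999 / 1000 * (r * (3 - 2 * s) / 3) ^ 2
        + 1 * (r * (3 - 2 * s) / 3) * (r * (1 - s)) + 1 / 8 * (r * (1 - s)) ^ 2)
    (by rw [hR, Int.cast_mul, ipow_eq]; push_cast; ring)
  apply Psi_le_of
  · refine le_trans (le_of_eq ?_) g0
    push_cast; ring
  · refine le_trans (le_of_eq ?_) g1
    push_cast; ring

theorem pb_sound {r s : ℝ} (hr : 0 ≤ r) (hr1 : r ≤ 1) (hs : 0 ≤ s) (hs1 : s ≤ 1) :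
    PsiU 1 (1 / 8) 1 0 ((1 + 2 * r + 6 * (r * s)) / 9) (2 * (1 + 2 * r - 3 * (r * s)) / 9) ≤
      ((1 + 2 * r) / 3) + 999 / 1000 * ((1 + 2 * r) / 3) ^ 2
        + 1 * ((1 + 2 * r) / 3) * r + 1 / 8 * r ^ 2 := by
  set x := pt2 r s with hx
  have x0 : x 0 = r := pt2_zero r s
  have x1 : x 1 = s := pt2_one r s
  have ha : pba.den x = ((9 : ℤ) : ℝ) * ((1 + 2 * r + 6 * (r * s)) / 9) := by
    simp only [pba, pbX3, Ex.den, x0, x1]; push_cast; ring
  have hb : pbb.den x = ((9 : ℤ) : ℝ) * (2 * (1 + 2 * r - 3 * (r * s)) / 9) := by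
    simp only [pbb, pbX3, Ex.den, x0, x1]; push_cast; ring
  have hw : ∀ m, 1 ≤ m → m ≤ 6 → ((fun _ : ℕ => Ex.c 1) m).den x = 1 * ck 0 m := by
    intro m _ _
    simp [Ex.den, ck_at_zero]
  have hA := UEx_den ha hb hw uA uA_ok
  have hP := UEx_den ha hb hw uP uP_ok
  have hR : pbR.den x = 9000 * (((1 + 2 * r) / 3) + 999 / 1000 * ((1 + 2 * r) / 3) ^ 2
        + 1 * ((1 + 2 * r) / 3) * r + 1 / 8 * r ^ 2) := by
    simp only [pbR, pbX3, Ex.den, x0]; push_cast; ring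
  have h0 := tchk_sound 2 _ _ pb_chk x (pt2_nonneg hr hs) (pt2_le hr1 hs1)
  have h1 := tchk_sound 2 _ _ pb_chk1 x (pt2_nonneg hr hs) (pt2_le hr1 hs1)
  have g0 := GEx_sound (K := 256 * ((9 : ℤ) : ℝ) ^ 6 * 1) (m := 1000) (by norm_num) (by norm_num) h0
    hA hP (by rw [Int.cast_mul, ipow_eq]; push_cast; ring)
    (rhs := ((1 + 2 * r) / 3) + 999 / 1000 * ((1 + 2 * r) / 3) ^ 2
        + 1 * ((1 + 2 * r) / 3) * r + 1 / 8 * r ^ 2)
    (by rw [hR, Int.cast_mul, ipow_eq]; push_cast; ring)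
  have g1 := GEx1_sound (K := 256 * ((9 : ℤ) : ℝ) ^ 6 * 1) (m := 1000) (by norm_num) (by norm_num)
    h1 hA (by rw [Int.cast_mul, ipow_eq]; push_cast; ring)
    (rhs := ((1 + 2 * r) / 3) + 999 / 1000 * ((1 + 2 * r) / 3) ^ 2
        + 1 * ((1 + 2 * r) / 3) * r + 1 / 8 * r ^ 2)
    (by rw [hR, Int.cast_mul, ipow_eq]; push_cast; ring)
  apply Psi_le_of
  · refine le_trans (le_of_eq ?_) g0
    push_cast; ring
  · refine le_trans (le_of_eq ?_) g1
    push_cast; ring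

theorem pc_sound {r s : ℝ} (hr : 0 ≤ r) (hr1 : r ≤ 1) (hs : 0 ≤ s) (hs1 : s ≤ 1) :
    PsiU 1 (1 / 8) 1 0 (r * (1 - s) / 9) (r * (8 + s) / 36) ≤
      (r * (4 - s) / 12) + 999 / 1000 * (r * (4 - s) / 12) ^ 2 := by
  set x := pt2 r s with hx
  have x0 : x 0 = r := pt2_zero r s
  have x1 : x 1 = s := pt2_one r s
  have ha : pca.den x = ((36 : ℤ) : ℝ) * (r * (1 - s) / 9) := by
    simp only [pca, Ex.den, x0, x1]; push_cast; ring
  have hb : pcb.den x = ((36 : ℤ) : ℝ) * (r * (8 + s) / 36) := by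
    simp only [pcb, Ex.den, x0, x1]; push_cast; ring
  have hw : ∀ m, 1 ≤ m → m ≤ 6 → ((fun _ : ℕ => Ex.c 1) m).den x = 1 * ck 0 m := by
    intro m _ _
    simp [Ex.den, ck_at_zero]
  have hA := UEx_den ha hb hw uA uA_ok
  have hP := UEx_den ha hb hw uP uP_ok
  have hR : pcR.den x = 144000 * ((r * (4 - s) / 12) + 999 / 1000 * (r * (4 - s) / 12) ^ 2) := by
    simp only [pcR, pcX, Ex.den, x0, x1]; push_cast; ring
  have h0 := tchk_sound 2 _ _ pc_chk x (pt2_nonneg hr hs) (pt2_le hr1 hs1)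
  have h1 := tchk_sound 2 _ _ pc_chk1 x (pt2_nonneg hr hs) (pt2_le hr1 hs1)
  have g0 := GEx_sound (K := 256 * ((36 : ℤ) : ℝ) ^ 6 * 1) (m := 1000) (by norm_num) (by norm_num)
    h0 hA hP (by rw [Int.cast_mul, ipow_eq]; push_cast; ring)
    (rhs := (r * (4 - s) / 12) + 999 / 1000 * (r * (4 - s) / 12) ^ 2)
    (by rw [hR, Int.cast_mul, ipow_eq]; push_cast; ring)
  have g1 := GEx1_sound (K := 256 * ((36 : ℤ) : ℝ) ^ 6 * 1) (m := 1000) (by norm_num) (by norm_num)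
    h1 hA (by rw [Int.cast_mul, ipow_eq]; push_cast; ring)
    (rhs := (r * (4 - s) / 12) + 999 / 1000 * (r * (4 - s) / 12) ^ 2)
    (by rw [hR, Int.cast_mul, ipow_eq]; push_cast; ring)
  apply Psi_le_of
  · refine le_trans (le_of_eq ?_) g0
    push_cast; ring
  · refine le_trans (le_of_eq ?_) g1
    push_cast; ring

/-- parametrisation of region (a) -/
theorem param_a {x p : ℝ} (h0 : 0 ≤ p) (h1 : p ≤ x) (h2 : 3 * x - 2 * p ≤ 1) :
    ∃ r s : ℝ, 0 ≤ r ∧ r ≤ 1 ∧ 0 ≤ s ∧ s ≤ 1 ∧ x = r * (3 - 2 * s) / 3 ∧ p = r * (1 - s) := by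
  rcases eq_or_lt_of_le (show 0 ≤ 3 * x - 2 * p by linarith) with h | h
  · refine ⟨0, 0, le_rfl, zero_le_one, le_rfl, zero_le_one, ?_, ?_⟩
    · linarith
    · linarith
  · have e : (3 * x - 2 * p) * (3 * (x - p) / (3 * x - 2 * p)) = 3 * (x - p) :=
      mul_div_cancel₀ _ h.ne'
    refine ⟨3 * x - 2 * p, 3 * (x - p) / (3 * x - 2 * p), h.le, h2, ?_, ?_, ?_, ?_⟩
    · apply div_nonneg _ h.le
      linarith
    · rw [div_le_one h]
      linarith
    · linear_combination (2 / 3) * e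
    · linear_combination e

/-- parametrisation of region (b) -/
theorem param_b {x p : ℝ} (h0 : 0 ≤ p) (h1 : x ≤ 1) (h2 : 1 ≤ 3 * x - 2 * p) :
    ∃ r s : ℝ, 0 ≤ r ∧ r ≤ 1 ∧ 0 ≤ s ∧ s ≤ 1 ∧ x = (1 + 2 * r) / 3 ∧ p = r * s := by
  rcases eq_or_lt_of_le (show 0 ≤ (3 * x - 1) / 2 by linarith) with h | h
  · refine ⟨0, 0, le_rfl, zero_le_one, le_rfl, zero_le_one, ?_, ?_⟩
    · linarith
    · linarith
  · have e : (3 * x - 1) / 2 * (p / ((3 * x - 1) / 2)) = p := mul_div_cancel₀ _ h.ne'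
    refine ⟨(3 * x - 1) / 2, p / ((3 * x - 1) / 2), h.le, by linarith, ?_, ?_, ?_, ?_⟩
    · exact div_nonneg h0 h.le
    · rw [div_le_one h]
      linarith
    · ring
    · exact e.symm

/-- parametrisation of region (c) -/
theorem param_c {x p : ℝ} (h0 : p ≤ 0) (h1 : -x / 2 ≤ p) (h2 : 3 * x - 2 * p ≤ 1) :
    ∃ r s : ℝ, 0 ≤ r ∧ r ≤ 1 ∧ 0 ≤ s ∧ s ≤ 1 ∧ x = r * (4 - s) / 12 ∧ p = -(r * s) / 8 := by
  rcases eq_or_lt_of_le (show 0 ≤ 3 * x - 2 * p by linarith) with h | h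
  · refine ⟨0, 0, le_rfl, zero_le_one, le_rfl, zero_le_one, ?_, ?_⟩
    · linarith
    · linarith
  · have e : (3 * x - 2 * p) * (-8 * p / (3 * x - 2 * p)) = -8 * p := mul_div_cancel₀ _ h.ne'
    refine ⟨3 * x - 2 * p, -8 * p / (3 * x - 2 * p), h.le, h2, ?_, ?_, ?_, ?_⟩
    · apply div_nonneg _ h.le
      linarith
    · rw [div_le_one h]
      linarith
    · linear_combination (1 / 12) * e
    · linear_combination (1 / 8) * e

/-- the certificate inequality for Poisson trees -/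
theorem certPois : CertPois := by
  intro x p hx1 hp1 hp2 hp3
  have hx0 : 0 ≤ x := by linarith
  rcases le_total p 0 with hp | hp
  · obtain ⟨r, s, hr, hr1, hs, hs1, ex, ep⟩ := param_c hp hp1 (hp3 hp)
    have key := pc_sound hr hr1 hs hs1
    have eA : (x + 2 * p) / 3 = r * (1 - s) / 9 := by rw [ex, ep]; ring
    have eB : 2 / 3 * (x - p) = r * (8 + s) / 36 := by rw [ex, ep]; ring
    rw [eA, eB]
    refine key.trans (le_of_eq ?_)
    have hm : max p ((3 * x - 1) / 2) ≤ 0 := max_le hp (by have := hp3 hp; linarith)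
    unfold Psi
    rw [max_eq_right hm, ← ex]
    ring
  · rcases le_total (3 * x - 2 * p) 1 with h | h
    · obtain ⟨r, s, hr, hr1, hs, hs1, ex, ep⟩ := param_a hp hp2 h
      have key := pa_sound hr hr1 hs hs1
      have eA : (x + 2 * p) / 3 = r * (9 - 8 * s) / 9 := by rw [ex, ep]; ring
      have eB : 2 / 3 * (x - p) = 2 * (r * s) / 9 := by rw [ex, ep]; ring
      rw [eA, eB]
      refine key.trans (le_of_eq ?_)
      have hm : max p ((3 * x - 1) / 2) = p := max_eq_left (by linarith)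
      unfold Psi
      rw [hm, max_eq_left hp, ← ex, ← ep]
      ring
    · obtain ⟨r, s, hr, hr1, hs, hs1, ex, ep⟩ := param_b hp hx1 h
      have key := pb_sound hr hr1 hs hs1
      have eA : (x + 2 * p) / 3 = (1 + 2 * r + 6 * (r * s)) / 9 := by rw [ex, ep]; ring
      have eB : 2 / 3 * (x - p) = 2 * (1 + 2 * r - 3 * (r * s)) / 9 := by rw [ex, ep]; ring
      have er : r = (3 * x - 1) / 2 := by rw [ex]; ring
      rw [eA, eB]
      refine key.trans (le_of_eq ?_)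
      have hm : max p ((3 * x - 1) / 2) = r := by
        rw [← er]
        exact max_eq_right (by rw [er]; linarith)
      unfold Psi
      rw [hm, max_eq_left hr, ← ex]
      ring

end Vale.Agent.P154.LN
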