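import Vale.Agent.Lib.P154.LN.CertRK
import Vale.Agent.Lib.P154.LN.CertP

/-!
# The certificate inequalities for `d`-ary trees with `d ≥ 6`
-/

namespace Vale.Agent.P154.LN

open Vale.Agent.Lib.P154.BoxPos (Ex)

/-- the point `(r, s, u)` of the box -/
noncomputable def pt3 (r s u : ℝ) : ℕ → ℝ :=
  fun i => if i = 0 then r else if i = 1 then s else if i = 2 then u else 0

theorem pt3_nonneg {r s u : ℝ} (hr : 0 ≤ r) (hs : 0 ≤ s) (hu : 0 ≤ u) : ∀ i, 0 ≤ pt3 r s u i := by
  intro i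
  unfold pt3
  split_ifs <;> simp_all

theorem pt3_le {r s u : ℝ} (hr : r ≤ 1) (hs : s ≤ 1) (hu : u ≤ 1) : ∀ i, pt3 r s u i ≤ 1 := by
  intro i
  unfold pt3
  split_ifs <;> simp_all

theorem pt3_zero (r s u : ℝ) : pt3 r s u 0 = r := by simp [pt3]
theorem pt3_one (r s u : ℝ) : pt3 r s u 1 = s := by simp [pt3]
theorem pt3_two (r s u : ℝ) : pt3 r s u 2 = u := by simp [pt3]

/-- region (a), right-hand side -/
theorem rhs_a {x p r s : ℝ} (hp : 0 ≤ p) (h : 3 * x - 2 * p ≤ 1) (ex : x = r * (3 - 2 * s) / 3)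
    (ep : p = r * (1 - s)) :
    Psi (3 / 4) 0 (1 / 2) x (max p ((3 * x - 1) / 2)) - 1 / 1000 * x ^ 2 =
      r * (3 - 2 * s) / 3 + 499 / 1000 * (r * (3 - 2 * s) / 3) ^ 2
        + 3 / 4 * (r * (3 - 2 * s) / 3) * (r * (1 - s)) := by
  have hm : max p ((3 * x - 1) / 2) = p := max_eq_left (by linarith)
  unfold Psi
  rw [hm, max_eq_left hp, ← ex, ← ep]
  ring

/-- region (b), right-hand side -/
theorem rhs_b {x p r : ℝ} (hr : 0 ≤ r) (h : 1 ≤ 3 * x - 2 * p) (ex : x = (1 + 2 * r) / 3) :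
    Psi (3 / 4) 0 (1 / 2) x (max p ((3 * x - 1) / 2)) - 1 / 1000 * x ^ 2 =
      (1 + 2 * r) / 3 + 499 / 1000 * ((1 + 2 * r) / 3) ^ 2 + 3 / 4 * ((1 + 2 * r) / 3) * r := by
  have er : r = (3 * x - 1) / 2 := by rw [ex]; ring
  have hm : max p ((3 * x - 1) / 2) = r := by
    rw [← er]
    exact max_eq_right (by rw [er]; linarith)
  unfold Psi
  rw [hm, max_eq_left hr, ← ex]
  ring

theorem raR_den {x : ℕ → ℝ} {r s : ℝ} (x0 : x 0 = r) (x1 : x 1 = s) :
    raR.den x = 9000 * (r * (3 - 2 * s) / 3 + 499 / 1000 * (r * (3 - 2 * s) / 3) ^ 2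
        + 3 / 4 * (r * (3 - 2 * s) / 3) * (r * (1 - s))) := by
  simp only [raR, raX3, raP, Ex.den, x0, x1]; push_cast; ring

theorem rbR_den {x : ℕ → ℝ} {r : ℝ} (x0 : x 0 = r) :
    rbR.den x = 9000 * ((1 + 2 * r) / 3 + 499 / 1000 * ((1 + 2 * r) / 3) ^ 2
      + 3 / 4 * ((1 + 2 * r) / 3) * r) := by
  simp only [rbR, rbX3, Ex.den, x0]; push_cast; ring

/-- certificate inequality, `1 / 12 ≤ t ≤ 1 / 6` -/
theorem certRegP1 : CertRegP (5 / 6) (1 / 12) (1 / 6) := by
  intro t x p ht0 ht1 hx1 hp hpx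
  have hu : 0 ≤ 12 * t - 1 := by linarith
  have hu1 : 12 * t - 1 ≤ 1 := by linarith
  rcases le_total (3 * x - 2 * p) 1 with h | h
  · obtain ⟨r, s, hr, hr1, hs, hs1, ex, ep⟩ := param_a hp hpx h
    have x0 := pt3_zero r s (12 * t - 1)
    have x1 := pt3_one r s (12 * t - 1)
    have x2 := pt3_two r s (12 * t - 1)
    rw [rhs_a hp h ex ep]
    exact E_sound (t := t) (pt3 r s (12 * t - 1)) rS10_chk rS11_chk
      (pt3_nonneg hr hs hu) (pt3_le hr1 hs1 hu1) (by norm_num) (by norm_num)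
      (by simp only [sa1, Ex.den, x0, x1, ex, ep]; push_cast; ring)
      (by simp only [sb1, Ex.den, x0, x1, ex, ep]; push_cast; ring)
      (by
        intro k h1 h2
        rw [wS_ok _ k h1 h2, x2]
        norm_num)
      (by rw [raR_den x0 x1, Int.cast_mul, Int.cast_mul, ipow_eq, ipow_eq]; push_cast; ring)
  · obtain ⟨r, s, hr, hr1, hs, hs1, ex, ep⟩ := param_b hp hx1 h
    have x0 := pt3_zero r s (12 * t - 1)
    have x1 := pt3_one r s (12 * t - 1)
    have x2 := pt3_two r s (12 * t - 1)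
    rw [rhs_b hr h ex]
    exact E_sound (t := t) (pt3 r s (12 * t - 1)) rS20_chk rS21_chk
      (pt3_nonneg hr hs hu) (pt3_le hr1 hs1 hu1) (by norm_num) (by norm_num)
      (by simp only [sa2, rbX3, Ex.den, x0, x1, ex, ep]; push_cast; ring)
      (by simp only [sb2, rbX3, Ex.den, x0, x1, ex, ep]; push_cast; ring)
      (by
        intro k h1 h2
        rw [wS_ok _ k h1 h2, x2]
        norm_num)
      (by rw [rbR_den x0, Int.cast_mul, Int.cast_mul, ipow_eq, ipow_eq]; push_cast; ring)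

/-- certificate inequality, `0 ≤ t ≤ 1 / 12` -/
theorem certRegP2 : CertRegP (3 / 5) 0 (1 / 12) := by
  intro t x p ht0 ht1 hx1 hp hpx
  have hu : 0 ≤ 12 * t := by linarith
  have hu1 : 12 * t ≤ 1 := by linarith
  have et : 12 * t / 12 = t := by ring
  rcases le_total (3 * x - 2 * p) 1 with h | h
  · obtain ⟨r, s, hr, hr1, hs, hs1, ex, ep⟩ := param_a hp hpx h
    have x0 := pt3_zero r s (12 * t)
    have x1 := pt3_one r s (12 * t)
    have x2 := pt3_two r s (12 * t)
    rw [rhs_a hp h ex ep]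
    exact E_sound (t := t) (pt3 r s (12 * t)) rL10_chk rL11_chk
      (pt3_nonneg hr hs hu) (pt3_le hr1 hs1 hu1) (by norm_num) (by norm_num)
      (by simp only [la1, Ex.den, x0, x1, ex, ep]; push_cast; ring)
      (by simp only [lb1, Ex.den, x0, x1, ex, ep]; push_cast; ring)
      (by
        intro k h1 h2
        rw [wL_ok _ k h1 h2, x2, et]
        norm_num)
      (by rw [raR_den x0 x1, Int.cast_mul, Int.cast_mul, Int.cast_mul, ipow_eq, ipow_eq]
          push_cast; ring)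
  · obtain ⟨r, s, hr, hr1, hs, hs1, ex, ep⟩ := param_b hp hx1 h
    have x0 := pt3_zero r s (12 * t)
    have x1 := pt3_one r s (12 * t)
    have x2 := pt3_two r s (12 * t)
    rw [rhs_b hr h ex]
    exact E_sound (t := t) (pt3 r s (12 * t)) rL20_chk rL21_chk
      (pt3_nonneg hr hs hu) (pt3_le hr1 hs1 hu1) (by norm_num) (by norm_num)
      (by simp only [la2, rbX3, Ex.den, x0, x1, ex, ep]; push_cast; ring)
      (by simp only [lb2, rbX3, Ex.den, x0, x1, ex, ep]; push_cast; ring)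
      (by
        intro k h1 h2
        rw [wL_ok _ k h1 h2, x2, et]
        norm_num)
      (by rw [rbR_den x0, Int.cast_mul, Int.cast_mul, Int.cast_mul, ipow_eq, ipow_eq]
          push_cast; ring)

/-- certificate inequality, negative part -/
theorem certRegN : CertRegN := by
  intro t x p ht0 ht1 hp hp1 h
  have hu : 0 ≤ 6 * t := by linarith
  have hu1 : 6 * t ≤ 1 := by linarith
  have et : 6 * t / 6 = t := by ring
  obtain ⟨r, s, hr, hr1, hs, hs1, ex, ep⟩ := param_c hp hp1 h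
  have x0 := pt3_zero r s (6 * t)
  have x1 := pt3_one r s (6 * t)
  have x2 := pt3_two r s (6 * t)
  exact E_sound (t := t) (pt3 r s (6 * t)) rN0_chk rN1_chk
    (pt3_nonneg hr hs hu) (pt3_le hr1 hs1 hu1) (by norm_num) (by norm_num)
    (by simp only [na, Ex.den, x0, x1, ex, ep]; push_cast; ring)
    (by simp only [nb, Ex.den, x0, x1, ex, ep]; push_cast; ring)
    (by
      intro k h1 h2
      rw [wN_ok _ k h1 h2, x2, et]
      norm_num)
    (by
      simp only [rcR, rcX, Ex.den, x0, x1, Psi, max_self]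
      rw [Int.cast_mul, Int.cast_mul, Int.cast_mul, ipow_eq, ipow_eq, ex]
      push_cast; ring)

end Vale.Agent.P154.LN
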