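import Vale.Agent.Lib.P154.LN.FrameReg

/-!
# Domination passes to degraded observations
-/

open scoped BigOperators

namespace Vale.Agent.P154.LN

theorem sumF_Fn_degr {Ω Ω' : Type} [Fintype Ω] [Fintype Ω'] {L : Fin 3 → Ω → ℝ}
    {L' : Fin 3 → Ω' → ℝ} (hn : ∀ i x, 0 ≤ L i x) (h : KS.Degr L L') {l f : V3}
    (hl : ∀ i, 0 ≤ l i) : sumF (Fn l f) L' ≤ sumF (Fn l f) L := by
  obtain ⟨K, hK0, hK1, hK⟩ := h
  have hb : ∀ x, 0 ≤ ∑ i, l i * L i x := fun x =>
    Finset.sum_nonneg fun i _ => mul_nonneg (hl i) (hn i x)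
  have hab : ∀ x, (∑ i, l i * L i x) = 0 → (∑ i, l i * f i * L i x) = 0 := by
    intro x hx
    have h0 := (Finset.sum_eq_zero_iff_of_nonneg
      (fun i _ => mul_nonneg (hl i) (hn i x))).1 hx
    refine Finset.sum_eq_zero fun i hi => ?_
    have := h0 i hi
    calc l i * f i * L i x = f i * (l i * L i x) := by ring
      _ = 0 := by rw [this, mul_zero]
  have hpt : ∀ y, Fn l f (fun i => L' i y) ≤ ∑ x, K x y * Fn l f (fun i => L i x) := by
    intro y
    have e1 : ∑ i, l i * f i * L' i y = ∑ x, K x y * ∑ i, l i * f i * L i x := by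
      simp only [hK, Finset.mul_sum]
      rw [Finset.sum_comm]
      exact Finset.sum_congr rfl fun x _ => Finset.sum_congr rfl fun i _ => by ring
    have e2 : ∑ i, l i * L' i y = ∑ x, K x y * ∑ i, l i * L i x := by
      simp only [hK, Finset.mul_sum]
      rw [Finset.sum_comm]
      exact Finset.sum_congr rfl fun x _ => Finset.sum_congr rfl fun i _ => by ring
    have hF : ∀ x, 0 ≤ Fn l f (fun i => L i x) := fun x => Fn_nonneg hl (fun i => hn i x)
    have cs := Finset.sum_sq_le_sum_mul_sum_of_sq_le_mul Finset.univ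
      (r := fun x => K x y * ∑ i, l i * f i * L i x)
      (f := fun x => K x y * Fn l f (fun i => L i x))
      (g := fun x => K x y * ∑ i, l i * L i x)
      (fun x _ => mul_nonneg (hK0 x y) (hF x)) (fun x _ => mul_nonneg (hK0 x y) (hb x))
      (fun x _ => by
        show (K x y * ∑ i, l i * f i * L i x) ^ 2 ≤ K x y * Fn l f (fun i => L i x) *
          (K x y * ∑ i, l i * L i x)
        apply le_of_eq
        unfold Fn
        by_cases hx : (∑ i, l i * L i x) = 0
        · rw [hab x hx, hx]; simp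
        · field_simp)
    show (∑ i, l i * f i * L' i y) ^ 2 / (∑ i, l i * L' i y) ≤ _
    rw [e1, e2]
    apply div_le_of_le_mul₀
    · exact Finset.sum_nonneg fun x _ => mul_nonneg (hK0 x y) (hb x)
    · exact Finset.sum_nonneg fun x _ => mul_nonneg (hK0 x y) (hF x)
    · exact cs
  calc sumF (Fn l f) L' = ∑ y, Fn l f (fun i => L' i y) := rfl
    _ ≤ ∑ y, ∑ x, K x y * Fn l f (fun i => L i x) := Finset.sum_le_sum fun y _ => hpt y
    _ = ∑ x, Fn l f (fun i => L i x) := by
        rw [Finset.sum_comm]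
        refine Finset.sum_congr rfl fun x _ => ?_
        rw [← Finset.sum_mul, hK1, one_mul]
    _ = sumF (Fn l f) L := rfl

theorem Dom.of_degr {Ω Ω' : Type} [Fintype Ω] [Fintype Ω'] {L : Fin 3 → Ω → ℝ}
    {L' : Fin 3 → Ω' → ℝ} {μ : Law} (hn : ∀ i x, 0 ≤ L i x) (h : KS.Degr L L') (hd : Dom L μ) :
    Dom L' μ := fun _ _ hl => (sumF_Fn_degr hn h hl).trans (hd _ _ hl)

/-- domination for a larger parameter implies domination for a smaller one -/
theorem Dom.mono_nu {d n : ℕ} {ν' ν : ℝ} {μ : Law} (h0 : 0 ≤ ν') (h : ν' ≤ ν) (h1 : ν ≤ 1 / 2)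
    (hd : Dom (regLik 3 d (-ν) n) μ) : Dom (regLik 3 d (-ν') n) μ := by
  rcases (h0.trans h).eq_or_lt with hz | hpos
  · have : ν' = ν := le_antisymm h (by rw [← hz]; exact h0)
    rw [this]
    exact hd
  · have e : -ν' = -ν * (ν' / ν) := by
      field_simp
    rw [e]
    exact Dom.of_degr (regLik3_nonneg (by linarith) (by linarith) n)
      (regLik_degr_edge (by linarith) (by linarith) (div_nonneg h0 hpos.le)
        ((div_le_one hpos).2 h) n) hd

end Vale.Agent.P154.LN
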