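import Vale.Agent.Lib.P154.LN.FourChain
import Vale.Agent.Lib.P154.LN.FourCh4
import Vale.Agent.Lib.P154.LN.FourTab5

/-!
# Passing the bottleneck: four children at `-1/2`, five children at `-9/20`
-/

namespace Vale.Agent.P154.LN.Four

theorem setup4 : Setup G4 4294967296 316912650057057350374175801344 18446744073709551616 19 3 3 2 H4 K4 := by
  refine ⟨by decide +kernel, by decide +kernel, by norm_num, by norm_num, by norm_num, by norm_num,
    by decide +kernel, by decide +kernel, by decide +kernel, by decide +kernel, by norm_num,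
    by norm_num⟩

theorem setup5 : Setup G5 4294967296 316912650057057350374175801344 18446744073709551616 9 29 27 20 H5 K5 := by
  refine ⟨by decide +kernel, by decide +kernel, by norm_num, by norm_num, by norm_num, by norm_num,
    by decide +kernel, by decide +kernel, by decide +kernel, by decide +kernel, by norm_num,
    by norm_num⟩

theorem dom4 : ∃ n, Dom (regLik 3 4 (-1 / 2) n) (law G4.N0 4294967296 G4.nodes st4_3) ∧
    (sm st4_3 = 4294967296 ∧ st4_3.length = 19) := by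
  have h0 := setup4.start (d := 4) (lam := (-1 / 2 : ℝ)) 18
  have e : (-(((3 : ℕ) : ℝ) / (3 * ((2 : ℕ) : ℝ)))) = -1 / 2 := by norm_num
  have s0 : 4294967296 :: List.replicate 18 0 = st4_0 := by decide +kernel
  rw [s0] at h0
  obtain ⟨n1, h1, m1⟩ := setup4.chain4 TA4_eq TB4_eq ch4_0 st4_0 0 (by decide +kernel) ch4_0_ok
    (by rw [e]; exact h0)
  rw [st4_1_eq] at h1 m1
  obtain ⟨n2, h2, m2⟩ := setup4.chain4 TA4_eq TB4_eq ch4_1 st4_1 n1 m1 ch4_1_ok h1
  rw [st4_2_eq] at h2 m2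
  obtain ⟨n3, h3, m3⟩ := setup4.chain4 TA4_eq TB4_eq ch4_2 st4_2 n2 m2 ch4_2_ok h2
  rw [st4_3_eq] at h3 m3
  rw [e] at h3
  exact ⟨n3, h3, m3⟩

theorem dom5 : ∃ n, Dom (regLik 3 5 (-9 / 20) n) (law G5.N0 4294967296 G5.nodes st5_1) ∧
    (sm st5_1 = 4294967296 ∧ st5_1.length = 9) := by
  have h0 := setup5.start (d := 5) (lam := (-9 / 20 : ℝ)) 8
  have e : (-(((27 : ℕ) : ℝ) / (3 * ((20 : ℕ) : ℝ)))) = -9 / 20 := by norm_num
  have s0 : 4294967296 :: List.replicate 8 0 = st5_0 := by decide +kernel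
  rw [s0] at h0
  obtain ⟨n1, h1, m1⟩ := setup5.chain5 TA5_eq TB5_eq TC5_eq ch5 st5_0 0 (by decide +kernel) ch5_ok
    (by rw [e]; exact h0)
  rw [st5_1_eq, e] at h1
  rw [st5_1_eq] at m1
  exact ⟨n1, h1, m1⟩

/-- **Exit from the bottleneck**, `4` children. -/
theorem exit4 : ∃ (n : ℕ) (x P : ℝ), Dom (regLik 3 4 (-1 / 2) n) (law3 x P) ∧ Valid x P ∧
    x + x ^ 2 + 3 / 2 * (max P 0) ^ 2 ≤ 5 / 16 := by
  obtain ⟨n, h, m⟩ := dom4
  have h2 : lsum s2 G4.nodes st4_3 = 97879619459855 := by decide +kernel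
  have h3 : lsum s3 G4.nodes st4_3 = 1851419657897958 := by decide +kernel
  have key := setup4.final m h h2 h3
  have hN : ((G4.N0 : ℕ) : ℝ) = 300 := by
    have : G4.N0 = 300 := by decide +kernel
    rw [this]; norm_num
  rw [hN] at key
  refine ⟨n, _, _, key, ⟨by norm_num, by norm_num, by norm_num⟩, ?_⟩
  rw [max_eq_left (by norm_num)]
  norm_num

/-- **Exit from the bottleneck**, `5` children. -/
theorem exit5 : ∃ (n : ℕ) (x P : ℝ), Dom (regLik 3 5 (-9 / 20) n) (law3 x P) ∧ Valid x P ∧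
    x + x ^ 2 + 3 / 2 * (max P 0) ^ 2 ≤ 39 / 100 := by
  obtain ⟨n, h, m⟩ := dom5
  have h2 : lsum s2 G5.nodes st5_1 = 92280190140200 := by decide +kernel
  have h3 : lsum s3 G5.nodes st5_1 = 1573282223119500 := by decide +kernel
  have key := setup5.final m h h2 h3
  have hN : ((G5.N0 : ℕ) : ℝ) = 300 := by
    have : G5.N0 = 300 := by decide +kernel
    rw [this]; norm_num
  rw [hN] at key
  refine ⟨n, _, _, key, ⟨by norm_num, by norm_num, by norm_num⟩, ?_⟩
  rw [max_eq_left (by norm_num)]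
  norm_num

end Vale.Agent.P154.LN.Four
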