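import Vale.Agent.Lib.P154.LN.Cone
import Vale.Agent.Lib.P154.FrameKS
import Vale.Agent.Lib.P154.FrameGW

/-!
# Domination by laws on Poisson Galton-Watson trees
-/

open scoped BigOperators

namespace Vale.Agent.P154.LN.GW

/-! ### Sums of functionals -/

theorem sumF_zero {Ω : Type} [Fintype Ω] (L : Fin 3 → Ω → ℝ) : sumF (fun _ => 0) L = 0 := by
  unfold sumF
  simp

theorem sumF_add {Ω : Type} [Fintype Ω] (φ ψ : V3 → ℝ) (L : Fin 3 → Ω → ℝ) :
    sumF (fun v => φ v + ψ v) L = sumF φ L + sumF ψ L := by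
  unfold sumF
  rw [Finset.sum_add_distrib]

theorem InK.sumF_nonneg {Φ : V3 → ℝ} (h : InK Φ) {Ω : Type} [Fintype Ω] {L : Fin 3 → Ω → ℝ}
    (hL : ∀ i x, 0 ≤ L i x) : 0 ≤ sumF Φ L :=
  Finset.sum_nonneg fun x _ => h.nonneg fun i => hL i x

theorem sumF_edgeL {Ω : Type} [Fintype Ω] (lam : ℝ) (φ : V3 → ℝ) (L : Fin 3 → Ω → ℝ) :
    sumF φ (edgeL lam L) = sumF (fun v => φ (smooth lam v)) L := by
  unfold sumF
  refine Finset.sum_congr rfl fun x _ => ?_
  rw [edgeL_apply]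

theorem edgeL_nonneg {Ω : Type} {lam : ℝ} (h0 : -1 / 2 ≤ lam) (h1 : lam ≤ 1)
    {L : Fin 3 → Ω → ℝ} (hL : ∀ i x, 0 ≤ L i x) (i : Fin 3) (x : Ω) : 0 ≤ edgeL lam L i x :=
  Finset.sum_nonneg fun j _ => mul_nonneg (kernel_nonneg h0 h1 i j) (hL j x)

theorem prodL_nonneg {m : ℕ} {Ω : Fin m → Type} {E : ∀ k, Fin 3 → Ω k → ℝ}
    (hE : ∀ k i x, 0 ≤ E k i x) (i : Fin 3) (x : ∀ k, Ω k) : 0 ≤ prodL E i x :=
  Finset.prod_nonneg fun k _ => hE k i (x k)

theorem gw_nonneg {lam : ℝ} (h0 : -1 / 2 ≤ lam) (h1 : lam ≤ 1) (n : ℕ) (t : GWTree n)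
    (i : Fin 3) (x : GWCfg 3 n t) : 0 ≤ gwLik 3 lam n t i x := by
  refine KS.gwLik_nonneg (by norm_num) ?_ h1 n t i x
  have : (-1 : ℝ) / (((3 : ℕ) : ℝ) - 1) = -1 / 2 := by norm_num
  rw [this]
  exact h0

/-! ### Domination -/

/-- domination of the likelihoods of the Galton-Watson tree by a law, averaged over the tree -/
def DomGW (d lam : ℝ) (n : ℕ) (μ : Law) : Prop :=
  ∀ l f : V3, (∀ i, 0 ≤ l i) →
    KS.Ex d n (fun t => ENNReal.ofReal (sumF (Fn l f) (gwLik 3 lam n t))) ≤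
      ENNReal.ofReal (ev μ (Fn l f))

theorem DomGW.cone {d lam : ℝ} {n : ℕ} {μ : Law} (h : DomGW d lam n μ) (hμ : μ.Ok)
    (h0 : -1 / 2 ≤ lam) (h1 : lam ≤ 1) {Φ : V3 → ℝ} (hΦ : InK Φ) :
    KS.Ex d n (fun t => ENNReal.ofReal (sumF Φ (gwLik 3 lam n t))) ≤
      ENNReal.ofReal (ev μ Φ) := by
  obtain ⟨s, hs, e⟩ := hΦ
  have e' : Φ = fun w => (s.map (fun a => Fn a.1 a.2 w)).sum := funext e
  rw [e']
  clear e e'
  induction s with
  | nil =>
    simp only [List.map_nil, List.sum_nil]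
    unfold KS.Ex
    simp [sumF_zero]
  | cons a s ih =>
    have ha := hs a (by simp)
    have hs' : ∀ b ∈ s, ∀ i, 0 ≤ b.1 i := fun b hb => hs b (by simp [hb])
    have ih' := ih hs'
    have hK : InK (fun w => (s.map (fun a => Fn a.1 a.2 w)).sum) := ⟨s, hs', fun _ => rfl⟩
    have hA : InK (Fn a.1 a.2) := inK_Fn ha
    simp only [List.map_cons, List.sum_cons]
    have e1 : ∀ t : GWTree n, ENNReal.ofReal (sumF (fun w => Fn a.1 a.2 w +
        (s.map (fun a => Fn a.1 a.2 w)).sum) (gwLik 3 lam n t)) =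
        ENNReal.ofReal (sumF (Fn a.1 a.2) (gwLik 3 lam n t)) +
        ENNReal.ofReal (sumF (fun w => (s.map (fun a => Fn a.1 a.2 w)).sum)
          (gwLik 3 lam n t)) := by
      intro t
      rw [sumF_add, ENNReal.ofReal_add (hA.sumF_nonneg (gw_nonneg h0 h1 n t))
        (hK.sumF_nonneg (gw_nonneg h0 h1 n t))]
    rw [ev_add, ENNReal.ofReal_add (hA.ev_nonneg hμ) (hK.ev_nonneg hμ)]
    simp only [e1]
    unfold KS.Ex at ih' ⊢
    simp only [mul_add]
    rw [ENNReal.tsum_add]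
    exact add_le_add (h a.1 a.2 ha) ih'

/-- the sum over the configurations of one child -/
theorem sumF_tens_pm {Ω Ω' : Type} [Fintype Ω] [Fintype Ω'] (Φ : V3 → ℝ) (w : V3)
    (L : Fin 3 → Ω → ℝ) (L' : Fin 3 → Ω' → ℝ) :
    sumF (fun y => Φ (pm w y)) (tens L L') =
      ∑ x, sumF (fun y => Φ (pm (pm w (fun i => L i x)) y)) L' := by
  unfold sumF
  rw [Fintype.sum_prod_type]
  refine Finset.sum_congr rfl fun x _ => Finset.sum_congr rfl fun y _ => ?_
  show Φ (pm w (fun i => tens L L' i (x, y))) = Φ (pm (pm w (fun i => L i x)) (fun i => L' i y))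
  rw [pm_assoc]
  rfl

theorem sumF_gw_cons {lam : ℝ} {n : ℕ} (f : V3 → ℝ) (k : ℕ) (a : GWTree n)
    (ts : Fin k → GWTree n) :
    sumF f (prodL (fun j : Fin (k + 1) =>
      edgeL lam (gwLik 3 lam n ((Fin.cons a ts : Fin (k + 1) → GWTree n) j)))) =
    sumF f (tens (edgeL lam (gwLik 3 lam n a))
      (prodL (fun j : Fin k => edgeL lam (gwLik 3 lam n (ts j))))) :=
  sumF_prodL_succ (Ω := fun j => GWCfg 3 n ((Fin.cons a ts : Fin (k + 1) → GWTree n) j)) f
    (fun j : Fin (k + 1) =>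
      edgeL lam (gwLik 3 lam n ((Fin.cons a ts : Fin (k + 1) → GWTree n) j)))

theorem DomGW.pow {d lam : ℝ} {n : ℕ} {μ : Law} (h : DomGW d lam n μ) (hμ : μ.Ok)
    (h0 : -1 / 2 ≤ lam) (h1 : lam ≤ 1) {Φ : V3 → ℝ} (hΦ : InK Φ) (k : ℕ) :
    ∀ {w : V3}, (∀ i, 0 ≤ w i) →
    ∑' ts : Fin k → GWTree n, (∏ i, KS.wt d n (ts i)) * ENNReal.ofReal
      (sumF (fun y => Φ (pm w y)) (prodL (fun j : Fin k => edgeL lam (gwLik 3 lam n (ts j))))) ≤
      ENNReal.ofReal ((opL (edgeLaw lam μ))^[k] Φ w) := by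
  have hν : Law.Ok (edgeLaw lam μ) := hμ.edge h0 h1
  induction k with
  | zero =>
    intro w hw
    have e1 : ∀ ts : Fin 0 → GWTree n, (∏ i, KS.wt d n (ts i)) * ENNReal.ofReal
        (sumF (fun y => Φ (pm w y))
          (prodL (fun j : Fin 0 => edgeL lam (gwLik 3 lam n (ts j))))) =
        ENNReal.ofReal (Φ w) := by
      intro ts
      rw [sumF_prodL_zero]
      have : pm w (fun _ => 1) = w := by
        funext i
        exact mul_one _
      rw [this]
      simp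
    simp only [e1]
    simp
  | succ k ih =>
    intro w hw
    set Ψ : V3 → ℝ := (opL (edgeLaw lam μ))^[k] Φ with hΨ
    have hΨK : InK Ψ := hΦ.iterate hν k
    rw [KS.tsum_pi_succ]
    have hC : ∀ (a : GWTree n) (x : GWCfg 3 n a) (i : Fin 3),
        0 ≤ pm w (fun i => edgeL lam (gwLik 3 lam n a) i x) i := fun a x i =>
      pm_nonneg hw (fun i => edgeL_nonneg h0 h1 (gw_nonneg h0 h1 n a) i x) i
    have e1 : ∀ a : GWTree n, ∑' ts : Fin k → GWTree n,
        (∏ i, KS.wt d n ((Fin.cons a ts : Fin (k + 1) → GWTree n) i)) * ENNReal.ofReal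
        (sumF (fun y => Φ (pm w y)) (prodL (fun j : Fin (k + 1) =>
          edgeL lam (gwLik 3 lam n ((Fin.cons a ts : Fin (k + 1) → GWTree n) j))))) =
        KS.wt d n a * ∑ x, ∑' ts : Fin k → GWTree n, (∏ i, KS.wt d n (ts i)) *
          ENNReal.ofReal (sumF (fun y => Φ (pm (pm w (fun i =>
            edgeL lam (gwLik 3 lam n a) i x)) y))
            (prodL (fun j : Fin k => edgeL lam (gwLik 3 lam n (ts j))))) := by
      intro a
      rw [← Summable.tsum_finsetSum (fun _ _ => ENNReal.summable), ← ENNReal.tsum_mul_left]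
      refine tsum_congr fun ts => ?_
      rw [Fin.prod_univ_succ]
      simp only [Fin.cons_zero, Fin.cons_succ]
      rw [sumF_gw_cons, sumF_tens_pm, ENNReal.ofReal_sum_of_nonneg, Finset.mul_sum,
        Finset.mul_sum]
      · refine Finset.sum_congr rfl fun x _ => ?_
        rw [mul_assoc]
      · intro x _
        exact (hΦ.pm (hC a x)).sumF_nonneg
          (prodL_nonneg fun j => edgeL_nonneg h0 h1 (gw_nonneg h0 h1 n (ts j)))
    simp only [e1]
    have e2 : ∀ a : GWTree n, KS.wt d n a * ∑ x, ∑' ts : Fin k → GWTree n,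
        (∏ i, KS.wt d n (ts i)) *
          ENNReal.ofReal (sumF (fun y => Φ (pm (pm w (fun i =>
            edgeL lam (gwLik 3 lam n a) i x)) y))
            (prodL (fun j : Fin k => edgeL lam (gwLik 3 lam n (ts j))))) ≤
        KS.wt d n a * ENNReal.ofReal (sumF (fun v => Ψ (pm w (smooth lam v)))
          (gwLik 3 lam n a)) := by
      intro a
      refine mul_le_mul_right ?_ _
      have e3 : sumF (fun v => Ψ (pm w (smooth lam v))) (gwLik 3 lam n a) =
          ∑ x, Ψ (pm w (fun i => edgeL lam (gwLik 3 lam n a) i x)) := by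
        rw [← sumF_edgeL lam (fun v => Ψ (pm w v))]
        rfl
      rw [e3, ENNReal.ofReal_sum_of_nonneg (fun x _ => hΨK.nonneg (hC a x))]
      exact Finset.sum_le_sum fun x _ => ih (hC a x)
    refine le_trans (ENNReal.tsum_le_tsum e2) ?_
    have hK2 : InK (fun v => Ψ (pm w (smooth lam v))) := (hΨK.pm hw).smooth h0 h1
    have h2 := h.cone hμ h0 h1 hK2
    unfold KS.Ex at h2
    refine le_trans h2 (le_of_eq ?_)
    rw [Function.iterate_succ_apply', ← hΨ, opL_eq_ev, ev_edgeLaw]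

/-- one step of the recursion -/
theorem DomGW.step {d lam : ℝ} (hd : 0 < d) {n : ℕ} {μ : Law} (h : DomGW d lam n μ)
    (hμ : μ.Ok) (h0 : -1 / 2 ≤ lam) (h1 : lam ≤ 1) {Φ : V3 → ℝ} (hΦ : InK Φ) :
    KS.Ex d (n + 1) (fun t => ENNReal.ofReal (sumF Φ (gwLik 3 lam (n + 1) t))) ≤
      ∑' k, KS.pois d k * ENNReal.ofReal ((opL (edgeLaw lam μ))^[k] Φ one3) := by
  rw [KS.Ex_succ hd]
  refine ENNReal.tsum_le_tsum fun k => mul_le_mul_right ?_ _
  have hone : ∀ i, 0 ≤ one3 i := fun i => by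
    rw [one3_apply]
    exact zero_le_one
  have h2 := h.pow hμ h0 h1 hΦ k hone
  simp only [one3_pm] at h2
  exact h2

end Vale.Agent.P154.LN.GW
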