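import Vale.Agent.Lib.P154.LN.FrameReg
import Vale.Agent.Lib.P154.LN.FrameGW

/-!
# The state recursion on Poisson Galton-Watson trees

`gw_state_step`: one level of the tree in terms of the two parameters `(x, P)`.
`gw_nonrec_of_seq`: nonreconstruction when the resulting sequence tends to zero.
-/

open scoped BigOperators

namespace Vale.Agent.P154.LN.GW

theorem pois_eq (d : ℝ) (k : ℕ) : KS.pois d k = ENNReal.ofReal (poi d k) := rfl

theorem ev_law3 (x P : ℝ) (φ : V3 → ℝ) : ev (law3 x P) φ =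
    (x + 2 * P) / 3 * avg φ ver3 + 8 / 3 * (x - P) * avg φ mid3
      + (1 - 3 * x + 2 * P) * avg φ one3 := by
  unfold ev law3
  simp only [List.map_cons, List.map_nil, List.sum_cons, List.sum_nil]
  ring

theorem _root_.Vale.Agent.P154.LN.Valid.law3_ok {x P : ℝ} (h : Valid x P) : Law.Ok (law3 x P) := by
  obtain ⟨h1, h2, h3⟩ := h
  intro a ha
  unfold law3 at ha
  simp only [List.mem_cons, List.not_mem_nil, or_false] at ha
  rcases ha with rfl | rfl | rfl
  · exact ⟨by show 0 ≤ (x + 2 * P) / 3; linarith, ver3_nonneg⟩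
  · exact ⟨by show 0 ≤ 8 / 3 * (x - P); linarith, mid3_nonneg⟩
  · exact ⟨by show 0 ≤ 1 - 3 * x + 2 * P; linarith, one3_nonneg⟩

theorem _root_.Vale.Agent.P154.LN.Valid.nonneg {x P : ℝ} (h : Valid x P) : 0 ≤ x := by
  obtain ⟨h1, h2, h3⟩ := h
  linarith

theorem _root_.Vale.Agent.P154.LN.Valid.le_one {x P : ℝ} (h : Valid x P) : x ≤ 1 := by
  obtain ⟨h1, h2, h3⟩ := h
  linarith

theorem _root_.Vale.Agent.P154.LN.Valid.abs_le {x P : ℝ} (h : Valid x P) : |P| ≤ 1 := by
  obtain ⟨h1, h2, h3⟩ := h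
  rw [_root_.abs_le]
  constructor <;> linarith

theorem summable_poi_mul {d : ℝ} (hd : 0 < d) {A : ℕ → ℝ} (hA : ∀ k, |A k| ≤ 1) :
    Summable (fun k => poi d k * A k) := by
  refine Summable.of_norm_bounded (g := poi d) (hasSum_poi d).summable fun k => ?_
  rw [Real.norm_eq_abs, abs_mul, abs_of_nonneg (poi_nonneg hd.le k)]
  exact mul_le_of_le_one_right (poi_nonneg hd.le k) (hA k)

theorem hasSum_poi_ev {d : ℝ} (hd : 0 < d) {A B : ℕ → ℝ} (hV : ∀ k, Valid (A k) (B k))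
    (φ : V3 → ℝ) : HasSum (fun k => poi d k * ev (law3 (A k) (B k)) φ)
      (ev (law3 (∑' k, poi d k * A k) (∑' k, poi d k * B k)) φ) := by
  have hA := (summable_poi_mul hd (A := A) fun k => by
    rw [abs_of_nonneg (hV k).nonneg]
    exact (hV k).le_one).hasSum
  have hB := (summable_poi_mul hd (A := B) fun k => (hV k).abs_le).hasSum
  have h1 := hasSum_poi d
  have h := ((hA.mul_right (1 / 3 * avg φ ver3 + 8 / 3 * avg φ mid3 - 3 * avg φ one3)).add
    (hB.mul_right (2 / 3 * avg φ ver3 - 8 / 3 * avg φ mid3 + 2 * avg φ one3))).add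
    (h1.mul_right (avg φ one3))
  refine hasSum_of_eq h (fun k => ?_) ?_
  · rw [ev_law3]
    ring
  · rw [ev_law3]
    ring

theorem valid_tsum {d : ℝ} (hd : 0 < d) {A B : ℕ → ℝ} (hV : ∀ k, Valid (A k) (B k)) :
    Valid (∑' k, poi d k * A k) (∑' k, poi d k * B k) := by
  have hA := (summable_poi_mul hd (A := A) fun k => by
    rw [abs_of_nonneg (hV k).nonneg]
    exact (hV k).le_one).hasSum
  have hB := (summable_poi_mul hd (A := B) fun k => (hV k).abs_le).hasSum
  have h1 := hasSum_poi d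
  have hp := fun k => poi_nonneg hd.le k
  refine ⟨?_, ?_, ?_⟩
  · refine (hA.add (hB.mul_left 2)).nonneg fun k => ?_
    have := mul_nonneg (hp k) (hV k).1
    linarith
  · refine hasSum_le (fun k => ?_) hB hA
    exact mul_le_mul_of_nonneg_left (hV k).2.1 (hp k)
  · refine hasSum_le (fun k => ?_) ((hA.mul_left 3).sub (hB.mul_left 2)) h1
    have := mul_le_mul_of_nonneg_left (hV k).2.2 (hp k)
    linarith

/-- **State step on Galton-Watson trees.** -/
theorem _root_.Vale.Agent.P154.LN.gw_state_step {d ν0 θ : ℝ} (hd : 0 < d) (hν0 : 0 ≤ ν0) (hν1 : ν0 ≤ 1 / 2) (hθ0 : 0 ≤ θ)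
    (hθ1 : θ ≤ 1) {n : ℕ} {x P : ℝ} (h : DomGW d (-(ν0 * θ)) n (law3 x P)) (hV : Valid x P) :
    DomGW d (-(ν0 * θ)) (n + 1)
      (law3 (∑' k, poi d k * (opL (msg ν0 θ x P))^[k] fA one3)
        (∑' k, poi d k * (opL (msg ν0 θ x P))^[k] fP one3)) ∧
    Valid (∑' k, poi d k * (opL (msg ν0 θ x P))^[k] fA one3)
        (∑' k, poi d k * (opL (msg ν0 θ x P))^[k] fP one3) := by
  have hm := msg_ok hν0 hν1 hθ0 hθ1 hV
  have hval : ∀ k, Valid ((opL (msg ν0 θ x P))^[k] fA one3)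
      ((opL (msg ν0 θ x P))^[k] fP one3) := fun k => valid_iter hm (msg_mass ν0 θ x P) k
  have hprod : 0 ≤ ν0 * θ := mul_nonneg hν0 hθ0
  have hprod1 : ν0 * θ ≤ 1 / 2 := by
    have := mul_le_mul hν1 hθ1 hθ0 (by norm_num : (0 : ℝ) ≤ 1 / 2)
    linarith
  have h0 : -1 / 2 ≤ -(ν0 * θ) := by linarith
  have h1 : -(ν0 * θ) ≤ 1 := by linarith
  have hok : Law.Ok (law3 x P) := hV.law3_ok
  refine ⟨fun l f hl => ?_, valid_tsum hd hval⟩
  have hK : InK (Fn l f) := inK_Fn hl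
  refine le_trans (h.step hd hok h0 h1 hK) ?_
  have e1 : ∀ k, KS.pois d k * ENNReal.ofReal
      ((opL (edgeLaw (-(ν0 * θ)) (law3 x P)))^[k] (Fn l f) one3) ≤
      ENNReal.ofReal (poi d k * ev (law3 ((opL (msg ν0 θ x P))^[k] fA one3)
        ((opL (msg ν0 θ x P))^[k] fP one3)) (Fn l f)) := by
    intro k
    rw [ENNReal.ofReal_mul (poi_nonneg hd.le k), pois_eq]
    refine mul_le_mul_right (ENNReal.ofReal_le_ofReal ?_) _
    refine le_trans (iterate_le_of_cone (hok.edge h0 h1) hm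
      (fun l f hl => law3_thin hν0 hν1 hθ0 hθ1 hV hl) hK k one3_nonneg) ?_
    exact collapse hm (msg_mass ν0 θ x P) k hl
  refine le_trans (ENNReal.tsum_le_tsum e1) (le_of_eq ?_)
  have hs := hasSum_poi_ev hd hval (Fn l f)
  rw [← hs.tsum_eq]
  refine (ENNReal.ofReal_tsum_of_nonneg (fun k => ?_) hs.summable).symm
  exact mul_nonneg (poi_nonneg hd.le k) (hK.ev_nonneg (hval k).law3_ok)

/-! ### The zeroth level -/

theorem Fn_single (l f : V3) (j : Fin 3) (c : ℝ) :
    Fn l f (fun i => if i = j then c else 0) = (l j * f j * c) ^ 2 / (l j * c) := by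
  unfold Fn
  simp

theorem sumF_level_zero (l f : V3) :
    sumF (Fn l f) (fun (i : Fin 3) (x : Fin 3) => if i = x then (1 : ℝ) else 0) =
      avg (Fn l f) ver3 := by
  rw [avg_ver]
  unfold sumF
  simp only [Fn_single]
  rw [Fin.sum_univ_three]
  simp only [mul_one]

theorem domGW_zero (d lam : ℝ) : DomGW d lam 0 (law3 1 1) := by
  intro l f _
  have h : ∀ t : GWTree 0, sumF (Fn l f) (gwLik 3 lam 0 t) = avg (Fn l f) ver3 :=
    fun _ => sumF_level_zero l f
  simp only [h]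
  rw [KS.Ex_zero, ev_law3]
  refine ENNReal.ofReal_le_ofReal (le_of_eq ?_)
  ring

/-! ### The chi functional -/

/-- `chi` plus one sixth of the sum, as an element of the cone -/
noncomputable def chiK (w : V3) : ℝ :=
  1 / 2 * ((Fn (fun _ => 1) (fun i => if i = 0 then 1 else 0) w +
    Fn (fun _ => 1) (fun i => if i = 1 then 1 else 0) w) +
    Fn (fun _ => 1) (fun i => if i = 2 then 1 else 0) w)

theorem inK_chiK : InK chiK := by
  have h : ∀ j : Fin 3, InK (Fn (fun _ => 1) (fun i => if i = j then 1 else 0)) := fun j =>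
    inK_Fn fun _ => zero_le_one
  exact (((h 0).add (h 1)).add (h 2)).smul (by norm_num)

theorem Fn_one_single (j : Fin 3) (w : V3) :
    Fn (fun _ => 1) (fun i => if i = j then 1 else 0) w = w j ^ 2 / ∑ i, w i := by
  unfold Fn
  simp

theorem chiK_eq (w : V3) : chiK w = chi w + (∑ i, w i) / 6 := by
  unfold chiK chi
  rw [Fn_one_single, Fn_one_single, Fn_one_single, Fin.sum_univ_three, Fin.sum_univ_three]
  push_cast
  by_cases h : w 0 + w 1 + w 2 = 0
  · rw [h]
    simp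
  · field_simp
    ring

theorem chiK_vec (a b c : ℝ) : chiK ![a, b, c] = (a ^ 2 + b ^ 2 + c ^ 2) / (a + b + c) / 2 := by
  unfold chiK
  rw [Fn_one_single, Fn_one_single, Fn_one_single, Fin.sum_univ_three]
  show 1 / 2 * (a ^ 2 / (a + b + c) + b ^ 2 / (a + b + c) + c ^ 2 / (a + b + c)) = _
  ring

theorem avg_chiK (a b c : ℝ) :
    avg chiK ![a, b, c] = (a ^ 2 + b ^ 2 + c ^ 2) / (a + b + c) / 2 := by
  show (chiK ![a, b, c] + chiK ![a, c, b] + chiK ![b, a, c] + chiK ![b, c, a]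
    + chiK ![c, a, b] + chiK ![c, b, a]) / 6 = _
  rw [chiK_vec, chiK_vec, chiK_vec, chiK_vec, chiK_vec, chiK_vec,
    show a + c + b = a + b + c by ring, show b + a + c = a + b + c by ring,
    show b + c + a = a + b + c by ring, show c + a + b = a + b + c by ring,
    show c + b + a = a + b + c by ring]
  ring

theorem ev_chiK (x P : ℝ) : ev (law3 x P) chiK = x + 1 / 2 := by
  rw [ev_law3, ver3, mid3, one3, avg_chiK, avg_chiK, avg_chiK]
  norm_num
  ring

theorem sumF_chiK {Ω : Type} [Fintype Ω] {L : Fin 3 → Ω → ℝ} (hn : ∀ i, ∑ x, L i x = 1) :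
    sumF chiK L = sumF chi L + 1 / 2 := by
  have e : sumF chiK L = sumF chi L + (∑ x, ∑ i, L i x) / 6 := by
    unfold sumF
    rw [Finset.sum_div, ← Finset.sum_add_distrib]
    exact Finset.sum_congr rfl fun x _ => chiK_eq _
  rw [e, Finset.sum_comm]
  simp only [hn]
  norm_num

/-- average of `chi` over the tree -/
theorem Ex_chi_le {d lam : ℝ} (hd : 0 < d) {n : ℕ} {x P : ℝ} (h : DomGW d lam n (law3 x P))
    (hV : Valid x P) (h0 : -1 / 2 ≤ lam) (h1 : lam ≤ 1) :
    KS.Ex d n (fun t => ENNReal.ofReal (sumF chi (gwLik 3 lam n t))) ≤ ENNReal.ofReal x := by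
  have h2 := h.cone hV.law3_ok h0 h1 inK_chiK
  rw [ev_chiK] at h2
  have e : ∀ t : GWTree n, ENNReal.ofReal (sumF chiK (gwLik 3 lam n t)) =
      ENNReal.ofReal (sumF chi (gwLik 3 lam n t)) + ENNReal.ofReal (1 / 2) := by
    intro t
    rw [sumF_chiK (fun i => KS.gwLik_sum (by norm_num) lam n t i),
      ENNReal.ofReal_add (sumF_chi_nonneg (gw_nonneg h0 h1 n t)) (by norm_num)]
  simp only [e] at h2
  unfold KS.Ex at h2 ⊢
  simp only [mul_add] at h2
  rw [ENNReal.tsum_add, ENNReal.tsum_mul_right, KS.Ex_one hd n, one_mul,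
    ENNReal.ofReal_add hV.nonneg (by norm_num)] at h2
  exact (ENNReal.add_le_add_iff_right ENNReal.ofReal_ne_top).1 h2

/-- **Nonreconstruction on Galton-Watson trees** from the two dimensional recursion. -/
theorem _root_.Vale.Agent.P154.LN.gw_nonrec_of_seq {d ν0 θ : ℝ} (hd : 0 < d) (hν0 : 0 ≤ ν0) (hν1 : ν0 ≤ 1 / 2)
    (hθ0 : 0 ≤ θ) (hθ1 : θ ≤ 1) (x P : ℕ → ℝ) (hx0 : x 0 = 1) (hP0 : P 0 = 1)
    (hx : ∀ n, x (n + 1) = ∑' k, poi d k * (opL (msg ν0 θ (x n) (P n)))^[k] fA one3)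
    (hP : ∀ n, P (n + 1) = ∑' k, poi d k * (opL (msg ν0 θ (x n) (P n)))^[k] fP one3)
    (hlim : Filter.Tendsto x Filter.atTop (nhds 0)) :
    Nonreconstruction (gwA 3 d (-(ν0 * θ))) := by
  have hprod : 0 ≤ ν0 * θ := mul_nonneg hν0 hθ0
  have hprod1 : ν0 * θ ≤ 1 / 2 := by
    have := mul_le_mul hν1 hθ1 hθ0 (by norm_num : (0 : ℝ) ≤ 1 / 2)
    linarith
  have h0 : -1 / 2 ≤ -(ν0 * θ) := by linarith
  have h1 : -(ν0 * θ) ≤ 1 := by linarith
  have h0' : -1 / (((3 : ℕ) : ℝ) - 1) ≤ -(ν0 * θ) := by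
    refine le_trans (le_of_eq ?_) h0
    norm_num
  have key : ∀ n, DomGW d (-(ν0 * θ)) n (law3 (x n) (P n)) ∧ Valid (x n) (P n) := by
    intro n
    induction n with
    | zero =>
      rw [hx0, hP0]
      exact ⟨domGW_zero d _, valid_one⟩
    | succ n ih =>
      rw [hx, hP]
      exact gw_state_step hd hν0 hν1 hθ0 hθ1 ih.1 ih.2
  refine tendsto_zero_of_bias (A := 3 / 4) (B := 1 / 6)
    (fun n => KS.gwA_nonneg (by norm_num) hd h0' h1 n) hlim (fun n δ hδ => ?_)
  have hX := Ex_chi_le hd (key n).1 (key n).2 h0 h1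
  have hxn := (key n).2.nonneg
  have hb : ∀ t : GWTree n, ENNReal.ofReal (avgBias (gwLik 3 (-(ν0 * θ)) n t)) ≤
      ENNReal.ofReal (3 / 4 * δ) +
        ENNReal.ofReal (1 / 6 / δ) * ENNReal.ofReal (sumF chi (gwLik 3 (-(ν0 * θ)) n t)) := by
    intro t
    have h2 := avgBias_le (q := 3) (by norm_num) (gw_nonneg h0 h1 n t)
      (fun i => KS.gwLik_sum (by norm_num) (-(ν0 * θ)) n t i) hδ
    have h3 := sumF_chi_nonneg (gw_nonneg h0 h1 n t)
    rw [← ENNReal.ofReal_mul (by positivity), ← ENNReal.ofReal_add (by positivity)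
      (by positivity)]
    refine ENNReal.ofReal_le_ofReal (le_trans h2 (le_of_eq ?_))
    push_cast
    field_simp
    ring
  have h4 : ENNReal.ofReal (gwA 3 d (-(ν0 * θ)) n) ≤
      ENNReal.ofReal (3 / 4 * δ + 1 / 6 / δ * x n) := by
    rw [KS.ofReal_gwA (by norm_num) hd h0' h1]
    refine le_trans (KS.Ex_mono n hb) ?_
    unfold KS.Ex at hX ⊢
    simp only [mul_add]
    rw [ENNReal.tsum_add, ENNReal.tsum_mul_right, KS.Ex_one hd n, one_mul,
      tsum_congr (fun t => mul_left_comm _ _ _), ENNReal.tsum_mul_left,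
      ENNReal.ofReal_add (by positivity) (by positivity),
      ENNReal.ofReal_mul (p := 1 / 6 / δ) (by positivity)]
    exact add_le_add le_rfl (mul_le_mul_right hX _)
  rw [ENNReal.ofReal_le_ofReal_iff (by positivity)] at h4
  exact h4

end Vale.Agent.P154.LN.GW
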