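import Vale.Agent.Lib.P154.LN.Ops
import Vale.Agent.Lib.P154.FrameKS

/-!
# Framework for regular trees: domination by laws and the recursion for the three-atom laws

Three colours, `lam = -(ν₀ θ)`.  If the likelihood family of level `n` is dominated by the law
`law3 x P`, then the family of level `n + 1` is dominated by `law3 X Y`, where `X`, `Y` are the
values at the centre of the `d`-fold iterates of the message operator on `fA`, `fP`.
-/

open scoped BigOperators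

namespace Vale.Agent.P154.LN

open Finset

/-! ### Orientations -/

theorem sum_perm3 (G : Fin 3 → Fin 3 → Fin 3 → ℝ) :
    ∑ s : Equiv.Perm (Fin 3), G (s 0) (s 1) (s 2) =
      G 0 1 2 + G 1 2 0 + G 2 0 1 + G 0 2 1 + G 1 0 2 + G 2 1 0 := by
  have h : (Finset.univ : Finset (Equiv.Perm (Fin 3))) =
      {1, finRotate 3, (finRotate 3) ^ 2, Equiv.swap 1 2, Equiv.swap 0 1, Equiv.swap 0 2} := by
    decide
  rw [h, Finset.sum_insert (by decide), Finset.sum_insert (by decide),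
    Finset.sum_insert (by decide), Finset.sum_insert (by decide), Finset.sum_insert (by decide),
    Finset.sum_singleton]
  have e : ∀ (s : Equiv.Perm (Fin 3)) (i j k : Fin 3), s 0 = i → s 1 = j → s 2 = k →
      G (s 0) (s 1) (s 2) = G i j k := by
    intro s i j k h0 h1 h2; rw [h0, h1, h2]
  rw [e 1 0 1 2 (by decide) (by decide) (by decide),
    e (finRotate 3) 1 2 0 (by decide) (by decide) (by decide),
    e ((finRotate 3) ^ 2) 2 0 1 (by decide) (by decide) (by decide),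
    e (Equiv.swap 1 2) 0 2 1 (by decide) (by decide) (by decide),
    e (Equiv.swap 0 1) 1 0 2 (by decide) (by decide) (by decide),
    e (Equiv.swap 0 2) 2 1 0 (by decide) (by decide) (by decide)]
  ring

/-- the vector `w` in the orientation `s` -/
def rot (s : Equiv.Perm (Fin 3)) (w : V3) : V3 := fun i => w (s i)

theorem vec_eq (w : V3) : w = ![w 0, w 1, w 2] := by
  funext i
  fin_cases i <;> rfl

theorem rot_eq (s : Equiv.Perm (Fin 3)) (w : V3) : rot s w = ![w (s 0), w (s 1), w (s 2)] :=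
  vec_eq _

theorem avg_eq (g : V3 → ℝ) (w : V3) :
    avg g w = (∑ s : Equiv.Perm (Fin 3), g (rot s w)) / 6 := by
  have h : ∑ s : Equiv.Perm (Fin 3), g (rot s w) =
      ∑ s : Equiv.Perm (Fin 3), g ![w (s 0), w (s 1), w (s 2)] :=
    Finset.sum_congr rfl fun s _ => by rw [rot_eq]
  rw [h, sum_perm3 (fun i j k => g ![w i, w j, w k])]
  unfold avg
  ring

theorem rot_pm (s : Equiv.Perm (Fin 3)) (v w : V3) : rot s (pm v w) = pm (rot s v) (rot s w) := rfl

theorem rot_rot (s t : Equiv.Perm (Fin 3)) (w : V3) : rot s (rot t w) = rot (t * s) w := rfl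

theorem rot_one3 (s : Equiv.Perm (Fin 3)) : rot s one3 = one3 := by
  have h : ∀ i, one3 i = 1 := by
    intro i
    fin_cases i <;> rfl
  funext i
  show one3 (s i) = one3 i
  rw [h, h]

theorem one3_apply (i : Fin 3) : one3 i = 1 := by
  fin_cases i <;> rfl

theorem pm_one3 (w : V3) : pm w one3 = w := by
  funext i
  show w i * one3 i = w i
  rw [one3_apply, mul_one]

theorem one3_pm (w : V3) : pm one3 w = w := by
  funext i
  show one3 i * w i = w i
  rw [one3_apply, one_mul]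

theorem pm_comm (v w : V3) : pm v w = pm w v := by
  funext i
  exact mul_comm _ _

theorem pm_assoc (u v w : V3) : pm (pm u v) w = pm u (pm v w) := by
  funext i
  exact mul_assoc _ _ _

theorem pm_nonneg {v w : V3} (hv : ∀ i, 0 ≤ v i) (hw : ∀ i, 0 ≤ w i) : ∀ i, 0 ≤ pm v w i :=
  fun i => mul_nonneg (hv i) (hw i)

theorem rot_nonneg {w : V3} (hw : ∀ i, 0 ≤ w i) (s : Equiv.Perm (Fin 3)) : ∀ i, 0 ≤ rot s w i :=
  fun _ => hw _

theorem one3_nonneg : ∀ i, 0 ≤ one3 i := fun i => by rw [one3_apply]; norm_num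

theorem mid3_nonneg : ∀ i, 0 ≤ mid3 i := fun i => by
  fin_cases i
  · show (0 : ℝ) ≤ 3 / 2; norm_num
  · show (0 : ℝ) ≤ 3 / 2; norm_num
  · show (0 : ℝ) ≤ 0; norm_num

theorem ver3_nonneg : ∀ i, 0 ≤ ver3 i := fun i => by
  fin_cases i
  · show (0 : ℝ) ≤ 3; norm_num
  · show (0 : ℝ) ≤ 0; norm_num
  · show (0 : ℝ) ≤ 0; norm_num

theorem avg_one3 (g : V3 → ℝ) : avg g one3 = g one3 := by
  rw [avg_eq]
  simp only [rot_one3]
  rw [Finset.sum_const, Finset.card_univ, Fintype.card_perm, Fintype.card_fin, nsmul_eq_mul]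
  norm_num [Nat.factorial]

theorem avg_rot (g : V3 → ℝ) (s : Equiv.Perm (Fin 3)) (w : V3) : avg g (rot s w) = avg g w := by
  rw [avg_eq, avg_eq]
  congr 1
  simp only [rot_rot]
  exact Equiv.sum_comp (Equiv.mulLeft s) (fun t => g (rot t w))

theorem avg_mono {g h : V3 → ℝ} {w : V3} (hw : ∀ i, 0 ≤ w i)
    (hgh : ∀ v : V3, (∀ i, 0 ≤ v i) → g v ≤ h v) : avg g w ≤ avg h w := by
  rw [avg_eq, avg_eq]
  exact div_le_div_of_nonneg_right
    (Finset.sum_le_sum fun s _ => hgh _ (rot_nonneg hw s)) (by norm_num)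

theorem avg_add (g h : V3 → ℝ) (w : V3) :
    avg (fun v => g v + h v) w = avg g w + avg h w := by
  unfold avg
  ring

theorem avg_mul (c : ℝ) (g : V3 → ℝ) (w : V3) : avg (fun v => c * g v) w = c * avg g w := by
  unfold avg
  ring

theorem avg_zero (w : V3) : avg (fun _ => 0) w = 0 := by
  unfold avg
  ring

theorem avg_nonneg {g : V3 → ℝ} {w : V3} (hw : ∀ i, 0 ≤ w i)
    (hg : ∀ v : V3, (∀ i, 0 ≤ v i) → 0 ≤ g v) : 0 ≤ avg g w := by
  have := avg_mono (g := fun _ => 0) (h := g) hw hg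
  rwa [avg_zero] at this

/-! ### The message operator -/

theorem act_add (m : V3) (φ ψ : V3 → ℝ) (w : V3) :
    act m (fun v => φ v + ψ v) w = act m φ w + act m ψ w := avg_add _ _ _

theorem act_mul (m : V3) (c : ℝ) (φ : V3 → ℝ) (w : V3) :
    act m (fun v => c * φ v) w = c * act m φ w := avg_mul _ _ _

theorem act_mono {m : V3} (hm : ∀ i, 0 ≤ m i) {φ ψ : V3 → ℝ} {w : V3} (hw : ∀ i, 0 ≤ w i)
    (h : ∀ v : V3, (∀ i, 0 ≤ v i) → φ v ≤ ψ v) : act m φ w ≤ act m ψ w :=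
  avg_mono hm fun _ hv => h _ (pm_nonneg hw hv)

theorem opL_add (μ : Law) (φ ψ : V3 → ℝ) :
    opL μ (fun v => φ v + ψ v) = fun w => opL μ φ w + opL μ ψ w := by
  funext w
  unfold opL
  rw [← List.sum_map_add]
  congr 1
  refine List.map_congr_left fun a _ => ?_
  rw [act_add]
  ring

theorem opL_mul (μ : Law) (c : ℝ) (φ : V3 → ℝ) :
    opL μ (fun v => c * φ v) = fun w => c * opL μ φ w := by
  funext w
  unfold opL
  rw [← List.sum_map_mul_left]
  congr 1
  refine List.map_congr_left fun a _ => ?_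
  rw [act_mul]
  ring

theorem list_sum_le {μ : Law} {f g : ℝ × V3 → ℝ} (h : ∀ a ∈ μ, f a ≤ g a) :
    (μ.map f).sum ≤ (μ.map g).sum := List.sum_le_sum h

theorem opL_mono {μ : Law} (hμ : μ.Ok) {φ ψ : V3 → ℝ}
    (h : ∀ v : V3, (∀ i, 0 ≤ v i) → φ v ≤ ψ v) {w : V3} (hw : ∀ i, 0 ≤ w i) :
    opL μ φ w ≤ opL μ ψ w :=
  list_sum_le fun a ha => mul_le_mul_of_nonneg_left (act_mono (hμ a ha).2 hw h) (hμ a ha).1

theorem opL_iter_add (μ : Law) (m : ℕ) (φ ψ : V3 → ℝ) :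
    (opL μ)^[m] (fun v => φ v + ψ v) = fun w => (opL μ)^[m] φ w + (opL μ)^[m] ψ w := by
  induction m generalizing φ ψ with
  | zero => rfl
  | succ m ih => rw [Function.iterate_succ_apply, opL_add, ih]; rfl

theorem opL_iter_mul (μ : Law) (m : ℕ) (c : ℝ) (φ : V3 → ℝ) :
    (opL μ)^[m] (fun v => c * φ v) = fun w => c * (opL μ)^[m] φ w := by
  induction m generalizing φ with
  | zero => rfl
  | succ m ih => rw [Function.iterate_succ_apply, opL_mul, ih]; rfl

theorem opL_iter_mono {μ : Law} (hμ : μ.Ok) (m : ℕ) {φ ψ : V3 → ℝ}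
    (h : ∀ v : V3, (∀ i, 0 ≤ v i) → φ v ≤ ψ v) {w : V3} (hw : ∀ i, 0 ≤ w i) :
    (opL μ)^[m] φ w ≤ (opL μ)^[m] ψ w := by
  induction m generalizing φ ψ with
  | zero => exact h w hw
  | succ m ih =>
    rw [Function.iterate_succ_apply, Function.iterate_succ_apply]
    exact ih fun v hv => opL_mono hμ h hv

theorem opL_iter_zero (μ : Law) (m : ℕ) :
    (opL μ)^[m] (fun _ => 0) = fun _ => 0 := by
  have := opL_iter_mul μ m 0 (fun _ => 0)
  simpa using this

theorem opL_iter_nonneg {μ : Law} (hμ : μ.Ok) (m : ℕ) {φ : V3 → ℝ}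
    (h : ∀ v : V3, (∀ i, 0 ≤ v i) → 0 ≤ φ v) {w : V3} (hw : ∀ i, 0 ≤ w i) :
    0 ≤ (opL μ)^[m] φ w := by
  have := opL_iter_mono hμ m (φ := fun _ => 0) h hw
  rwa [opL_iter_zero] at this

theorem opL_nonneg {μ : Law} (hμ : μ.Ok) {φ : V3 → ℝ}
    (h : ∀ v : V3, (∀ i, 0 ≤ v i) → 0 ≤ φ v) {w : V3} (hw : ∀ i, 0 ≤ w i) :
    0 ≤ opL μ φ w := opL_iter_nonneg hμ 1 h hw

/-- the symmetrisation commutes with the message operator -/
theorem act_avg (m : V3) (φ : V3 → ℝ) (w : V3) :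
    act m (avg φ) w = avg (act m φ) w := by
  unfold act
  rw [avg_eq, avg_eq]
  congr 1
  have h1 : ∀ s : Equiv.Perm (Fin 3), avg φ (pm w (rot s m)) =
      (∑ t : Equiv.Perm (Fin 3), φ (pm (rot t w) (rot (s * t) m))) / 6 := by
    intro s
    rw [avg_eq]
    rfl
  have h2 : ∀ t : Equiv.Perm (Fin 3), avg (fun v => φ (pm (rot t w) v)) m =
      (∑ s : Equiv.Perm (Fin 3), φ (pm (rot t w) (rot (s * t) m))) / 6 := by
    intro t
    rw [avg_eq]
    congr 1
    exact (Equiv.sum_comp (Equiv.mulRight t)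
      (fun s => φ (pm (rot t w) (rot s m)))).symm
  simp only [h1, h2]
  rw [← Finset.sum_div, ← Finset.sum_div, Finset.sum_comm]

theorem opL_avg (μ : Law) (φ : V3 → ℝ) : opL μ (avg φ) = avg (opL μ φ) := by
  funext w
  rw [avg_eq]
  unfold opL
  simp only [act_avg]
  induction μ with
  | nil => simp
  | cons a μ ih =>
    simp only [List.map_cons, List.sum_cons]
    rw [ih, Finset.sum_add_distrib, add_div, ← Finset.mul_sum, avg_eq]
    ring

theorem opL_iter_avg (μ : Law) (m : ℕ) (φ : V3 → ℝ) :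
    (opL μ)^[m] (avg φ) = avg ((opL μ)^[m] φ) := by
  induction m generalizing φ with
  | zero => rfl
  | succ m ih => rw [Function.iterate_succ_apply, opL_avg, ih]; rfl

theorem opL_iter_avg_one (μ : Law) (m : ℕ) (φ : V3 → ℝ) :
    (opL μ)^[m] (avg φ) one3 = (opL μ)^[m] φ one3 := by
  rw [opL_iter_avg, avg_one3]

/-- invariance under orientations -/
def Inv (φ : V3 → ℝ) : Prop := ∀ (s : Equiv.Perm (Fin 3)) (w : V3), φ (rot s w) = φ w

theorem Inv.avg_eq {φ : V3 → ℝ} (h : Inv φ) : avg φ = φ := by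
  funext w
  rw [LN.avg_eq]
  simp only [h _ w]
  rw [Finset.sum_const, Finset.card_univ, Fintype.card_perm, Fintype.card_fin, nsmul_eq_mul]
  norm_num [Nat.factorial]

theorem inv_avg (φ : V3 → ℝ) : Inv (avg φ) := fun s w => avg_rot φ s w

theorem Inv.opL {φ : V3 → ℝ} (h : Inv φ) (μ : Law) : Inv (opL μ φ) := by
  rw [← h.avg_eq, opL_avg]
  exact inv_avg _

theorem Inv.opL_iter {φ : V3 → ℝ} (h : Inv φ) (μ : Law) (m : ℕ) : Inv ((LN.opL μ)^[m] φ) := by
  rw [← h.avg_eq, opL_iter_avg]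
  exact inv_avg _

theorem act_comm (m m' : V3) (φ : V3 → ℝ) (w : V3) :
    act m (act m' φ) w = act m' (act m φ) w := by
  unfold act
  simp only [LN.avg_eq]
  rw [← Finset.sum_div, ← Finset.sum_div, Finset.sum_comm]
  congr 2
  refine Finset.sum_congr rfl fun s _ => Finset.sum_congr rfl fun t _ => ?_
  rw [pm_assoc, pm_assoc, pm_comm (rot t m)]

theorem opL_cons (a : ℝ × V3) (μ : Law) (φ : V3 → ℝ) (w : V3) :
    opL (a :: μ) φ w = a.1 * act a.2 φ w + opL μ φ w := by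
  unfold opL
  simp

theorem opL_nil (φ : V3 → ℝ) (w : V3) : opL [] φ w = 0 := by
  unfold opL
  simp

theorem act_opL (m : V3) (μ : Law) (φ : V3 → ℝ) (w : V3) :
    act m (opL μ φ) w = opL μ (act m φ) w := by
  induction μ with
  | nil =>
    have : opL [] φ = fun _ => 0 := by funext v; exact opL_nil φ v
    rw [this, opL_nil]
    exact avg_zero _
  | cons a μ ih =>
    have : opL (a :: μ) φ = fun v => (a.1 * act a.2 φ v) + opL μ φ v := by
      funext v; exact opL_cons a μ φ v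
    rw [this, act_add, act_mul, opL_cons, ih, act_comm]

/-- the operators of two laws commute -/
theorem opL_comm (μ ν : Law) (φ : V3 → ℝ) : opL μ (opL ν φ) = opL ν (opL μ φ) := by
  funext w
  induction μ with
  | nil =>
    have : opL [] φ = fun _ => 0 := by funext v; exact opL_nil φ v
    rw [this, opL_nil]
    have h0 := congrFun (opL_iter_zero ν 1) w
    exact h0.symm
  | cons a μ ih =>
    have : opL (a :: μ) φ = fun v => (a.1 * act a.2 φ v) + opL μ φ v := by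
      funext v; exact opL_cons a μ φ v
    rw [this, opL_cons, opL_add, opL_mul]
    show _ = a.1 * opL ν (act a.2 φ) w + opL ν (opL μ φ) w
    rw [ih, act_opL]

/-- mass of a law -/
noncomputable def Law.mass (μ : Law) : ℝ := (μ.map (fun a => a.1 * P154.mass a.2)).sum

theorem mass_eq3 (w : V3) : mass w = (w 0 + w 1 + w 2) / 3 := by
  unfold mass
  rw [Fin.sum_univ_three]
  norm_num

theorem act_mass (m w : V3) : act m mass w = mass m * mass w := by
  unfold act avg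
  simp only [mass_eq3]
  show ((w 0 * m 0 + w 1 * m 1 + w 2 * m 2) / 3 + (w 0 * m 0 + w 1 * m 2 + w 2 * m 1) / 3
    + (w 0 * m 1 + w 1 * m 0 + w 2 * m 2) / 3 + (w 0 * m 1 + w 1 * m 2 + w 2 * m 0) / 3
    + (w 0 * m 2 + w 1 * m 0 + w 2 * m 1) / 3 + (w 0 * m 2 + w 1 * m 1 + w 2 * m 0) / 3) / 6 = _
  ring

theorem opL_mass (μ : Law) : opL μ mass = fun w => μ.mass * mass w := by
  funext w
  unfold opL Law.mass
  rw [← List.sum_map_mul_right]
  congr 1
  refine List.map_congr_left fun a _ => ?_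
  rw [act_mass]
  ring

theorem opL_iter_mass (μ : Law) (m : ℕ) : (opL μ)^[m] mass = fun w => μ.mass ^ m * mass w := by
  induction m with
  | zero => funext w; simp
  | succ m ih =>
    rw [Function.iterate_succ_apply, opL_mass, opL_iter_mul, ih]
    funext w
    rw [pow_succ]
    ring

theorem mass_one3 : mass one3 = 1 := by
  rw [mass_eq3, one3_apply, one3_apply, one3_apply]
  norm_num

theorem opL_iter_mass_one (μ : Law) (m : ℕ) : (opL μ)^[m] mass one3 = μ.mass ^ m := by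
  rw [opL_iter_mass]
  show μ.mass ^ m * mass one3 = _
  rw [mass_one3, mul_one]

/-! ### The cone of quadratic-over-linear functionals -/

/-- nonnegative combinations of the functionals `Fn l f`, `l ≥ 0` -/
inductive QL : (V3 → ℝ) → Prop
  | fn (l f : V3) (hl : ∀ i, 0 ≤ l i) : QL (Fn l f)
  | zero : QL (fun _ => 0)
  | add {φ ψ : V3 → ℝ} (h : QL φ) (h' : QL ψ) : QL (fun w => φ w + ψ w)
  | smul {φ : V3 → ℝ} {c : ℝ} (hc : 0 ≤ c) (h : QL φ) : QL (fun w => c * φ w)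

theorem QL.congr {φ ψ : V3 → ℝ} (h : QL φ) (e : ∀ w, φ w = ψ w) : QL ψ := by
  have : φ = ψ := funext e
  rwa [← this]

theorem QL.nonneg {φ : V3 → ℝ} (h : QL φ) {w : V3} (hw : ∀ i, 0 ≤ w i) : 0 ≤ φ w := by
  induction h with
  | fn l f hl => exact Fn_nonneg hl hw
  | zero => exact le_rfl
  | add _ _ ih ih' => exact add_nonneg ih ih'
  | smul hc _ ih => exact mul_nonneg hc ih

theorem Fn_pm (l f c w : V3) : Fn l f (pm w c) = Fn (pm l c) f w := by
  unfold Fn pm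
  congr 1
  · congr 1
    exact Finset.sum_congr rfl fun i _ => by ring
  · exact Finset.sum_congr rfl fun i _ => by ring

theorem Fn_pm' (l f c w : V3) : Fn l f (pm c w) = Fn (pm l c) f w := by
  rw [pm_comm, Fn_pm]

theorem QL.pm_right {φ : V3 → ℝ} (h : QL φ) {c : V3} (hc : ∀ i, 0 ≤ c i) :
    QL (fun w => φ (pm w c)) := by
  induction h with
  | fn l f hl => exact (QL.fn (pm l c) f (pm_nonneg hl hc)).congr fun w => (Fn_pm l f c w).symm
  | zero => exact QL.zero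
  | add _ _ ih ih' => exact QL.add ih ih'
  | smul hc _ ih => exact QL.smul hc ih

theorem QL.pm_left {φ : V3 → ℝ} (h : QL φ) {c : V3} (hc : ∀ i, 0 ≤ c i) :
    QL (fun w => φ (pm c w)) :=
  (h.pm_right hc).congr fun w => by rw [pm_comm]

theorem smooth_apply (lam : ℝ) (w : V3) (i : Fin 3) :
    smooth lam w i = ∑ j, pottsKernel 3 lam i j * w j := by
  have h := congrFun (edgeL_apply lam (fun j (_ : Unit) => w j) ()) i
  rw [← h]
  rfl

theorem potts_nonneg3 {lam : ℝ} (h0 : -1 / 2 ≤ lam) (h1 : lam ≤ 1) (i j : Fin 3) :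
    0 ≤ pottsKernel 3 lam i j :=
  pottsKernel_nonneg (q := 3) (by norm_num) (by norm_num; linarith) h1 i j

theorem smooth_nonneg {lam : ℝ} (h0 : -1 / 2 ≤ lam) (h1 : lam ≤ 1) {w : V3} (hw : ∀ i, 0 ≤ w i) :
    ∀ i, 0 ≤ smooth lam w i := fun i => by
  rw [smooth_apply]
  exact Finset.sum_nonneg fun j _ => mul_nonneg (potts_nonneg3 h0 h1 i j) (hw j)

theorem Fn_smooth {lam : ℝ} (h0 : -1 / 2 ≤ lam) (h1 : lam ≤ 1) {l : V3} (hl : ∀ i, 0 ≤ l i)
    (f w : V3) : Fn l f (smooth lam w) = Fn (fun j => ∑ i, l i * pottsKernel 3 lam i j)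
      (fun j => (∑ i, l i * f i * pottsKernel 3 lam i j) / ∑ i, l i * pottsKernel 3 lam i j) w := by
  unfold Fn
  have hd : ∑ i, l i * smooth lam w i = ∑ j, (∑ i, l i * pottsKernel 3 lam i j) * w j := by
    simp only [smooth_apply, Finset.mul_sum, Finset.sum_mul]
    rw [Finset.sum_comm]
    exact Finset.sum_congr rfl fun i _ => Finset.sum_congr rfl fun j _ => by ring
  have hn : ∑ i, l i * f i * smooth lam w i =
      ∑ j, (∑ i, l i * pottsKernel 3 lam i j) *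
        ((∑ i, l i * f i * pottsKernel 3 lam i j) / ∑ i, l i * pottsKernel 3 lam i j) * w j := by
    have e : ∀ j, (∑ i, l i * pottsKernel 3 lam i j) *
        ((∑ i, l i * f i * pottsKernel 3 lam i j) / ∑ i, l i * pottsKernel 3 lam i j) =
        ∑ i, l i * f i * pottsKernel 3 lam i j := by
      intro j
      by_cases hz : ∑ i, l i * pottsKernel 3 lam i j = 0
      · rw [hz, zero_mul]
        have hz' := (Finset.sum_eq_zero_iff_of_nonneg (fun i _ =>
          mul_nonneg (hl i) (potts_nonneg3 h0 h1 i j))).1 hz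
        symm
        refine Finset.sum_eq_zero fun i hi => ?_
        have := hz' i hi
        calc l i * f i * pottsKernel 3 lam i j = f i * (l i * pottsKernel 3 lam i j) := by ring
          _ = 0 := by rw [this, mul_zero]
      · rw [mul_div_cancel₀ _ hz]
    simp only [e, smooth_apply, Finset.mul_sum, Finset.sum_mul]
    rw [Finset.sum_comm]
    exact Finset.sum_congr rfl fun i _ => Finset.sum_congr rfl fun j _ => by ring
  rw [hd, hn]

theorem QL.smooth {φ : V3 → ℝ} (h : QL φ) {lam : ℝ} (h0 : -1 / 2 ≤ lam) (h1 : lam ≤ 1) :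
    QL (fun w => φ (P154.smooth lam w)) := by
  induction h with
  | fn l f hl =>
    refine (QL.fn _ _ ?_).congr fun w => (Fn_smooth h0 h1 hl f w).symm
    exact fun j => Finset.sum_nonneg fun i _ => mul_nonneg (hl i) (potts_nonneg3 h0 h1 i j)
  | zero => exact QL.zero
  | add _ _ ih ih' => exact QL.add ih ih'
  | smul hc _ ih => exact QL.smul hc ih

theorem QL.list_sum {ι : Type*} (L : List ι) (g : ι → V3 → ℝ) (h : ∀ a ∈ L, QL (g a)) :
    QL (fun w => (L.map (fun a => g a w)).sum) := by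
  induction L with
  | nil => exact QL.zero.congr fun w => by simp
  | cons a L ih =>
    exact (QL.add (h a (by simp)) (ih fun b hb => h b (by simp [hb]))).congr fun w => by simp

theorem QL.act {φ : V3 → ℝ} (h : QL φ) {m : V3} (hm : ∀ i, 0 ≤ m i) : QL (LN.act m φ) := by
  have hp : ∀ i j k : Fin 3, QL (fun w => φ (pm w ![m i, m j, m k])) := by
    intro i j k
    refine h.pm_right fun x => ?_
    fin_cases x
    · exact hm i
    · exact hm j
    · exact hm k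
  have h6 : (0 : ℝ) ≤ 1 / 6 := by norm_num
  exact (QL.smul h6 (QL.add (QL.add (QL.add (QL.add (QL.add (hp 0 1 2) (hp 0 2 1)) (hp 1 0 2))
    (hp 1 2 0)) (hp 2 0 1)) (hp 2 1 0))).congr fun w => by
      unfold LN.act avg
      ring

theorem QL.opL {φ : V3 → ℝ} (h : QL φ) {μ : Law} (hμ : μ.Ok) : QL (LN.opL μ φ) :=
  QL.list_sum μ (fun a w => a.1 * LN.act a.2 φ w)
    fun a ha => QL.smul (hμ a ha).1 (h.act (hμ a ha).2)

theorem QL.opL_iter {φ : V3 → ℝ} (h : QL φ) {μ : Law} (hμ : μ.Ok) (m : ℕ) :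
    QL ((LN.opL μ)^[m] φ) := by
  induction m with
  | zero => exact h
  | succ m ih => rw [Function.iterate_succ_apply']; exact ih.opL hμ

/-! ### Values on laws -/

theorem ev_add (μ : Law) (φ ψ : V3 → ℝ) : ev μ (fun w => φ w + ψ w) = ev μ φ + ev μ ψ := by
  unfold ev
  rw [← List.sum_map_add]
  congr 1
  refine List.map_congr_left fun a _ => ?_
  rw [avg_add]
  ring

theorem ev_mul (μ : Law) (c : ℝ) (φ : V3 → ℝ) : ev μ (fun w => c * φ w) = c * ev μ φ := by
  unfold ev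
  rw [← List.sum_map_mul_left]
  congr 1
  refine List.map_congr_left fun a _ => ?_
  rw [avg_mul]
  ring

theorem ev_zero (μ : Law) : ev μ (fun _ => 0) = 0 := by
  have := ev_mul μ 0 (fun _ => 0)
  simpa using this

theorem ev_mono {μ : Law} (hμ : μ.Ok) {φ ψ : V3 → ℝ}
    (h : ∀ v : V3, (∀ i, 0 ≤ v i) → φ v ≤ ψ v) : ev μ φ ≤ ev μ ψ :=
  list_sum_le fun a ha => mul_le_mul_of_nonneg_left (avg_mono (hμ a ha).2 h) (hμ a ha).1

theorem opL_eq_ev (μ : Law) (φ : V3 → ℝ) (w : V3) : opL μ φ w = ev μ (fun v => φ (pm w v)) := rfl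

/-- comparison of laws extends to the cone -/
theorem QL.ev_le {μ ν : Law} (hle : ∀ l f : V3, (∀ i, 0 ≤ l i) → ev μ (Fn l f) ≤ ev ν (Fn l f))
    {φ : V3 → ℝ} (h : QL φ) : ev μ φ ≤ ev ν φ := by
  induction h with
  | fn l f hl => exact hle l f hl
  | zero => rw [ev_zero, ev_zero]
  | add _ _ ih ih' => rw [ev_add, ev_add]; exact add_le_add ih ih'
  | smul hc _ ih => rw [ev_mul, ev_mul]; exact mul_le_mul_of_nonneg_left ih hc

theorem QL.opL_le {μ ν : Law} (hle : ∀ l f : V3, (∀ i, 0 ≤ l i) → ev μ (Fn l f) ≤ ev ν (Fn l f))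
    {φ : V3 → ℝ} (h : QL φ) {w : V3} (hw : ∀ i, 0 ≤ w i) : LN.opL μ φ w ≤ LN.opL ν φ w :=
  (h.pm_left hw).ev_le hle

/-- comparison of the iterated message operators -/
theorem QL.opL_iter_le {μ ν : Law} (hμ : μ.Ok) (hν : ν.Ok)
    (hle : ∀ l f : V3, (∀ i, 0 ≤ l i) → ev μ (Fn l f) ≤ ev ν (Fn l f))
    {φ : V3 → ℝ} (h : QL φ) (m : ℕ) {w : V3} (hw : ∀ i, 0 ≤ w i) :
    (LN.opL μ)^[m] φ w ≤ (LN.opL ν)^[m] φ w := by
  induction m generalizing w with
  | zero => exact le_rfl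
  | succ m ih =>
    rw [Function.iterate_succ_apply', Function.iterate_succ_apply']
    exact (opL_mono hμ (fun v hv => ih hv) hw).trans ((h.opL_iter hν m).opL_le hle hw)

theorem sumF_add {Ω : Type} [Fintype Ω] (φ ψ : V3 → ℝ) (L : Fin 3 → Ω → ℝ) :
    sumF (fun w => φ w + ψ w) L = sumF φ L + sumF ψ L := Finset.sum_add_distrib

theorem sumF_mul {Ω : Type} [Fintype Ω] (c : ℝ) (φ : V3 → ℝ) (L : Fin 3 → Ω → ℝ) :
    sumF (fun w => c * φ w) L = c * sumF φ L := (Finset.mul_sum _ _ _).symm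

/-- domination extends to the cone -/
theorem Dom.ql {Ω : Type} [Fintype Ω] {L : Fin 3 → Ω → ℝ} {μ : Law} (h : Dom L μ)
    {φ : V3 → ℝ} (hφ : QL φ) : sumF φ L ≤ ev μ φ := by
  induction hφ with
  | fn l f hl => exact h l f hl
  | zero =>
    rw [ev_zero]
    exact le_of_eq (by unfold sumF; simp)
  | add _ _ ih ih' => rw [sumF_add, ev_add]; exact add_le_add ih ih'
  | smul hc _ ih => rw [sumF_mul, ev_mul]; exact mul_le_mul_of_nonneg_left ih hc

theorem Dom.trans {Ω : Type} [Fintype Ω] {L : Fin 3 → Ω → ℝ} {μ ν : Law} (h : Dom L μ)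
    (hle : ∀ l f : V3, (∀ i, 0 ≤ l i) → ev μ (Fn l f) ≤ ev ν (Fn l f)) : Dom L ν :=
  fun l f hl => (h l f hl).trans (hle l f hl)

theorem smooth_rot (lam : ℝ) (s : Equiv.Perm (Fin 3)) (w : V3) :
    smooth lam (rot s w) = rot s (smooth lam w) := by
  funext i
  show lam * w (s i) + (1 - lam) / (3 : ℕ) * ∑ j, w (s j) =
    lam * w (s i) + (1 - lam) / (3 : ℕ) * ∑ j, w j
  rw [Equiv.sum_comp s w]

theorem avg_smooth (lam : ℝ) (φ : V3 → ℝ) (w : V3) :
    avg (fun v => φ (smooth lam v)) w = avg φ (smooth lam w) := by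
  rw [avg_eq, avg_eq]
  simp only [smooth_rot]

theorem ev_edgeLaw (lam : ℝ) (μ : Law) (φ : V3 → ℝ) :
    ev (edgeLaw lam μ) φ = ev μ (fun v => φ (smooth lam v)) := by
  unfold ev edgeLaw
  rw [List.map_map]
  congr 1
  refine List.map_congr_left fun a _ => ?_
  rw [avg_smooth]
  rfl

theorem edgeLaw_ok {lam : ℝ} (h0 : -1 / 2 ≤ lam) (h1 : lam ≤ 1) {μ : Law} (hμ : μ.Ok) :
    (edgeLaw lam μ).Ok := by
  intro a ha
  unfold edgeLaw at ha
  rw [List.mem_map] at ha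
  obtain ⟨b, hb, rfl⟩ := ha
  exact ⟨(hμ b hb).1, smooth_nonneg h0 h1 (hμ b hb).2⟩

theorem mass_smooth (lam : ℝ) (w : V3) : mass (smooth lam w) = mass w := by
  unfold mass
  rw [sum_smooth (by norm_num)]

theorem edgeLaw_mass (lam : ℝ) (μ : Law) : (edgeLaw lam μ).mass = μ.mass := by
  unfold Law.mass edgeLaw
  rw [List.map_map]
  congr 1
  refine List.map_congr_left fun a _ => ?_
  show a.1 * mass (smooth lam a.2) = _
  rw [mass_smooth]

/-- (1) domination is preserved by edges -/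
theorem Dom.edge {Ω : Type} [Fintype Ω] {L : Fin 3 → Ω → ℝ} {μ : Law} {lam : ℝ}
    (h0 : -1 / 2 ≤ lam) (h1 : lam ≤ 1) (h : Dom L μ) : Dom (edgeL lam L) (edgeLaw lam μ) := by
  intro l f hl
  rw [ev_edgeLaw]
  refine le_trans (le_of_eq ?_) (h.ql ((QL.fn l f hl).smooth h0 h1))
  unfold sumF
  simp only [edgeL_apply]

/-- (2) domination of products -/
theorem Dom.pow_ql {Ω : Type} [Fintype Ω] {C : Fin 3 → Ω → ℝ} {μ : Law} (hμ : μ.Ok)
    (hC : Dom C μ) (hn : ∀ i x, 0 ≤ C i x) (m : ℕ) {φ : V3 → ℝ} (hφ : QL φ) {w : V3}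
    (hw : ∀ i, 0 ≤ w i) :
    sumF (fun y => φ (pm w y)) (prodL (fun _ : Fin m => C)) ≤ (opL μ)^[m] φ w := by
  induction m generalizing w with
  | zero =>
    rw [sumF_prodL_zero]
    have : pm w (fun _ => 1) = w := by
      funext i
      exact mul_one _
    show φ (pm w fun _ => 1) ≤ φ w
    rw [this]
  | succ m ih =>
    rw [sumF_prodL_succ, Function.iterate_succ_apply']
    have e : sumF (fun y => φ (pm w y)) (tens C (prodL (fun _ : Fin m => C))) =
        ∑ x, sumF (fun y => φ (pm (pm w (fun i => C i x)) y)) (prodL (fun _ : Fin m => C)) := by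
      unfold sumF
      rw [Fintype.sum_prod_type]
      refine Finset.sum_congr rfl fun x _ => Finset.sum_congr rfl fun y _ => ?_
      show φ (pm w (fun i => C i x * prodL (fun _ : Fin m => C) i y)) =
        φ (pm (pm w (fun i => C i x)) (fun i => prodL (fun _ : Fin m => C) i y))
      rw [pm_assoc]
      rfl
    refine le_trans (le_of_eq e) ?_
    calc ∑ x, sumF (fun y => φ (pm (pm w (fun i => C i x)) y)) (prodL (fun _ : Fin m => C))
        ≤ ∑ x, (opL μ)^[m] φ (pm w (fun i => C i x)) :=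
          Finset.sum_le_sum fun x _ => ih (pm_nonneg hw fun i => hn i x)
      _ = sumF (fun v => (opL μ)^[m] φ (pm w v)) C := rfl
      _ ≤ ev μ (fun v => (opL μ)^[m] φ (pm w v)) := hC.ql ((hφ.opL_iter hμ m).pm_left hw)
      _ = opL μ ((opL μ)^[m] φ) w := rfl

theorem Dom.pow {Ω : Type} [Fintype Ω] {C : Fin 3 → Ω → ℝ} {μ : Law} (hμ : μ.Ok) (hC : Dom C μ)
    (hn : ∀ i x, 0 ≤ C i x) (m : ℕ) {l f w : V3} (hl : ∀ i, 0 ≤ l i) (hw : ∀ i, 0 ≤ w i) :
    sumF (fun y => Fn l f (pm w y)) (prodL (fun _ : Fin m => C)) ≤ (opL μ)^[m] (Fn l f) w :=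
  Dom.pow_ql hμ hC hn m (QL.fn l f hl) hw

/-! ### The collapse -/

theorem t1_eq (w : V3) : t1 w = (fA w + 2 * fP w) / 3 := by
  unfold fA fP
  ring

theorem t2_eq (w : V3) : t2 w = 8 / 3 * (fA w - fP w) := by
  unfold fA fP
  ring

theorem t3_eq (w : V3) : t3 w = mass w - 3 * fA w + 2 * fP w := by
  rw [mass_eq3]
  unfold fA fP t1 t2 t3 e1
  ring

theorem atoms_eq (l f w : V3) : atoms l f w =
    ((avg (Fn l f) ver3 / 3 + 8 / 3 * avg (Fn l f) mid3 - 3 * Fn l f one3) * fA w +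
      (2 / 3 * avg (Fn l f) ver3 - 8 / 3 * avg (Fn l f) mid3 + 2 * Fn l f one3) * fP w) +
      Fn l f one3 * mass w := by
  unfold atoms
  rw [t1_eq, t2_eq, t3_eq]
  ring

theorem ev_law3 (x P : ℝ) (φ : V3 → ℝ) : ev (law3 x P) φ =
    (x + 2 * P) / 3 * avg φ ver3 + 8 / 3 * (x - P) * avg φ mid3 +
      (1 - 3 * x + 2 * P) * φ one3 := by
  unfold ev law3
  simp only [List.map_cons, List.map_nil, List.sum_cons, List.sum_nil, avg_one3]
  ring

theorem star' {l f : V3} (hl : ∀ i, 0 ≤ l i) {w : V3} (hw : ∀ i, 0 ≤ w i) :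
    avg (Fn l f) w ≤ atoms l f w := by
  rw [vec_eq w]
  exact star hl (hw 0) (hw 1) (hw 2)

/-- (4) the collapse of the iterated message operator to a three-atom law -/
theorem collapse {μ : Law} (hμ : μ.Ok) (hmass : (μ.map (fun a => a.1 * mass a.2)).sum = 1)
    (m : ℕ) {l f : V3} (hl : ∀ i, 0 ≤ l i) :
    (opL μ)^[m] (Fn l f) one3 ≤
      ev (law3 ((opL μ)^[m] fA one3) ((opL μ)^[m] fP one3)) (Fn l f) := by
  have hm : μ.mass = 1 := hmass
  rw [← opL_iter_avg_one]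
  refine (opL_iter_mono hμ m (fun v hv => star' (f := f) hl hv) one3_nonneg).trans (le_of_eq ?_)
  have e : atoms l f = fun w =>
      (((avg (Fn l f) ver3 / 3 + 8 / 3 * avg (Fn l f) mid3 - 3 * Fn l f one3) * fA w +
      (2 / 3 * avg (Fn l f) ver3 - 8 / 3 * avg (Fn l f) mid3 + 2 * Fn l f one3) * fP w) +
      Fn l f one3 * mass w) := funext fun w => atoms_eq l f w
  rw [e, opL_iter_add, opL_iter_add, opL_iter_mul, opL_iter_mul, opL_iter_mul, opL_iter_mass, hm,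
    ev_law3]
  show ((avg (Fn l f) ver3 / 3 + 8 / 3 * avg (Fn l f) mid3 - 3 * Fn l f one3) *
      (opL μ)^[m] fA one3 +
      (2 / 3 * avg (Fn l f) ver3 - 8 / 3 * avg (Fn l f) mid3 + 2 * Fn l f one3) *
      (opL μ)^[m] fP one3) + Fn l f one3 * (1 ^ m * mass one3) = _
  rw [mass_one3, one_pow]
  ring

/-- the collapse of a law -/
theorem ev_collapse {μ : Law} (hμ : μ.Ok) (hm : μ.mass = 1) {l f : V3} (hl : ∀ i, 0 ≤ l i) :
    ev μ (Fn l f) ≤ ev (law3 (ev μ fA) (ev μ fP)) (Fn l f) := by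
  have h := collapse hμ hm 1 (f := f) hl
  have e : ∀ φ : V3 → ℝ, (opL μ)^[1] φ one3 = ev μ φ := by
    intro φ
    show opL μ φ one3 = ev μ φ
    rw [opL_eq_ev]
    simp only [one3_pm]
  rwa [e, e, e] at h

theorem smooth_smooth (a b : ℝ) (w : V3) : smooth a (smooth b w) = smooth (a * b) w := by
  funext i
  have h := sum_smooth (q := 3) (by norm_num) b w
  show a * smooth b w i + (1 - a) / (3 : ℕ) * ∑ j, smooth b w j =
    a * b * w i + (1 - a * b) / (3 : ℕ) * ∑ j, w j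
  rw [h]
  show a * (b * w i + (1 - b) / (3 : ℕ) * ∑ j, w j) + (1 - a) / (3 : ℕ) * ∑ j, w j = _
  ring

theorem fA_eq_chi (w : V3) : fA w = chi w := by
  unfold fA t1 t2 chi e1 e2 e3
  rw [Fin.sum_univ_three, Fin.sum_univ_three]
  by_cases h : w 0 + w 1 + w 2 = 0
  · rw [h]
    simp
  · push_cast
    field_simp
    ring

theorem fA_smooth (lam : ℝ) (w : V3) : fA (smooth lam w) = lam ^ 2 * fA w := by
  rw [fA_eq_chi, fA_eq_chi, chi_smooth (by norm_num)]

theorem smooth_val (lam : ℝ) (w : V3) (i : Fin 3) :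
    smooth lam w i = lam * w i + (1 - lam) / 3 * (w 0 + w 1 + w 2) := by
  unfold smooth
  rw [Fin.sum_univ_three]
  norm_num

theorem fP_smooth (lam : ℝ) (w : V3) : fP (smooth lam w) = lam ^ 3 * fP w := by
  have hs : e1 (smooth lam w) = e1 w := by
    unfold e1
    rw [smooth_val, smooth_val, smooth_val]
    ring
  unfold fP t1 t2
  rw [hs]
  by_cases h : e1 w = 0
  · rw [h]
    simp
  · have h2 : e2 (smooth lam w) = lam ^ 2 * e2 w + 2 * lam * ((1 - lam) / 3 * e1 w) * e1 w +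
        3 * ((1 - lam) / 3 * e1 w) ^ 2 := by
      unfold e1 e2
      rw [smooth_val, smooth_val, smooth_val]
      ring
    have h3 : e3 (smooth lam w) = lam ^ 3 * e3 w + lam ^ 2 * ((1 - lam) / 3 * e1 w) * e2 w +
        lam * ((1 - lam) / 3 * e1 w) ^ 2 * e1 w + ((1 - lam) / 3 * e1 w) ^ 3 := by
      unfold e1 e2 e3
      rw [smooth_val, smooth_val, smooth_val]
      ring
    rw [h2, h3]
    field_simp
    ring

theorem perm3_cases (s : Equiv.Perm (Fin 3)) :
    (s 0 = 0 ∧ s 1 = 1 ∧ s 2 = 2) ∨ (s 0 = 0 ∧ s 1 = 2 ∧ s 2 = 1) ∨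
    (s 0 = 1 ∧ s 1 = 0 ∧ s 2 = 2) ∨ (s 0 = 1 ∧ s 1 = 2 ∧ s 2 = 0) ∨
    (s 0 = 2 ∧ s 1 = 0 ∧ s 2 = 1) ∨ (s 0 = 2 ∧ s 1 = 1 ∧ s 2 = 0) := by
  revert s
  decide

theorem e_inv (s : Equiv.Perm (Fin 3)) (w : V3) :
    e1 (rot s w) = e1 w ∧ e2 (rot s w) = e2 w ∧ e3 (rot s w) = e3 w := by
  unfold e1 e2 e3 rot
  rcases perm3_cases s with ⟨h0, h1, h2⟩ | ⟨h0, h1, h2⟩ | ⟨h0, h1, h2⟩ | ⟨h0, h1, h2⟩ |
    ⟨h0, h1, h2⟩ | ⟨h0, h1, h2⟩
  all_goals
    rw [h0, h1, h2]
    refine ⟨?_, ?_, ?_⟩ <;> ring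

theorem inv_t1 : Inv t1 := by
  intro s w
  unfold t1
  rw [(e_inv s w).1, (e_inv s w).2.1, (e_inv s w).2.2]

theorem inv_t2 : Inv t2 := by
  intro s w
  unfold t2
  rw [(e_inv s w).1, (e_inv s w).2.1, (e_inv s w).2.2]

theorem inv_t3 : Inv t3 := by
  intro s w
  unfold t3
  rw [(e_inv s w).1, (e_inv s w).2.2]

theorem inv_fA : Inv fA := by
  intro s w
  unfold fA
  rw [inv_t1, inv_t2]

theorem inv_fP : Inv fP := by
  intro s w
  unfold fP
  rw [inv_t1, inv_t2]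

theorem inv_mass : Inv mass := by
  intro s w
  have := (e_inv s w).1
  unfold e1 at this
  rw [mass_eq3, mass_eq3, this]

theorem t1_mk (a b c : ℝ) : t1 ![a, b, c] = (a + b + c) / 3 -
    4 / 3 * (a * b + b * c + a * c) / (a + b + c) + 3 * (a * b * c) / (a + b + c) ^ 2 := rfl

theorem t2_mk (a b c : ℝ) : t2 ![a, b, c] = 4 / 3 * (a * b + b * c + a * c) / (a + b + c) -
    12 * (a * b * c) / (a + b + c) ^ 2 := rfl

theorem t_vals : t1 ver3 = 1 ∧ t2 ver3 = 0 ∧ t1 mid3 = 0 ∧ t2 mid3 = 1 ∧ t1 one3 = 0 ∧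
    t2 one3 = 0 := by
  unfold ver3 mid3 one3
  rw [t1_mk, t2_mk, t1_mk, t2_mk, t1_mk, t2_mk]
  norm_num

theorem fA_vals : avg fA ver3 = 1 ∧ avg fA mid3 = 1 / 4 ∧ fA one3 = 0 := by
  obtain ⟨h1, h2, h3, h4, h5, h6⟩ := t_vals
  rw [inv_fA.avg_eq]
  unfold fA
  rw [h1, h2, h3, h4, h5, h6]
  norm_num

theorem fP_vals : avg fP ver3 = 1 ∧ avg fP mid3 = -1 / 8 ∧ fP one3 = 0 := by
  obtain ⟨h1, h2, h3, h4, h5, h6⟩ := t_vals
  rw [inv_fP.avg_eq]
  unfold fP
  rw [h1, h2, h3, h4, h5, h6]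
  norm_num

theorem ev_law3_fA (x P : ℝ) : ev (law3 x P) fA = x := by
  rw [ev_law3, fA_vals.1, fA_vals.2.1, fA_vals.2.2]
  ring

theorem ev_law3_fP (x P : ℝ) : ev (law3 x P) fP = P := by
  rw [ev_law3, fP_vals.1, fP_vals.2.1, fP_vals.2.2]
  ring

theorem law3_mass (x P : ℝ) : (law3 x P).mass = 1 := by
  unfold Law.mass law3
  simp only [List.map_cons, List.map_nil, List.sum_cons, List.sum_nil, mass_one3]
  have h1 : mass ver3 = 1 := by
    rw [mass_eq3]
    show ((3 : ℝ) + 0 + 0) / 3 = 1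
    norm_num
  have h2 : mass mid3 = 1 := by
    rw [mass_eq3]
    show ((3 / 2 : ℝ) + 3 / 2 + 0) / 3 = 1
    norm_num
  rw [h1, h2]
  ring

/-- admissible parameters of the three-atom laws -/
def Valid (x P : ℝ) : Prop := 0 ≤ x + 2 * P ∧ P ≤ x ∧ 3 * x - 2 * P ≤ 1

theorem law3_ok {x P : ℝ} (h : Valid x P) : (law3 x P).Ok := by
  obtain ⟨h1, h2, h3⟩ := h
  intro a ha
  unfold law3 at ha
  simp only [List.mem_cons, List.not_mem_nil, or_false] at ha
  rcases ha with rfl | rfl | rfl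
  · exact ⟨by show 0 ≤ (x + 2 * P) / 3; linarith, ver3_nonneg⟩
  · exact ⟨by show 0 ≤ 8 / 3 * (x - P); linarith, mid3_nonneg⟩
  · exact ⟨by show 0 ≤ 1 - 3 * x + 2 * P; linarith, one3_nonneg⟩

/-- (5) thinning: an edge of parameter `-(ν₀ θ)` is at most an edge of parameter `-ν₀` applied to
the collapse of the edge of parameter `θ` -/
theorem law3_thin {ν0 θ x P : ℝ} (hν : 0 ≤ ν0) (hν1 : ν0 ≤ 1 / 2) (hθ : 0 ≤ θ) (hθ1 : θ ≤ 1)
    (hv : Valid x P) {l f : V3} (hl : ∀ i, 0 ≤ l i) :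
    ev (edgeLaw (-(ν0 * θ)) (law3 x P)) (Fn l f) ≤
      ev (edgeLaw (-ν0) (law3 (θ ^ 2 * x) (θ ^ 3 * P))) (Fn l f) := by
  have hok : (edgeLaw θ (law3 x P)).Ok := edgeLaw_ok (by linarith) hθ1 (law3_ok hv)
  have hm : (edgeLaw θ (law3 x P)).mass = 1 := by rw [edgeLaw_mass, law3_mass]
  have hA : ev (edgeLaw θ (law3 x P)) fA = θ ^ 2 * x := by
    rw [ev_edgeLaw]
    simp only [fA_smooth]
    rw [ev_mul, ev_law3_fA]
  have hP : ev (edgeLaw θ (law3 x P)) fP = θ ^ 3 * P := by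
    rw [ev_edgeLaw]
    simp only [fP_smooth]
    rw [ev_mul, ev_law3_fP]
  have hle : ∀ l f : V3, (∀ i, 0 ≤ l i) → ev (edgeLaw θ (law3 x P)) (Fn l f) ≤
      ev (law3 (θ ^ 2 * x) (θ ^ 3 * P)) (Fn l f) := by
    intro l f hl
    have := ev_collapse hok hm (f := f) hl
    rwa [hA, hP] at this
  have hq := ((QL.fn l f hl).smooth (lam := -ν0) (by linarith) (by linarith)).ev_le hle
  rw [ev_edgeLaw, ev_edgeLaw]
  rw [ev_edgeLaw] at hq
  refine le_trans (le_of_eq ?_) hq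
  congr 1
  funext v
  rw [smooth_smooth, neg_mul]

/-! ### The atoms weights are nonnegative -/

theorem t3_nonneg {w : V3} (hw : ∀ i, 0 ≤ w i) : 0 ≤ t3 w := by
  have h0 := hw 0
  have h1 := hw 1
  have h2 := hw 2
  unfold t3 e3
  positivity

theorem t2_nonneg {w : V3} (hw : ∀ i, 0 ≤ w i) : 0 ≤ t2 w := by
  have h0 := hw 0
  have h1 := hw 1
  have h2 := hw 2
  unfold t2
  by_cases h : e1 w = 0
  · rw [h]
    simp
  · have e : 4 / 3 * e2 w / e1 w - 12 * e3 w / e1 w ^ 2 =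
        4 / 3 * (e1 w * e2 w - 9 * e3 w) / e1 w ^ 2 := by
      field_simp
      ring
    rw [e]
    have h3 : 0 ≤ e1 w * e2 w - 9 * e3 w := by
      have e4 : e1 w * e2 w - 9 * e3 w = w 0 * (w 1 - w 2) ^ 2 + w 1 * (w 0 - w 2) ^ 2 +
          w 2 * (w 0 - w 1) ^ 2 := by
        unfold e1 e2 e3
        ring
      rw [e4]
      positivity
    positivity

theorem schur {a b c : ℝ} (ha : 0 ≤ a) (hb : 0 ≤ b) (hc : 0 ≤ c) :
    0 ≤ (a + b + c) ^ 3 - 4 * (a + b + c) * (a * b + b * c + a * c) + 9 * (a * b * c) := by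
  have e : (a + b + c) ^ 3 - 4 * (a + b + c) * (a * b + b * c + a * c) + 9 * (a * b * c) =
      a * (a - b) * (a - c) + b * (b - a) * (b - c) + c * (c - a) * (c - b) := by ring
  rw [e]
  rcases le_total a b with h1 | h1 <;> rcases le_total b c with h2 | h2 <;>
    rcases le_total a c with h3 | h3
  all_goals
    nlinarith [mul_nonneg (sub_nonneg.2 h1) (sub_nonneg.2 h2),
      mul_nonneg (sub_nonneg.2 h1) (sub_nonneg.2 h3), mul_nonneg (sub_nonneg.2 h2) (sub_nonneg.2 h3),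
      mul_nonneg ha (mul_nonneg (sub_nonneg.2 h1) (sub_nonneg.2 h3)),
      mul_nonneg hc (mul_nonneg (sub_nonneg.2 h2) (sub_nonneg.2 h3)),
      mul_nonneg hb (mul_nonneg (sub_nonneg.2 h1) (sub_nonneg.2 h2)),
      mul_nonneg (sub_nonneg.2 h1) (sq_nonneg (a - b)),
      mul_nonneg (sub_nonneg.2 h2) (sq_nonneg (b - c)),
      mul_nonneg (sub_nonneg.2 h3) (sq_nonneg (a - c)),
      mul_nonneg (mul_nonneg (sub_nonneg.2 h1) (sub_nonneg.2 h2)) (sub_nonneg.2 h3)]

theorem t1_nonneg {w : V3} (hw : ∀ i, 0 ≤ w i) : 0 ≤ t1 w := by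
  have h0 := hw 0
  have h1 := hw 1
  have h2 := hw 2
  unfold t1
  by_cases h : e1 w = 0
  · rw [h]
    simp
  · have e : e1 w / 3 - 4 / 3 * e2 w / e1 w + 3 * e3 w / e1 w ^ 2 =
        (e1 w ^ 3 - 4 * e1 w * e2 w + 9 * e3 w) / (3 * e1 w ^ 2) := by
      field_simp
      ring
    rw [e]
    have h3 : 0 ≤ e1 w ^ 3 - 4 * e1 w * e2 w + 9 * e3 w := schur h0 h1 h2
    positivity

/-! ### The recursion on regular trees -/

theorem regLik3_nonneg {d : ℕ} {lam : ℝ} (h0 : -1 / 2 ≤ lam) (h1 : lam ≤ 1) :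
    ∀ (n : ℕ) (i : Fin 3) (x : RegCfg 3 d n), 0 ≤ regLik 3 d lam n i x
  | 0 => fun i (x : Fin 3) => by
    show (0 : ℝ) ≤ if i = x then 1 else 0
    split_ifs <;> norm_num
  | n + 1 => fun i x => by
    show 0 ≤ ∏ k : Fin d, ∑ j : Fin 3, pottsKernel 3 lam i j * regLik 3 d lam n j (x k)
    exact Finset.prod_nonneg fun k _ => Finset.sum_nonneg fun j _ =>
      mul_nonneg (potts_nonneg3 h0 h1 i j) (regLik3_nonneg h0 h1 n j (x k))

theorem regLik3_sum (d : ℕ) (lam : ℝ) : ∀ (n : ℕ) (i : Fin 3), ∑ x, regLik 3 d lam n i x = 1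
  | 0 => fun i => by
    show ∑ x : Fin 3, (if i = x then (1 : ℝ) else 0) = 1
    simp
  | n + 1 => fun i => by
    show ∑ x : (Fin d → RegCfg 3 d n),
      ∏ k : Fin d, ∑ j : Fin 3, pottsKernel 3 lam i j * regLik 3 d lam n j (x k) = 1
    rw [KS.prod_mass (fun (_ : Fin d) (y : RegCfg 3 d n) =>
      ∑ j : Fin 3, pottsKernel 3 lam i j * regLik 3 d lam n j y)]
    refine Finset.prod_eq_one fun k _ => ?_
    exact KS.child_sum (by norm_num) _ (fun j => regLik3_sum d lam n j) i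

theorem edgeL_nonneg {Ω : Type} {L : Fin 3 → Ω → ℝ} {lam : ℝ} (h0 : -1 / 2 ≤ lam) (h1 : lam ≤ 1)
    (hn : ∀ i x, 0 ≤ L i x) (i : Fin 3) (x : Ω) : 0 ≤ edgeL lam L i x :=
  Finset.sum_nonneg fun j _ => mul_nonneg (potts_nonneg3 h0 h1 i j) (hn j x)

theorem regLik3_succ (d : ℕ) (lam : ℝ) (n : ℕ) :
    regLik 3 d lam (n + 1) = prodL (fun _ : Fin d => edgeL lam (regLik 3 d lam n)) := rfl

/-- (6) one step of the tree recursion, general laws -/
theorem reg_law_step {d n : ℕ} {lam : ℝ} {μ ν : Law} (h0 : -1 / 2 ≤ lam) (h1 : lam ≤ 1)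
    (hμ : μ.Ok) (h : Dom (regLik 3 d lam n) μ)
    (hstep : ∀ l f : V3, (∀ i, 0 ≤ l i) →
      (opL (edgeLaw lam μ))^[d] (Fn l f) one3 ≤ ev ν (Fn l f)) :
    Dom (regLik 3 d lam (n + 1)) ν := by
  intro l f hl
  refine le_trans ?_ (hstep l f hl)
  have hp := Dom.pow (edgeLaw_ok h0 h1 hμ) (h.edge h0 h1)
    (edgeL_nonneg h0 h1 (regLik3_nonneg h0 h1 n)) d (f := f) hl one3_nonneg
  refine le_trans (le_of_eq ?_) hp
  simp only [one3_pm]
  rfl

/-- one step of the tree recursion, with a law dominating the family seen through an edge -/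
theorem reg_law_step' {d n : ℕ} {lam : ℝ} {μ ν : Law} (h0 : -1 / 2 ≤ lam) (h1 : lam ≤ 1)
    (hμ : μ.Ok) (h : Dom (edgeL lam (regLik 3 d lam n)) μ)
    (hstep : ∀ l f : V3, (∀ i, 0 ≤ l i) → (opL μ)^[d] (Fn l f) one3 ≤ ev ν (Fn l f)) :
    Dom (regLik 3 d lam (n + 1)) ν := by
  intro l f hl
  refine le_trans ?_ (hstep l f hl)
  have hp := Dom.pow hμ h (edgeL_nonneg h0 h1 (regLik3_nonneg h0 h1 n)) d (f := f) hl one3_nonneg
  refine le_trans (le_of_eq ?_) hp
  simp only [one3_pm]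
  rfl

theorem dom_zero {d : ℕ} {lam : ℝ} : Dom (regLik 3 d lam 0) (law3 1 1) := by
  intro l f _
  rw [ev_law3, avg_ver]
  have e : sumF (Fn l f) (regLik 3 d lam 0) =
      ∑ x : Fin 3, Fn l f (fun i => if i = x then (1 : ℝ) else 0) := rfl
  rw [e, Fin.sum_univ_three, Fn_expand, Fn_expand, Fn_expand]
  refine le_of_eq ?_
  simp
  ring

theorem valid_one : Valid 1 1 := ⟨by norm_num, le_rfl, by norm_num⟩

/-- the message law -/
noncomputable def msg (ν0 θ x P : ℝ) : Law := edgeLaw (-ν0) (law3 (θ ^ 2 * x) (θ ^ 3 * P))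

/-- thinning keeps the parameters admissible -/
theorem Valid.thin {θ x P : ℝ} (h : Valid x P) (hθ : 0 ≤ θ) (hθ1 : θ ≤ 1) :
    Valid (θ ^ 2 * x) (θ ^ 3 * P) := by
  obtain ⟨h1, h2, h3⟩ := h
  have hx : 0 ≤ x := by linarith
  have hθ2 : θ ^ 2 ≤ 1 := pow_le_one₀ hθ hθ1
  have hθ3 : θ ^ 3 ≤ θ ^ 2 := pow_le_pow_of_le_one hθ hθ1 (by norm_num)
  have hθ3' : 0 ≤ θ ^ 3 := by positivity
  have hθ2' : 0 ≤ θ ^ 2 := by positivity
  refine ⟨?_, ?_, ?_⟩
  · have a := mul_nonneg hθ3' h1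
    have b := mul_nonneg (sub_nonneg.2 hθ3) hx
    nlinarith
  · have a := mul_le_mul_of_nonneg_left h2 hθ3'
    have b := mul_nonneg (sub_nonneg.2 hθ3) hx
    nlinarith
  · -- `3 θ² x - 2 θ³ P ≤ 1`
    have a := mul_le_mul_of_nonneg_left h3 hθ3'
    have b := mul_nonneg (sub_nonneg.2 hθ3) hx
    have hx1 : x ≤ 1 := by linarith
    have c : (θ ^ 2 - θ ^ 3) * x ≤ θ ^ 2 - θ ^ 3 :=
      mul_le_of_le_one_right (sub_nonneg.2 hθ3) hx1
    have d : 3 * θ ^ 2 - 2 * θ ^ 3 ≤ 1 := by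
      nlinarith [mul_nonneg (sq_nonneg (1 - θ)) (by linarith : (0 : ℝ) ≤ 1 + 2 * θ)]
    nlinarith

theorem msg_ok {ν0 θ x P : ℝ} (hν : 0 ≤ ν0) (hν1 : ν0 ≤ 1 / 2) (hθ : 0 ≤ θ) (hθ1 : θ ≤ 1)
    (hv : Valid x P) : (msg ν0 θ x P).Ok :=
  edgeLaw_ok (by linarith) (by linarith) (law3_ok (hv.thin hθ hθ1))

theorem msg_mass (ν0 θ x P : ℝ) : (msg ν0 θ x P).mass = 1 := by
  unfold msg
  rw [edgeLaw_mass, law3_mass]

/-- admissibility of the new parameters -/
theorem valid_iter {μ : Law} (hμ : μ.Ok) (hm : μ.mass = 1) (d : ℕ) :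
    Valid ((opL μ)^[d] fA one3) ((opL μ)^[d] fP one3) := by
  have h1 := opL_iter_nonneg hμ d (fun v hv => t1_nonneg hv) one3_nonneg
  have h2 := opL_iter_nonneg hμ d (fun v hv => t2_nonneg hv) one3_nonneg
  have h3 := opL_iter_nonneg hμ d (fun v hv => t3_nonneg hv) one3_nonneg
  have e1' : t1 = fun w => 1 / 3 * fA w + 2 / 3 * fP w := by
    funext w
    rw [t1_eq]
    ring
  have e2' : t2 = fun w => 8 / 3 * fA w + -(8 / 3) * fP w := by
    funext w
    rw [t2_eq]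
    ring
  have e3' : t3 = fun w => (mass w + -3 * fA w) + 2 * fP w := by
    funext w
    rw [t3_eq]
    ring
  rw [e1', opL_iter_add, opL_iter_mul, opL_iter_mul] at h1
  rw [e2', opL_iter_add, opL_iter_mul, opL_iter_mul] at h2
  rw [e3', opL_iter_add, opL_iter_add, opL_iter_mul, opL_iter_mul] at h3
  have hmm : (opL μ)^[d] mass one3 = 1 := by rw [opL_iter_mass_one, hm, one_pow]
  simp only [hmm] at h3
  refine ⟨by linarith, by linarith, by linarith⟩

/-- (7) one step of the recursion for three-atom laws -/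
theorem reg_state_step {d n : ℕ} {ν0 θ x P : ℝ} (hν : 0 ≤ ν0) (hν1 : ν0 ≤ 1 / 2) (hθ : 0 ≤ θ)
    (hθ1 : θ ≤ 1) (hv : Valid x P) (h : Dom (regLik 3 d (-(ν0 * θ)) n) (law3 x P)) :
    Dom (regLik 3 d (-(ν0 * θ)) (n + 1))
        (law3 ((opL (msg ν0 θ x P))^[d] fA one3) ((opL (msg ν0 θ x P))^[d] fP one3)) ∧
      Valid ((opL (msg ν0 θ x P))^[d] fA one3) ((opL (msg ν0 θ x P))^[d] fP one3) := by
  have hνθ : ν0 * θ ≤ 1 / 2 := by nlinarith
  have hνθ0 : 0 ≤ ν0 * θ := mul_nonneg hν hθ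
  have hok := msg_ok hν hν1 hθ hθ1 hv
  refine ⟨?_, valid_iter hok (msg_mass ν0 θ x P) d⟩
  refine reg_law_step' (μ := msg ν0 θ x P) (by linarith) (by linarith) hok ?_ ?_
  · exact (h.edge (by linarith) (by linarith)).trans
      fun l f hl => law3_thin hν hν1 hθ hθ1 hv hl
  · intro l f hl
    exact collapse hok (msg_mass ν0 θ x P) d hl

theorem chi_eq_ql (w : V3) : chi w =
    1 / 2 * ((Fn one3 ![1, 0, 0] w + Fn one3 ![0, 1, 0] w) + Fn one3 ![0, 0, 1] w) +
      -(1 / 2) * mass w := by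
  rw [Fn_expand, Fn_expand, Fn_expand, mass_eq3]
  show chi w = 1 / 2 * (((1 * 1 * w 0 + 1 * 0 * w 1 + 1 * 0 * w 2) ^ 2 /
      (1 * w 0 + 1 * w 1 + 1 * w 2) + (1 * 0 * w 0 + 1 * 1 * w 1 + 1 * 0 * w 2) ^ 2 /
      (1 * w 0 + 1 * w 1 + 1 * w 2)) + (1 * 0 * w 0 + 1 * 0 * w 1 + 1 * 1 * w 2) ^ 2 /
      (1 * w 0 + 1 * w 1 + 1 * w 2)) + -(1 / 2) * ((w 0 + w 1 + w 2) / 3)
  unfold chi
  rw [Fin.sum_univ_three, Fin.sum_univ_three]
  push_cast
  ring

theorem ev_mass (μ : Law) : ev μ mass = μ.mass := by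
  unfold ev Law.mass
  rw [inv_mass.avg_eq]

/-- (8) general form -/
theorem chi_le_ev {Ω : Type} [Fintype Ω] {L : Fin 3 → Ω → ℝ} {μ : Law} (hm : μ.mass = 1)
    (h : Dom L μ) (hs : ∀ i, ∑ x, L i x = 1) : sumF chi L ≤ ev μ fA := by
  have hq : QL (fun w => 1 / 2 *
      ((Fn one3 ![1, 0, 0] w + Fn one3 ![0, 1, 0] w) + Fn one3 ![0, 0, 1] w)) :=
    QL.smul (by norm_num) (QL.add (QL.add (QL.fn _ _ one3_nonneg) (QL.fn _ _ one3_nonneg))
      (QL.fn _ _ one3_nonneg))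
  have h1 := h.ql hq
  have e1' : sumF chi L = sumF (fun w => 1 / 2 *
      ((Fn one3 ![1, 0, 0] w + Fn one3 ![0, 1, 0] w) + Fn one3 ![0, 0, 1] w)) L +
      -(1 / 2) * sumF mass L := by
    rw [← sumF_mul, ← sumF_add]
    congr 1
    funext w
    exact chi_eq_ql w
  have e2' : ev μ fA = ev μ (fun w => 1 / 2 *
      ((Fn one3 ![1, 0, 0] w + Fn one3 ![0, 1, 0] w) + Fn one3 ![0, 0, 1] w)) +
      -(1 / 2) * ev μ mass := by
    rw [← ev_mul μ _ mass, ← ev_add]
    congr 1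
    funext w
    rw [fA_eq_chi]
    exact chi_eq_ql w
  rw [e1', e2', ev_mass, hm, sumF_mass (by norm_num) hs]
  linarith

/-- (8) -/
theorem chi_le_of_dom {Ω : Type} [Fintype Ω] {L : Fin 3 → Ω → ℝ} {x P : ℝ}
    (h : Dom L (law3 x P)) (hs : ∀ i, ∑ y, L i y = 1) : sumF chi L ≤ x := by
  have := chi_le_ev (law3_mass x P) h hs
  rwa [ev_law3_fA] at this

/-- nonreconstruction from bounds on the chi-square informations -/
theorem nonrec_of_chi {d : ℕ} {lam : ℝ} (h0 : -1 / 2 ≤ lam) (h1 : lam ≤ 1) (x : ℕ → ℝ) (N : ℕ)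
    (hx : ∀ n, sumF chi (regLik 3 d lam (n + N)) ≤ x n)
    (hlim : Filter.Tendsto x Filter.atTop (nhds 0)) : Nonreconstruction (regA 3 d lam) := by
  have key : Filter.Tendsto (fun n => regA 3 d lam (n + N)) Filter.atTop (nhds 0) := by
    refine tendsto_zero_of_bias (A := (3 : ℝ) / 4) (B := (2 : ℝ) / 12) (x := x)
      (fun n => avgBias_nonneg (regLik3_nonneg h0 h1 (n + N))) hlim (fun n δ hδ => ?_)
    have h2 := avgBias_le (q := 3) (by norm_num) (regLik3_nonneg h0 h1 (n + N))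
      (regLik3_sum d lam (n + N)) hδ
    unfold regA
    refine le_trans h2 ?_
    have h3 : (0 : ℝ) ≤ (((3 : ℕ) : ℝ) - 1) / (4 * δ * ((3 : ℕ) : ℝ)) := by
      push_cast
      positivity
    have h4 := mul_le_mul_of_nonneg_left (hx n) h3
    refine le_trans (add_le_add le_rfl h4) (le_of_eq ?_)
    push_cast
    field_simp
    ring
  exact (Filter.tendsto_add_atTop_iff_nat N).1 key

/-- (9) nonreconstruction from the numerical recursion -/
theorem reg_nonrec_of_seq {d : ℕ} {ν0 θ : ℝ} (hν : 0 ≤ ν0) (hν1 : ν0 ≤ 1 / 2) (hθ : 0 ≤ θ)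
    (hθ1 : θ ≤ 1) (x P : ℕ → ℝ) (N : ℕ)
    (hdom : Dom (regLik 3 d (-(ν0 * θ)) N) (law3 (x 0) (P 0))) (hval : Valid (x 0) (P 0))
    (hx : ∀ n, x (n + 1) = (opL (msg ν0 θ (x n) (P n)))^[d] fA one3)
    (hP : ∀ n, P (n + 1) = (opL (msg ν0 θ (x n) (P n)))^[d] fP one3)
    (hlim : Filter.Tendsto x Filter.atTop (nhds 0)) :
    Nonreconstruction (regA 3 d (-(ν0 * θ))) := by
  have hνθ : ν0 * θ ≤ 1 / 2 := by nlinarith
  have hνθ0 : 0 ≤ ν0 * θ := mul_nonneg hν hθ
  have key : ∀ n, Dom (regLik 3 d (-(ν0 * θ)) (n + N)) (law3 (x n) (P n)) ∧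
      Valid (x n) (P n) := by
    intro n
    induction n with
    | zero => rw [Nat.zero_add]; exact ⟨hdom, hval⟩
    | succ n ih =>
      have := reg_state_step hν hν1 hθ hθ1 ih.2 ih.1
      rw [← hx, ← hP] at this
      have e : n + 1 + N = n + N + 1 := by ring
      rw [e]
      exact this
  refine nonrec_of_chi (by linarith) (by linarith) x N (fun n => ?_) hlim
  exact chi_le_of_dom (key n).1 (regLik3_sum d _ (n + N))

/-! ### Monotonicity in the degree and in the parameter of the edges -/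

theorem degr_refl {q : ℕ} {Ω : Type} [Fintype Ω] (L : Fin q → Ω → ℝ) : KS.Degr L L := by
  classical
  refine ⟨fun x y => if x = y then 1 else 0, fun x y => ?_, fun x => by simp, fun i y => by simp⟩
  show (0 : ℝ) ≤ if x = y then 1 else 0
  split_ifs <;> norm_num

theorem degr_trans {q : ℕ} {Ω Ω' Ω'' : Type} [Fintype Ω] [Fintype Ω'] [Fintype Ω'']
    {L : Fin q → Ω → ℝ} {L' : Fin q → Ω' → ℝ} {L'' : Fin q → Ω'' → ℝ} (h : KS.Degr L L')
    (h' : KS.Degr L' L'') : KS.Degr L L'' := by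
  obtain ⟨K, hK0, hK1, hK⟩ := h
  obtain ⟨K', hK0', hK1', hK'⟩ := h'
  refine ⟨fun x z => ∑ y, K x y * K' y z,
    fun x z => Finset.sum_nonneg fun y _ => mul_nonneg (hK0 x y) (hK0' y z), fun x => ?_,
    fun i z => ?_⟩
  · rw [Finset.sum_comm]
    simp only [← Finset.mul_sum, hK1', mul_one, hK1]
  · rw [hK']
    simp only [hK, Finset.sum_mul, Finset.mul_sum]
    rw [Finset.sum_comm]
    exact Finset.sum_congr rfl fun x _ => Finset.sum_congr rfl fun y _ => by ring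

/-- forgetting one of the observations -/
theorem degr_forget {q m : ℕ} {Ω : Type} [Fintype Ω] (E : Fin q → Ω → ℝ)
    (hs : ∀ i, ∑ x, E i x = 1) :
    KS.Degr (prodL (fun _ : Fin (m + 1) => E)) (prodL (fun _ : Fin m => E)) := by
  classical
  refine ⟨fun x y => if (fun k : Fin m => x k.succ) = y then 1 else 0, fun x y => ?_,
    fun x => by simp, fun i y => ?_⟩
  · show (0 : ℝ) ≤ if (fun k : Fin m => x k.succ) = y then 1 else 0
    split_ifs <;> norm_num
  · rw [← Equiv.sum_comp (Fin.consEquiv (fun _ : Fin (m + 1) => Ω)), Fintype.sum_prod_type]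
    have e : ∀ (a : Ω) (t : Fin m → Ω),
        prodL (fun _ : Fin (m + 1) => E) i (Fin.consEquiv (fun _ : Fin (m + 1) => Ω) (a, t)) *
          (if (fun k : Fin m => Fin.consEquiv (fun _ : Fin (m + 1) => Ω) (a, t) k.succ) = y
            then (1 : ℝ) else 0) =
        E i a * (if t = y then prodL (fun _ : Fin m => E) i t else 0) := by
      intro a t
      have e1' := prodL_cons (Ω := fun _ : Fin (m + 1) => Ω) (fun _ => E) (a, t) i
      rw [e1']
      show E i a * prodL (fun _ : Fin m => E) i t * (if t = y then (1 : ℝ) else 0) = _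
      split_ifs <;> ring
    simp only [e]
    simp only [← Finset.mul_sum, Finset.sum_ite_eq', Finset.mem_univ, if_true]
    rw [← Finset.sum_mul, hs, one_mul]

theorem degr_forget_le {q m m' : ℕ} (h : m' ≤ m) {Ω : Type} [Fintype Ω] (E : Fin q → Ω → ℝ)
    (hs : ∀ i, ∑ x, E i x = 1) :
    KS.Degr (prodL (fun _ : Fin m => E)) (prodL (fun _ : Fin m' => E)) := by
  induction m, h using Nat.le_induction with
  | base => exact degr_refl _
  | succ k _ ih => exact degr_trans (degr_forget E hs) ih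

theorem edgeL_sum {Ω : Type} [Fintype Ω] {L : Fin 3 → Ω → ℝ} (lam : ℝ)
    (hs : ∀ i, ∑ x, L i x = 1) (i : Fin 3) : ∑ x, edgeL lam L i x = 1 :=
  KS.child_sum (by norm_num) L hs i

/-- a tree of larger degree is more informative -/
theorem regLik_degr {d' d : ℕ} (h : d' ≤ d) (lam : ℝ) :
    ∀ n, KS.Degr (regLik 3 d lam n) (regLik 3 d' lam n)
  | 0 => degr_refl (fun (i : Fin 3) (x : Fin 3) => if i = x then (1 : ℝ) else 0)
  | n + 1 => by
    have h1 := KS.degr_prod (k := d) lam (fun _ => regLik 3 d lam n) (fun _ => regLik 3 d' lam n)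
      (fun _ => regLik_degr h lam n)
    exact degr_trans h1
      (degr_forget_le h (edgeL lam (regLik 3 d' lam n)) (edgeL_sum lam (regLik3_sum d' lam n)))

/-- (10) monotonicity in the degree -/
theorem regA_mono_d {d' d : ℕ} (h : d' ≤ d) {lam : ℝ} (h0 : -1 / 2 ≤ lam) (h1 : lam ≤ 1)
    (n : ℕ) : regA 3 d' lam n ≤ regA 3 d lam n :=
  KS.avgBias_mono (by norm_num) _ _ (regLik3_nonneg h0 h1 n) (regLik_degr h lam n)

theorem nonrec_mono_d {d' d : ℕ} (h : d' ≤ d) {lam : ℝ} (h0 : -1 / 2 ≤ lam) (h1 : lam ≤ 1)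
    (hN : Nonreconstruction (regA 3 d lam)) : Nonreconstruction (regA 3 d' lam) :=
  squeeze_zero (fun n => avgBias_nonneg (regLik3_nonneg h0 h1 n)) (regA_mono_d h h0 h1) hN

/-- an observation through an additional edge is less informative -/
theorem degr_edge {Ω Ω' : Type} [Fintype Ω] [Fintype Ω'] {L : Fin 3 → Ω → ℝ}
    {L' : Fin 3 → Ω' → ℝ} (h : KS.Degr L L') (hs : ∀ i, ∑ x, L i x = 1)
    (hn' : ∀ i x, 0 ≤ L' i x) (hs' : ∀ i, ∑ x, L' i x = 1) {s : ℝ} (h0 : 0 ≤ s) (h1 : s ≤ 1) :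
    KS.Degr L (edgeL s L') := by
  obtain ⟨K, hK0, hK1, hK⟩ := h
  refine ⟨fun x y => s * K x y + (1 - s) / 3 * ∑ j, L' j y, fun x y => ?_, fun x => ?_,
    fun i y => ?_⟩
  · have a := mul_nonneg h0 (hK0 x y)
    have b : 0 ≤ ∑ j, L' j y := Finset.sum_nonneg fun j _ => hn' j y
    have c : 0 ≤ (1 - s) / 3 := by linarith
    have e := mul_nonneg c b
    show 0 ≤ s * K x y + (1 - s) / 3 * ∑ j, L' j y
    linarith
  · rw [Finset.sum_add_distrib, ← Finset.mul_sum, ← Finset.mul_sum, hK1, Finset.sum_comm,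
      Fin.sum_univ_three, hs', hs', hs']
    ring
  · have e := congrFun (edgeL_apply s L' y) i
    have e' : edgeL s L' i y = s * L' i y + (1 - s) / (3 : ℕ) * ∑ j, L' j y := e
    rw [e', hK i y]
    have e2' : ∀ x, L i x * (s * K x y + (1 - s) / 3 * ∑ j, L' j y) =
        s * (L i x * K x y) + L i x * ((1 - s) / 3 * ∑ j, L' j y) := fun x => by ring
    simp only [e2']
    rw [Finset.sum_add_distrib, ← Finset.mul_sum, ← Finset.sum_mul, hs, one_mul]
    norm_num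

theorem edgeL_edgeL {Ω : Type} (a b : ℝ) (L : Fin 3 → Ω → ℝ) (i : Fin 3) (x : Ω) :
    edgeL a (edgeL b L) i x = edgeL (a * b) L i x := by
  have e1' := congrFun (edgeL_apply a (edgeL b L) x) i
  have e2' := congrFun (edgeL_apply (a * b) L x) i
  rw [e1', e2', edgeL_apply, smooth_smooth]

/-- weaker edges are less informative -/
theorem regLik_degr_edge {d : ℕ} {lam s : ℝ} (h0 : -1 / 2 ≤ lam) (h1 : lam ≤ 1) (hs0 : 0 ≤ s)
    (hs1 : s ≤ 1) : ∀ n, KS.Degr (regLik 3 d lam n) (regLik 3 d (lam * s) n)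
  | 0 => degr_refl (fun (i : Fin 3) (x : Fin 3) => if i = x then (1 : ℝ) else 0)
  | n + 1 => by
    have h0' : -1 / 2 ≤ lam * s := by nlinarith
    have h1' : lam * s ≤ 1 := by nlinarith
    have h2 := degr_edge (regLik_degr_edge h0 h1 hs0 hs1 n) (regLik3_sum d lam n)
      (regLik3_nonneg h0' h1' n) (regLik3_sum d (lam * s) n) hs0 hs1
    have h3 := KS.degr_prod (k := d) lam (fun _ => regLik 3 d lam n)
      (fun _ => edgeL s (regLik 3 d (lam * s) n)) (fun _ => h2)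
    have e : (fun i (y : Fin d → RegCfg 3 d n) => ∏ a, ∑ j, pottsKernel 3 lam i j *
        edgeL s (regLik 3 d (lam * s) n) j (y a)) = regLik 3 d (lam * s) (n + 1) := by
      funext i y
      show ∏ a, edgeL lam (edgeL s (regLik 3 d (lam * s) n)) i (y a) =
        ∏ a, edgeL (lam * s) (regLik 3 d (lam * s) n) i (y a)
      exact Finset.prod_congr rfl fun a _ => edgeL_edgeL _ _ _ _ _
    rw [← e]
    exact h3

theorem regA_mono_nu {d : ℕ} {ν' ν : ℝ} (h0 : 0 ≤ ν') (h : ν' ≤ ν) (h1 : ν ≤ 1 / 2) (n : ℕ) :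
    regA 3 d (-ν') n ≤ regA 3 d (-ν) n := by
  rcases (h0.trans h).eq_or_lt with hz | hpos
  · have : ν' = ν := le_antisymm h (by rw [← hz]; exact h0)
    rw [this]
  · have e : -ν' = -ν * (ν' / ν) := by
      field_simp
    rw [e]
    exact KS.avgBias_mono (by norm_num) _ _ (regLik3_nonneg (by linarith) (by linarith) n)
      (regLik_degr_edge (by linarith) (by linarith) (div_nonneg h0 hpos.le)
        ((div_le_one hpos).2 h) n)

/-- (10) monotonicity in the parameter -/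
theorem nonrec_mono_nu {d : ℕ} {ν' ν : ℝ} (h0 : 0 ≤ ν') (h : ν' ≤ ν) (h1 : ν ≤ 1 / 2)
    (hN : Nonreconstruction (regA 3 d (-ν))) : Nonreconstruction (regA 3 d (-ν')) :=
  squeeze_zero (fun n => avgBias_nonneg (regLik3_nonneg (by linarith) (by linarith) n))
    (regA_mono_nu h0 h h1) hN

end Vale.Agent.P154.LN
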