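import Mathlib

/-!
# Tables of the polynomial upper bounds for the two functionals

Entry `(i, j, n)` of a table is the coefficient `n / 256` of
`ck t (i + j) * A ^ i * B ^ j`.
-/

open scoped BigOperators

namespace Vale.Agent.P154.LN

/-- `(1 - t) (1 - 2 t) ... (1 - (m-1) t)` -/
noncomputable def ck (t : ℝ) (m : ℕ) : ℝ := ∏ j ∈ Finset.range m, (1 - (j : ℝ) * t)

/-- value of a table at `(t, A, B)` -/
noncomputable def Upoly (u : List (ℕ × ℕ × ℤ)) (t A B : ℝ) : ℝ :=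
  (u.map (fun e => ((e.2.2 : ℝ) / 256) * ck t (e.1 + e.2.1) * A ^ e.1 * B ^ e.2.1)).sum

/-- table for the `A` functional -/
def uA : List (ℕ × ℕ × ℤ) :=
  [(1, 0, 256), (0, 1, 256), (0, 2, -204), (0, 3, 274), (0, 4, -487), (0, 5, 533), (0, 6, 1),
   (1, 1, 1), (1, 2, -409), (1, 3, 911), (1, 4, -527), (1, 5, 111), (2, 0, 257), (2, 1, -1024),
   (2, 2, 2049), (2, 3, -3823), (2, 4, 2329), (3, 0, -853), (3, 1, 2049), (3, 2, -3228),
   (3, 3, 4658), (4, 0, 1110), (4, 1, -2389), (4, 2, 2676), (5, 0, -831), (5, 1, 1259),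
   (6, 0, 306)]

/-- table for the `P` functional -/
def uP : List (ℕ × ℕ × ℤ) :=
  [(1, 0, -128), (0, 1, 64), (0, 2, 349), (0, 3, -1019), (0, 4, 2081), (0, 5, -1877),
   (0, 6, 602), (1, 1, 1281), (1, 2, -3235), (1, 3, 7083), (1, 4, -8069), (1, 5, 4396),
   (2, 0, 1409), (2, 1, -4096), (2, 2, 8315), (2, 3, -17169), (2, 4, 10951), (3, 0, -2645),
   (3, 1, 6486), (3, 2, -10832), (3, 3, 18422), (4, 0, 3030), (4, 1, -6997), (4, 2, 6999),
   (5, 0, -2130), (5, 1, 3595), (6, 0, 726)]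

end Vale.Agent.P154.LN
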