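import Vale.Agent.Lib.P154.LN.Values
import Vale.Agent.Lib.P154.LN.UTab
import Vale.Agent.Lib.P154.LN.FrameReg
import Vale.Agent.Lib.P154.FrameGW

/-!
# The polynomial upper bounds of the state recursions
-/

open scoped BigOperators
open Finset

namespace Vale.Agent.P154.LN

/-- coefficients `u_ij / (4 ^ i 16 ^ j)` of the `A` functional -/
def tabA : List (List ℚ) :=
  [[0, 1 / 16, -51 / 16384, 137 / 524288, -487 / 16777216, 533 / 268435456, 1 / 4294967296],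
  [1 / 4, 1 / 16384, -409 / 262144, 911 / 4194304, -527 / 67108864, 111 / 1073741824, 0],
  [257 / 4096, -1 / 64, 2049 / 1048576, -3823 / 16777216, 2329 / 268435456, 0, 0],
  [-853 / 16384, 2049 / 262144, -807 / 1048576, 2329 / 33554432, 0, 0, 0],
  [555 / 32768, -2389 / 1048576, 669 / 4194304, 0, 0, 0, 0],
  [-831 / 262144, 1259 / 4194304, 0, 0, 0, 0, 0],
  [153 / 524288, 0, 0, 0, 0, 0, 0]]

/-- coefficients `u_ij / (4 ^ i 16 ^ j)` of the `P` functional -/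
def tabP : List (List ℚ) :=
  [[0, 1 / 64, 349 / 65536, -1019 / 1048576, 2081 / 16777216, -1877 / 268435456, 301 / 2147483648],
  [-1 / 8, 1281 / 16384, -3235 / 262144, 7083 / 4194304, -8069 / 67108864, 1099 / 268435456, 0],
  [1409 / 4096, -1 / 16, 8315 / 1048576, -17169 / 16777216, 10951 / 268435456, 0, 0],
  [-2645 / 16384, 3243 / 131072, -677 / 262144, 9211 / 33554432, 0, 0, 0],
  [1515 / 32768, -6997 / 1048576, 6999 / 16777216, 0, 0, 0, 0],
  [-1065 / 131072, 3595 / 4194304, 0, 0, 0, 0, 0],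
  [363 / 524288, 0, 0, 0, 0, 0, 0]]

theorem chk_tabA : Chk vaQ tabA 14 22 := by decide +kernel

theorem chk_tabP : Chk vpQ tabP 14 22 := by decide +kernel

/-- entry `(i, j)` of a table, times `4 ^ i * 16 ^ j / 256` -/
def entQ (u : List (ℕ × ℕ × ℤ)) (i j : ℕ) : ℚ :=
  (u.map (fun e => if e.1 = i ∧ e.2.1 = j then (e.2.2 : ℚ) / 256 else 0)).sum

theorem tabA_ent : ∀ i < 7, ∀ j < 7, coef tabA i j * 4 ^ i * 16 ^ j = entQ uA i j := by
  decide +kernel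

theorem tabP_ent : ∀ i < 7, ∀ j < 7, coef tabP i j * 4 ^ i * 16 ^ j = entQ uP i j := by
  decide +kernel

theorem uA_lt : ∀ e ∈ uA, e.1 < 7 ∧ e.2.1 < 7 := by decide

theorem uP_lt : ∀ e ∈ uP, e.1 < 7 ∧ e.2.1 < 7 := by decide

theorem entQ_sum (u : List (ℕ × ℕ × ℤ)) (hu : ∀ e ∈ u, e.1 < 7 ∧ e.2.1 < 7) (c : ℕ → ℝ)
    (A B : ℝ) : ∑ i ∈ range 7, ∑ j ∈ range 7, (entQ u i j : ℝ) * (c (i + j) * (A ^ i * B ^ j)) =
      (u.map (fun e => ((e.2.2 : ℝ) / 256) * c (e.1 + e.2.1) * A ^ e.1 * B ^ e.2.1)).sum := by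
  induction u with
  | nil => simp [entQ]
  | cons e u ih =>
    have ih' := ih fun e he => hu e (List.mem_cons_of_mem _ he)
    obtain ⟨h1, h2⟩ := hu e List.mem_cons_self
    rw [List.map_cons, List.sum_cons, ← ih']
    have e1 : ∀ i j : ℕ, (entQ (e :: u) i j : ℝ) =
        (if i = e.1 then (if j = e.2.1 then (e.2.2 : ℝ) / 256 else 0) else 0)
          + (entQ u i j : ℝ) := by
      intro i j
      unfold entQ
      rw [List.map_cons, List.sum_cons]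
      push_cast
      congr 1
      by_cases hi : i = e.1
      · by_cases hj : j = e.2.1
        · rw [if_pos hi, if_pos hj, if_pos ⟨hi.symm, hj.symm⟩]; push_cast; rfl
        · rw [if_pos hi, if_neg hj, if_neg fun h => hj h.2.symm, Rat.cast_zero]
      · rw [if_neg hi, if_neg fun h => hi h.1.symm, Rat.cast_zero]
    simp only [e1, add_mul, Finset.sum_add_distrib, ite_mul, zero_mul]
    congr 1
    rw [Finset.sum_eq_single_of_mem e.1 (Finset.mem_range.2 h1)]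
    · rw [Finset.sum_eq_single_of_mem e.2.1 (Finset.mem_range.2 h2)]
      · rw [if_pos rfl, if_pos rfl]; ring
      · intro j _ hj
        rw [if_pos rfl, if_neg hj]
    · intro i _ hi
      refine Finset.sum_eq_zero fun j _ => ?_
      rw [if_neg hi]

theorem upoly_eq {T : List (List ℚ)} {u : List (ℕ × ℕ × ℤ)}
    (hT : ∀ i < 7, ∀ j < 7, coef T i j * 4 ^ i * 16 ^ j = entQ u i j)
    (hu : ∀ e ∈ u, e.1 < 7 ∧ e.2.1 < 7) (t A B : ℝ) :
    ∑ i ∈ range 7, ∑ j ∈ range 7, (coef T i j : ℝ) *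
      (ck t (i + j) * ((4 * A) ^ i * (16 * B) ^ j)) = Upoly u t A B := by
  unfold Upoly
  rw [← entQ_sum u hu (ck t) A B]
  refine Finset.sum_congr rfl fun i hi => Finset.sum_congr rfl fun j hj => ?_
  rw [← hT i (Finset.mem_range.1 hi) j (Finset.mem_range.1 hj)]
  push_cast
  ring

/-- `(d)_m = d^m (1 - 1/d) ... (1 - (m-1)/d)` -/
theorem desc_ck {d : ℕ} (hd : 1 ≤ d) (m : ℕ) :
    ((d.descFactorial m : ℕ) : ℝ) = (d : ℝ) ^ m * ck (1 / d) m := by
  have hd' : (d : ℝ) ≠ 0 := by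
    have : (0 : ℝ) < d := by exact_mod_cast hd
    exact this.ne'
  induction m with
  | zero => simp [ck]
  | succ m ih =>
    have e : ck (1 / d) (m + 1) = ck (1 / d) m * (1 - (m : ℝ) * (1 / d)) :=
      Finset.prod_range_succ _ _
    rw [Nat.descFactorial_succ, Nat.cast_mul, ih, e]
    rcases le_or_gt m d with h | h
    · rw [Nat.cast_sub h, pow_succ]
      field_simp
    · have h0 : ((d.descFactorial m : ℕ) : ℝ) = 0 := by
        rw [Nat.descFactorial_of_lt h, Nat.cast_zero]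
      rw [ih] at h0
      have : (d : ℝ) ^ (m + 1) * (ck (1 / d) m * (1 - (m : ℝ) * (1 / d))) =
          (d : ℝ) ^ m * ck (1 / d) m * (d * (1 - (m : ℝ) * (1 / d))) := by rw [pow_succ]; ring
      rw [this, h0]
      ring

theorem reg_eq {T : List (List ℚ)} {u : List (ℕ × ℕ × ℤ)}
    (hT : ∀ i < 7, ∀ j < 7, coef T i j * 4 ^ i * 16 ^ j = entQ u i j)
    (hu : ∀ e ∈ u, e.1 < 7 ∧ e.2.1 < 7) {d : ℕ} (hd : 1 ≤ d) {p q A B : ℝ}
    (hA : (d : ℝ) * p = 4 * A) (hB : (d : ℝ) * q = 16 * B) :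
    ∑ i ∈ range 7, ∑ j ∈ range 7, (coef T i j : ℝ) *
      (((d.descFactorial (i + j) : ℕ) : ℝ) * (p ^ i * q ^ j)) = Upoly u (1 / d) A B := by
  rw [← upoly_eq hT hu, ← hA, ← hB]
  refine Finset.sum_congr rfl fun i _ => Finset.sum_congr rfl fun j _ => ?_
  rw [desc_ck hd, pow_add, mul_pow, mul_pow]
  ring

theorem msg_cond {θ x P : ℝ} (h0 : 0 ≤ θ) (h1 : θ ≤ 1) (hv : Valid x P) :
    0 ≤ (θ ^ 2 * x + 2 * (θ ^ 3 * P)) / 3 ∧ 0 ≤ 8 / 3 * (θ ^ 2 * x - θ ^ 3 * P) ∧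
      0 ≤ 1 - 3 * (θ ^ 2 * x) + 2 * (θ ^ 3 * P) := by
  obtain ⟨a, b, c⟩ := hv.thin h0 h1
  refine ⟨by linarith, by linarith, by linarith⟩

theorem neg_half : (-(1 / 2) : ℝ) = -1 / 2 := by norm_num

theorem iterA_le (k : ℕ) {θ x P : ℝ} (h0 : 0 ≤ θ) (h1 : θ ≤ 1) (hv : Valid x P) :
    (opL (msg (1 / 2) θ x P))^[k] fA one3 ≤
      ∑ i ∈ range 7, ∑ j ∈ range 7, (coef tabA i j : ℝ) * (((k.descFactorial (i + j) : ℕ) : ℝ) *
        (((θ ^ 2 * x + 2 * (θ ^ 3 * P)) / 3) ^ i * (8 / 3 * (θ ^ 2 * x - θ ^ 3 * P)) ^ j)) := by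
  obtain ⟨a, b, c⟩ := msg_cond h0 h1 hv
  unfold msg
  rw [neg_half]
  exact opL_edge_fA_le chk_tabA a b c k

theorem iterP_le (k : ℕ) {θ x P : ℝ} (h0 : 0 ≤ θ) (h1 : θ ≤ 1) (hv : Valid x P) :
    (opL (msg (1 / 2) θ x P))^[k] fP one3 ≤
      ∑ i ∈ range 7, ∑ j ∈ range 7, (coef tabP i j : ℝ) * (((k.descFactorial (i + j) : ℕ) : ℝ) *
        (((θ ^ 2 * x + 2 * (θ ^ 3 * P)) / 3) ^ i * (8 / 3 * (θ ^ 2 * x - θ ^ 3 * P)) ^ j)) := by
  obtain ⟨a, b, c⟩ := msg_cond h0 h1 hv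
  unfold msg
  rw [neg_half]
  exact opL_edge_fP_le chk_tabP a b c k

/-- regular trees, the `A` functional -/
theorem regA_le {d : ℕ} (hd : 1 ≤ d) {θ x P : ℝ} (h0 : 0 ≤ θ) (h1 : θ ≤ 1) (hv : Valid x P) :
    (opL (msg (1 / 2) θ x P))^[d] fA one3 ≤ Upoly uA (1 / (d : ℝ))
      ((d : ℝ) * θ ^ 2 * (x + 2 * θ * P) / 12) ((d : ℝ) * θ ^ 2 * (x - θ * P) / 6) := by
  refine (iterA_le d h0 h1 hv).trans (le_of_eq ?_)
  exact reg_eq tabA_ent uA_lt hd (by ring) (by ring)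

/-- regular trees, the `P` functional -/
theorem regP_le {d : ℕ} (hd : 1 ≤ d) {θ x P : ℝ} (h0 : 0 ≤ θ) (h1 : θ ≤ 1) (hv : Valid x P) :
    (opL (msg (1 / 2) θ x P))^[d] fP one3 ≤ Upoly uP (1 / (d : ℝ))
      ((d : ℝ) * θ ^ 2 * (x + 2 * θ * P) / 12) ((d : ℝ) * θ ^ 2 * (x - θ * P) / 6) := by
  refine (iterP_le d h0 h1 hv).trans (le_of_eq ?_)
  exact reg_eq tabP_ent uP_lt hd (by ring) (by ring)

/-! ### Poisson Galton-Watson trees -/

/-- factorial moments of the Poisson distribution -/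
theorem hasSum_poi_desc (d : ℝ) (m : ℕ) :
    HasSum (fun k : ℕ => poi d k * ((k.descFactorial m : ℕ) : ℝ)) (d ^ m) := by
  rw [← hasSum_nat_add_iff' m]
  have hz : ∑ i ∈ range m, poi d i * ((i.descFactorial m : ℕ) : ℝ) = 0 :=
    Finset.sum_eq_zero fun i hi => by
      rw [Nat.descFactorial_of_lt (Finset.mem_range.1 hi), Nat.cast_zero, mul_zero]
  rw [hz, sub_zero]
  have h := (hasSum_poi d).mul_left (d ^ m)
  rw [mul_one] at h
  refine hasSum_of_eq h (fun k => ?_) rfl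
  have hf := Nat.factorial_mul_descFactorial (Nat.le_add_left m k)
  rw [Nat.add_sub_cancel] at hf
  unfold poi
  rw [← hf]
  have h1 : ((k.factorial : ℕ) : ℝ) ≠ 0 := by positivity
  have h2 : (((k + m).descFactorial m : ℕ) : ℝ) ≠ 0 := by
    have : (k + m).descFactorial m ≠ 0 := by
      rw [Ne, Nat.descFactorial_eq_zero_iff_lt]
      omega
    exact_mod_cast this
  push_cast
  rw [pow_add]
  field_simp

theorem ck_zero (m : ℕ) : ck 0 m = 1 := by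
  unfold ck
  exact Finset.prod_eq_one fun j _ => by rw [mul_zero, sub_zero]

theorem hasSum_gw {T : List (List ℚ)} {u : List (ℕ × ℕ × ℤ)}
    (hT : ∀ i < 7, ∀ j < 7, coef T i j * 4 ^ i * 16 ^ j = entQ u i j)
    (hu : ∀ e ∈ u, e.1 < 7 ∧ e.2.1 < 7) {d p q A B : ℝ}
    (hA : d * p = 4 * A) (hB : d * q = 16 * B) :
    HasSum (fun k : ℕ => poi d k * ∑ i ∈ range 7, ∑ j ∈ range 7, (coef T i j : ℝ) *
      (((k.descFactorial (i + j) : ℕ) : ℝ) * (p ^ i * q ^ j))) (Upoly u 0 A B) := by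
  rw [← upoly_eq hT hu, ← hA, ← hB]
  have h : HasSum (fun k : ℕ => ∑ i ∈ range 7, ∑ j ∈ range 7,
      ((coef T i j : ℝ) * (p ^ i * q ^ j)) * (poi d k * ((k.descFactorial (i + j) : ℕ) : ℝ)))
      (∑ i ∈ range 7, ∑ j ∈ range 7, ((coef T i j : ℝ) * (p ^ i * q ^ j)) * d ^ (i + j)) :=
    hasSum_sum fun i _ => hasSum_sum fun j _ => (hasSum_poi_desc d (i + j)).mul_left _
  refine hasSum_of_eq h (fun k => ?_) ?_
  · rw [Finset.mul_sum]
    refine Finset.sum_congr rfl fun i _ => ?_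
    rw [Finset.mul_sum]
    refine Finset.sum_congr rfl fun j _ => ?_
    ring
  · refine Finset.sum_congr rfl fun i _ => Finset.sum_congr rfl fun j _ => ?_
    rw [ck_zero, mul_pow, mul_pow, pow_add]
    ring

theorem valid_abs {x P : ℝ} (h : Valid x P) : |x| ≤ 1 ∧ |P| ≤ 1 := by
  obtain ⟨h1, h2, h3⟩ := h
  refine ⟨abs_le.2 ⟨by linarith, by linarith⟩, abs_le.2 ⟨by linarith, by linarith⟩⟩

theorem summable_poi {d : ℝ} (hd : 0 ≤ d) {F : ℕ → ℝ} (hF : ∀ k, |F k| ≤ 1) :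
    Summable (fun k => poi d k * F k) := by
  refine Summable.of_norm_bounded (g := poi d) (hasSum_poi d).summable fun k => ?_
  rw [Real.norm_eq_abs, abs_mul, abs_of_nonneg (poi_nonneg hd k)]
  exact mul_le_of_le_one_right (poi_nonneg hd k) (hF k)

/-- Poisson trees, the `A` functional -/
theorem gwA_le {d : ℝ} (hd : 0 < d) {θ x P : ℝ} (h0 : 0 ≤ θ) (h1 : θ ≤ 1) (hv : Valid x P) :
    ∑' k, poi d k * (opL (msg (1 / 2) θ x P))^[k] fA one3 ≤ Upoly uA 0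
      (d * θ ^ 2 * (x + 2 * θ * P) / 12) (d * θ ^ 2 * (x - θ * P) / 6) := by
  have hok := msg_ok (ν0 := 1 / 2) (by norm_num) le_rfl h0 h1 hv
  have hs := summable_poi hd.le (F := fun k => (opL (msg (1 / 2) θ x P))^[k] fA one3)
    fun k => (valid_abs (valid_iter hok (msg_mass _ _ _ _) k)).1
  refine hasSum_le (fun k => mul_le_mul_of_nonneg_left (iterA_le k h0 h1 hv)
    (poi_nonneg hd.le k)) hs.hasSum ?_
  exact hasSum_gw tabA_ent uA_lt (by ring) (by ring)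

/-- Poisson trees, the `P` functional -/
theorem gwP_le {d : ℝ} (hd : 0 < d) {θ x P : ℝ} (h0 : 0 ≤ θ) (h1 : θ ≤ 1) (hv : Valid x P) :
    ∑' k, poi d k * (opL (msg (1 / 2) θ x P))^[k] fP one3 ≤ Upoly uP 0
      (d * θ ^ 2 * (x + 2 * θ * P) / 12) (d * θ ^ 2 * (x - θ * P) / 6) := by
  have hok := msg_ok (ν0 := 1 / 2) (by norm_num) le_rfl h0 h1 hv
  have hs := summable_poi hd.le (F := fun k => (opL (msg (1 / 2) θ x P))^[k] fP one3)
    fun k => (valid_abs (valid_iter hok (msg_mass _ _ _ _) k)).2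
  refine hasSum_le (fun k => mul_le_mul_of_nonneg_left (iterP_le k h0 h1 hv)
    (poi_nonneg hd.le k)) hs.hasSum ?_
  exact hasSum_gw tabP_ent uP_lt (by ring) (by ring)

end Vale.Agent.P154.LN
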