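import Vale.Agent.Lib.P154.LN.CertLoc
import Vale.Agent.Lib.P154.LN.CertR
import Vale.Agent.Lib.P154.LN.UBound
import Vale.Agent.Lib.P154.LN.DomDegr
import Vale.Agent.Lib.P154.LN.FrameGW2
import Vale.Agent.Lib.P154.LN.FourExit

/-!
# Nonreconstruction for the three-state antiferromagnetic Potts channel at and below the
Kesten-Stigum bound
-/

open scoped BigOperators

namespace Vale.Agent.P154.LN

theorem Upoly_zero {u : List (ℕ × ℕ × ℤ)} (hu : ∀ e ∈ u, 1 ≤ e.1 + e.2.1 ∧ e.1 + e.2.1 ≤ 6)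
    (t : ℝ) : Upoly u t 0 0 = 0 := by
  unfold Upoly
  apply List.sum_eq_zero
  intro y hy
  obtain ⟨e, he, rfl⟩ := List.mem_map.1 hy
  have h1 := (hu e he).1
  rcases Nat.eq_zero_or_pos e.1 with h | h
  · have h2 : e.2.1 ≠ 0 := by omega
    show (e.2.2 : ℝ) / 256 * ck t (e.1 + e.2.1) * 0 ^ e.1 * 0 ^ e.2.1 = 0
    rw [zero_pow h2, mul_zero]
  · show (e.2.2 : ℝ) / 256 * ck t (e.1 + e.2.1) * 0 ^ e.1 * 0 ^ e.2.1 = 0
    rw [zero_pow h.ne', mul_zero, zero_mul]

/-! ### The recursion on regular trees -/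

/-- iterates of the two-parameter recursion, `d`-ary trees -/
noncomputable def stR (d : ℕ) (θ x0 P0 : ℝ) : ℕ → ℝ × ℝ
  | 0 => (x0, P0)
  | n + 1 => ((opL (msg (1 / 2) θ (stR d θ x0 P0 n).1 (stR d θ x0 P0 n).2))^[d] fA one3,
      (opL (msg (1 / 2) θ (stR d θ x0 P0 n).1 (stR d θ x0 P0 n).2))^[d] fP one3)

theorem stR_valid {d : ℕ} {θ x0 P0 : ℝ} (h0 : 0 ≤ θ) (h1 : θ ≤ 1) (hv : Valid x0 P0) :
    ∀ n, Valid (stR d θ x0 P0 n).1 (stR d θ x0 P0 n).2
  | 0 => hv
  | n + 1 => valid_iter (msg_ok (by norm_num) le_rfl h0 h1 (stR_valid h0 h1 hv n))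
      (msg_mass _ _ _ _) d

/-- a potential which decreases along the recursion gives nonreconstruction -/
theorem reg_nonrec_of_potential {d : ℕ} (hd : 1 ≤ d) {θ x0 P0 c1 c2 c3 s : ℝ} (h0 : 0 ≤ θ)
    (h1 : θ ≤ 1) (hv : Valid x0 P0) (N : ℕ)
    (hdom : Dom (regLik 3 d (-(1 / 2 * θ)) N) (law3 x0 P0)) (hc1 : 0 ≤ c1) (hc2 : 0 ≤ c2)
    (hc3 : 0 ≤ c3) (hs : 0 < s) (Q : ℝ → ℝ → Prop) (hQ0 : Q x0 P0)
    (hstep : ∀ x P X Y : ℝ, Valid x P → Q x P → Valid X Y →
      X ≤ Upoly uA (1 / (d : ℝ)) ((d : ℝ) * θ ^ 2 * (x + 2 * θ * P) / 12)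
        ((d : ℝ) * θ ^ 2 * (x - θ * P) / 6) →
      Y ≤ Upoly uP (1 / (d : ℝ)) ((d : ℝ) * θ ^ 2 * (x + 2 * θ * P) / 12)
        ((d : ℝ) * θ ^ 2 * (x - θ * P) / 6) →
      Q X Y ∧ Psi c1 c2 c3 X Y ≤ Psi c1 c2 c3 x P - s * x ^ 2) :
    Nonreconstruction (regA 3 d (-(1 / 2 * θ))) := by
  have hval := stR_valid (d := d) h0 h1 hv
  have key : ∀ n, Q (stR d θ x0 P0 n).1 (stR d θ x0 P0 n).2 := by
    intro n
    induction n with
    | zero => exact hQ0
    | succ n ih =>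
      exact (hstep _ _ _ _ (hval n) ih (hval (n + 1)) (regA_le hd h0 h1 (hval n))
        (regP_le hd h0 h1 (hval n))).1
  have hlim : Filter.Tendsto (fun n => (stR d θ x0 P0 n).1) Filter.atTop (nhds 0) := by
    refine tendsto_zero_of_potential (V := fun n =>
      Psi c1 c2 c3 (stR d θ x0 P0 n).1 (stR d θ x0 P0 n).2) hs
      (fun n => Psi_nonneg hc1 hc2 hc3 (hval n).nonneg) (fun n => ?_)
    exact (hstep _ _ _ _ (hval n) (key n) (hval (n + 1)) (regA_le hd h0 h1 (hval n))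
        (regP_le hd h0 h1 (hval n))).2
  exact reg_nonrec_of_seq (by norm_num) le_rfl h0 h1 (fun n => (stR d θ x0 P0 n).1)
    (fun n => (stR d θ x0 P0 n).2) N hdom hv (fun _ => rfl) (fun _ => rfl) hlim

/-- `d ≥ 6`, at the Kesten-Stigum bound -/
theorem nonrec_reg6 {d : ℕ} (hd : 6 ≤ d) {θ : ℝ} (h0 : 0 ≤ θ) (hθ : (d : ℝ) * θ ^ 2 = 4) :
    Nonreconstruction (regA 3 d (-(1 / 2 * θ))) := by
  have hd' : (6 : ℝ) ≤ d := by exact_mod_cast hd
  have h1 : θ ≤ 1 := by nlinarith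
  refine reg_nonrec_of_potential (by omega) h0 h1 valid_one 0 dom_zero (c1 := 3 / 4) (c2 := 0)
    (c3 := 1 / 2) (s := 1 / 1000) (by norm_num) le_rfl (by norm_num) (by norm_num)
    (fun _ _ => True) trivial ?_
  intro x P X Y hv _ hV hX hY
  exact ⟨trivial, step_reg6 certRegP1 certRegP2 certRegN hd h0 hθ hv hV.nonneg hX hY⟩

/-- `d = 4`, `λ = -1/2` -/
theorem nonrec_reg4 : Nonreconstruction (regA 3 4 (-1 / 2)) := by
  obtain ⟨N, x0, P0, hdom, hv, hq⟩ := Four.exit4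
  have e : (-(1 / 2 * 1) : ℝ) = -1 / 2 := by norm_num
  have hb : ∀ x : ℝ, 0 ≤ x → x + x ^ 2 ≤ 5 / 16 → x ≤ 1 / 4 := by
    intro x h0 h
    nlinarith
  have key := reg_nonrec_of_potential (d := 4) (by norm_num) (θ := 1) zero_le_one le_rfl hv N
    (by rw [e]; exact hdom) (c1 := 0) (c2 := 3 / 2) (c3 := 1) (s := 1 / 10000) le_rfl
    (by norm_num) (by norm_num) (by norm_num)
    (fun x P => Psi 0 (3 / 2) 1 x P ≤ 5 / 16) (by unfold Psi; linarith) (by
      intro x P X Y hv hQ hV hX hY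
      have hx : x ≤ 1 / 4 := by
        refine hb x hv.nonneg (le_trans ?_ hQ)
        unfold Psi
        have := sq_nonneg (max P 0)
        linarith
      have hstep := step_four cert4 hv hx hV.nonneg hX hY
      refine ⟨?_, hstep⟩
      have := sq_nonneg x
      linarith)
  rw [e] at key
  exact key

/-- `d = 5`, at the Kesten-Stigum bound -/
theorem nonrec_reg5 {θ : ℝ} (h0 : 0 ≤ θ) (hθ : ((5 : ℕ) : ℝ) * θ ^ 2 = 4) :
    Nonreconstruction (regA 3 5 (-(1 / 2 * θ))) := by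
  obtain ⟨N, x0, P0, hdom, hv, hq⟩ := Four.exit5
  have hθ9 : θ ≤ 9 / 10 := by
    push_cast at hθ
    nlinarith
  have hdom' : Dom (regLik 3 5 (-(1 / 2 * θ)) N) (law3 x0 P0) := by
    refine Dom.mono_nu (ν := 9 / 20) (by linarith) (by linarith) (by norm_num) ?_
    have e : (-(9 / 20) : ℝ) = -9 / 20 := by norm_num
    rw [e]
    exact hdom
  have hb : ∀ x : ℝ, 0 ≤ x → x + x ^ 2 ≤ 39 / 100 → x ≤ 3 / 10 := by
    intro x h0 h
    nlinarith
  exact reg_nonrec_of_potential (d := 5) (by norm_num) h0 (by linarith) hv N hdom'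
    (c1 := 0) (c2 := 3 / 2) (c3 := 1) (s := 1 / 10000) le_rfl
    (by norm_num) (by norm_num) (by norm_num)
    (fun x P => Psi 0 (3 / 2) 1 x P ≤ 39 / 100) (by unfold Psi; linarith) (by
      intro x P X Y hv hQ hV hX hY
      have hx : x ≤ 3 / 10 := by
        refine hb x hv.nonneg (le_trans ?_ hQ)
        unfold Psi
        have := sq_nonneg (max P 0)
        linarith
      have hstep := step_five cert5P cert5N h0 hθ hv hx hV.nonneg hX hY
      refine ⟨?_, hstep⟩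
      have := sq_nonneg x
      linarith)

/-- **Regular trees**: nonreconstruction for `q = 3`, `λ ≤ 0`, `d λ² ≤ 1`. -/
theorem nonrec_reg {d : ℕ} {lam : ℝ} (h0 : -1 / 2 ≤ lam) (h1 : lam ≤ 0)
    (h : (d : ℝ) * lam ^ 2 ≤ 1) : Nonreconstruction (regA 3 d lam) := by
  have hneg : 0 ≤ -lam := by linarith
  rcases Nat.lt_or_ge 4 d with hd | hd
  · have hd5 : 5 ≤ d := hd
    have hdR : (5 : ℝ) ≤ d := by exact_mod_cast hd5
    have hdpos : (0 : ℝ) < d := by linarith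
    set θ : ℝ := 2 / Real.sqrt d with hθdef
    have hs : Real.sqrt d ^ 2 = d := Real.sq_sqrt hdpos.le
    have hspos : 0 < Real.sqrt d := Real.sqrt_pos.2 hdpos
    have hθ0 : 0 ≤ θ := by positivity
    have hθ : (d : ℝ) * θ ^ 2 = 4 := by
      rw [hθdef, div_pow, hs]
      field_simp
      norm_num
    have hle : -lam ≤ 1 / 2 * θ := by
      have hsq : (-lam) ^ 2 ≤ (1 / 2 * θ) ^ 2 := by
        have e1 : (d : ℝ) * (1 / 2 * θ) ^ 2 = 1 := by
          have : (d : ℝ) * (1 / 2 * θ) ^ 2 = (d : ℝ) * θ ^ 2 / 4 := by ring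
          rw [this, hθ]; norm_num
        have e2 : (d : ℝ) * (-lam) ^ 2 ≤ (d : ℝ) * (1 / 2 * θ) ^ 2 := by
          rw [e1, neg_sq]; exact h
        exact le_of_mul_le_mul_left e2 hdpos
      exact (abs_le_of_sq_le_sq' hsq (by positivity)).2
    have hθ1 : θ ≤ 1 := by nlinarith
    have key : Nonreconstruction (regA 3 d (-(1 / 2 * θ))) := by
      rcases Nat.lt_or_ge 5 d with h6 | h6
      · exact nonrec_reg6 h6 hθ0 hθ
      · have e5 : d = 5 := le_antisymm h6 hd5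
        subst e5
        exact nonrec_reg5 hθ0 hθ
    have := nonrec_mono_nu (d := d) hneg hle (by linarith) key
    rw [neg_neg] at this
    exact this
  · have k4 : Nonreconstruction (regA 3 4 lam) := by
      have e : (-(1 / 2) : ℝ) = -1 / 2 := by norm_num
      have := nonrec_mono_nu (d := 4) (ν' := -lam) (ν := 1 / 2) hneg (by linarith) le_rfl
        (by rw [e]; exact nonrec_reg4)
      rw [neg_neg] at this
      exact this
    exact nonrec_mono_d hd h0 (by linarith) k4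

/-! ### Poisson trees -/

/-- iterates of the two-parameter recursion, Poisson trees -/
noncomputable def stG (d θ : ℝ) : ℕ → ℝ × ℝ
  | 0 => (1, 1)
  | n + 1 => (∑' k, poi d k * (opL (msg (1 / 2) θ (stG d θ n).1 (stG d θ n).2))^[k] fA one3,
      ∑' k, poi d k * (opL (msg (1 / 2) θ (stG d θ n).1 (stG d θ n).2))^[k] fP one3)

theorem stG_valid {d θ : ℝ} (hd : 0 < d) (h0 : 0 ≤ θ) (h1 : θ ≤ 1) :
    ∀ n, Valid (stG d θ n).1 (stG d θ n).2
  | 0 => valid_one
  | n + 1 => GW.valid_tsum hd fun k => valid_iter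
      (msg_ok (by norm_num) le_rfl h0 h1 (stG_valid hd h0 h1 n)) (msg_mass _ _ _ _) k

/-- **Poisson trees**: nonreconstruction for `q = 3`, `λ ≤ 0`, `d λ² ≤ 1`. -/
theorem nonrec_gw {d lam : ℝ} (hd : 0 < d) (h0 : -1 / 2 ≤ lam) (h1 : lam ≤ 0)
    (h : d * lam ^ 2 ≤ 1) : Nonreconstruction (gwA 3 d lam) := by
  set θ : ℝ := -2 * lam with hθ
  have hθ0 : 0 ≤ θ := by rw [hθ]; linarith
  have hθ1 : θ ≤ 1 := by rw [hθ]; linarith
  have hr : d * θ ^ 2 ≤ 4 := by
    have : d * θ ^ 2 = 4 * (d * lam ^ 2) := by rw [hθ]; ring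
    linarith
  have elam : -(1 / 2 * θ) = lam := by rw [hθ]; ring
  have hval := stG_valid hd hθ0 hθ1
  have hA := fun n => gwA_le hd hθ0 hθ1 (hval n)
  have hP := fun n => gwP_le hd hθ0 hθ1 (hval n)
  have hlim : Filter.Tendsto (fun n => (stG d θ n).1) Filter.atTop (nhds 0) := by
    rcases hθ0.eq_or_lt with hz | hpos
    · have hz' : ∀ n, (stG d θ (n + 1)).1 = 0 := by
        intro n
        have h2 := hA n
        rw [← hz] at h2
        have e1 : d * (0 : ℝ) ^ 2 * ((stG d 0 n).1 + 2 * 0 * (stG d 0 n).2) / 12 = 0 := by ring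
        have e2 : d * (0 : ℝ) ^ 2 * ((stG d 0 n).1 - 0 * (stG d 0 n).2) / 6 = 0 := by ring
        rw [e1, e2, Upoly_zero uA_ok] at h2
        have h3 := (hval (n + 1)).nonneg
        rw [← hz] at h3 ⊢
        exact le_antisymm h2 h3
      refine (Filter.tendsto_add_atTop_iff_nat 1).1 ?_
      simp only [hz']
      exact tendsto_const_nhds
    · refine tendsto_zero_of_potential (V := fun n =>
        Psi 1 (1 / 8) 1 (stG d θ n).1 (stG d θ n).2) (s := 1 / 1000 * (d * θ ^ 2 / 4) ^ 2)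
        (by positivity)
        (fun n => Psi_nonneg (by norm_num) (by norm_num) (by norm_num) (hval n).nonneg)
        (fun n => ?_)
      exact step_pois certPois hd hθ0 hθ1 hr (hval n) (hval (n + 1)).nonneg (hA n) (hP n)
  have key := gw_nonrec_of_seq (ν0 := 1 / 2) hd (by norm_num) le_rfl hθ0 hθ1
    (fun n => (stG d θ n).1) (fun n => (stG d θ n).2) rfl rfl (fun _ => rfl) (fun _ => rfl) hlim
  rw [elam] at key
  exact key

end Vale.Agent.P154.LN
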