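import Vale.Agent.Lib.P154.LN.Pot

/-!
# One step of the recursion decreases the potential (given the certificate inequalities)
-/

open scoped BigOperators

namespace Vale.Agent.P154.LN

/-- admissible parameters of the three-atom law -/
def Adm (x P : ℝ) : Prop := 0 ≤ x + 2 * P ∧ P ≤ x ∧ 3 * x - 2 * P ≤ 1

theorem Adm.x_nonneg {x P : ℝ} (h : Adm x P) : 0 ≤ x := by
  obtain ⟨h1, h2, h3⟩ := h
  linarith

theorem Adm.x_le_one {x P : ℝ} (h : Adm x P) : x ≤ 1 := by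
  obtain ⟨h1, h2, h3⟩ := h
  linarith

theorem Psi_neg {c1 c2 c3 x P : ℝ} (h : P ≤ 0) : Psi c1 c2 c3 x P = Psi c1 c2 c3 x 0 := by
  unfold Psi
  rw [max_eq_right h, max_self]

theorem PsiU_ge {c1 c2 c3 t A B X Y : ℝ} (h1 : 0 ≤ c1) (h2 : 0 ≤ c2) (h3 : 0 ≤ c3) (hX0 : 0 ≤ X)
    (hX : X ≤ Upoly uA t A B) (hY : Y ≤ Upoly uP t A B) :
    Psi c1 c2 c3 X Y ≤ PsiU c1 c2 c3 t A B :=
  Psi_mono h1 h2 h3 hX0 hX hY

/-- `d`-ary trees with `d ≥ 6` at `d λ² = 1`, i.e. `d θ² = 4` -/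
theorem step_reg {τ t0 t1 : ℝ} (hP : CertRegP τ t0 t1) (hN : CertRegN) {d : ℕ} (hd : 6 ≤ d)
    {θ x P X Y : ℝ} (hτ0 : 0 < τ) (hθτ : θ ≤ τ) (ht0' : t0 ≤ 1 / (d : ℝ)) (ht1' : 1 / (d : ℝ) ≤ t1)
    (hθ0 : 0 ≤ θ) (hθ : (d : ℝ) * θ ^ 2 = 4) (hv : Adm x P) (hX0 : 0 ≤ X)
    (hX : X ≤ Upoly uA (1 / (d : ℝ)) ((d : ℝ) * θ ^ 2 * (x + 2 * θ * P) / 12)
      ((d : ℝ) * θ ^ 2 * (x - θ * P) / 6))
    (hY : Y ≤ Upoly uP (1 / (d : ℝ)) ((d : ℝ) * θ ^ 2 * (x + 2 * θ * P) / 12)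
      ((d : ℝ) * θ ^ 2 * (x - θ * P) / 6)) :
    Psi (3 / 4) 0 (1 / 2) X Y ≤ Psi (3 / 4) 0 (1 / 2) x P - 1 / 1000 * x ^ 2 := by
  have hx0 := hv.x_nonneg
  have hx1 := hv.x_le_one
  obtain ⟨v1, v2, v3⟩ := hv
  have hd' : (6 : ℝ) ≤ d := by exact_mod_cast hd
  have hdpos : (0 : ℝ) < d := by linarith
  set t : ℝ := 1 / (d : ℝ) with ht
  have htnn : 0 ≤ t := by positivity
  have ht6 : t ≤ 1 / 6 := by
    rw [ht]
    exact one_div_le_one_div_of_le (by norm_num) hd'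
  have eA : (d : ℝ) * θ ^ 2 * (x + 2 * θ * P) / 12 = (x + 2 * (θ * P)) / 3 := by rw [hθ]; ring
  have eB : (d : ℝ) * θ ^ 2 * (x - θ * P) / 6 = 2 / 3 * (x - θ * P) := by rw [hθ]; ring
  rw [eA, eB] at hX hY
  have key := PsiU_ge (c1 := 3 / 4) (c2 := 0) (c3 := 1 / 2) (by norm_num) (by norm_num)
    (by norm_num) hX0 hX hY
  refine key.trans ?_
  rcases le_total 0 P with hp | hp
  · have e : τ * (θ * P / τ) = θ * P := by field_simp
    have hq0 : 0 ≤ θ * P / τ := by positivity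
    have hqP : θ * P / τ ≤ P := by
      rw [div_le_iff₀ hτ0, mul_comm P τ]
      exact mul_le_mul_of_nonneg_right hθτ hp
    have hc := hP t x (θ * P / τ) ht0' ht1' hx1 hq0 (hqP.trans v2)
    rw [e] at hc
    refine hc.trans ?_
    have hm : max (θ * P / τ) ((3 * x - 1) / 2) ≤ P := max_le hqP (by linarith)
    have := Psi_mono (c1 := 3 / 4) (c2 := 0) (c3 := 1 / 2) (by norm_num) (by norm_num)
      (by norm_num) hx0 (le_refl x) hm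
    linarith
  · have hθ1 : θ ≤ 1 := by nlinarith
    have hq : θ * P ≤ 0 := mul_nonpos_of_nonneg_of_nonpos hθ0 hp
    have hqP : P ≤ θ * P := by nlinarith
    have hc := hN t x (θ * P) htnn ht6 hq (by linarith) (by linarith)
    rw [Psi_neg hp]
    exact hc

/-- `d`-ary trees with `d ≥ 6` at `d λ² = 1`, i.e. `d θ² = 4` -/
theorem step_reg6 (hP1 : CertRegP (5 / 6) (1 / 12) (1 / 6)) (hP2 : CertRegP (3 / 5) 0 (1 / 12))
    (hN : CertRegN) {d : ℕ} (hd : 6 ≤ d) {θ x P X Y : ℝ}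
    (hθ0 : 0 ≤ θ) (hθ : (d : ℝ) * θ ^ 2 = 4) (hv : Adm x P) (hX0 : 0 ≤ X)
    (hX : X ≤ Upoly uA (1 / (d : ℝ)) ((d : ℝ) * θ ^ 2 * (x + 2 * θ * P) / 12)
      ((d : ℝ) * θ ^ 2 * (x - θ * P) / 6))
    (hY : Y ≤ Upoly uP (1 / (d : ℝ)) ((d : ℝ) * θ ^ 2 * (x + 2 * θ * P) / 12)
      ((d : ℝ) * θ ^ 2 * (x - θ * P) / 6)) :
    Psi (3 / 4) 0 (1 / 2) X Y ≤ Psi (3 / 4) 0 (1 / 2) x P - 1 / 1000 * x ^ 2 := by
  have hd' : (6 : ℝ) ≤ d := by exact_mod_cast hd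
  have hdpos : (0 : ℝ) < d := by linarith
  have htnn : (0 : ℝ) ≤ 1 / (d : ℝ) := by positivity
  have hθt : θ ^ 2 = 4 * (1 / (d : ℝ)) := by
    field_simp
    linarith
  rcases le_total (1 / (d : ℝ)) (1 / 12) with h12 | h12
  · have hθτ : θ ≤ 3 / 5 := by
      have : θ ^ 2 ≤ (3 / 5 : ℝ) ^ 2 := by rw [hθt]; linarith
      exact (abs_le_of_sq_le_sq' this (by norm_num)).2
    exact step_reg hP2 hN hd (by norm_num) hθτ htnn h12 hθ0 hθ hv hX0 hX hY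
  · have ht6 : 1 / (d : ℝ) ≤ 1 / 6 := one_div_le_one_div_of_le (by norm_num) hd'
    have hθτ : θ ≤ 5 / 6 := by
      have : θ ^ 2 ≤ (5 / 6 : ℝ) ^ 2 := by rw [hθt]; linarith
      exact (abs_le_of_sq_le_sq' this (by norm_num)).2
    exact step_reg hP1 hN hd (by norm_num) hθτ h12 ht6 hθ0 hθ hv hX0 hX hY

/-- local step for `d = 4`, `λ = -1/2` -/
theorem step_four (h4 : Cert4) {x P X Y : ℝ} (hv : Adm x P) (hs : x ≤ 1 / 4) (hX0 : 0 ≤ X)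
    (hX : X ≤ Upoly uA (1 / ((4 : ℕ) : ℝ)) (((4 : ℕ) : ℝ) * 1 ^ 2 * (x + 2 * 1 * P) / 12)
      (((4 : ℕ) : ℝ) * 1 ^ 2 * (x - 1 * P) / 6))
    (hY : Y ≤ Upoly uP (1 / ((4 : ℕ) : ℝ)) (((4 : ℕ) : ℝ) * 1 ^ 2 * (x + 2 * 1 * P) / 12)
      (((4 : ℕ) : ℝ) * 1 ^ 2 * (x - 1 * P) / 6)) :
    Psi 0 (3 / 2) 1 X Y ≤ Psi 0 (3 / 2) 1 x P - 1 / 10000 * x ^ 2 := by
  obtain ⟨v1, v2, v3⟩ := hv
  have eA : ((4 : ℕ) : ℝ) * 1 ^ 2 * (x + 2 * 1 * P) / 12 = (x + 2 * P) / 3 := by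
    push_cast; ring
  have eB : ((4 : ℕ) : ℝ) * 1 ^ 2 * (x - 1 * P) / 6 = 2 / 3 * (x - P) := by push_cast; ring
  have et : (1 / ((4 : ℕ) : ℝ)) = 1 / 4 := by norm_num
  rw [eA, eB, et] at hX hY
  have key := PsiU_ge (c1 := 0) (c2 := 3 / 2) (c3 := 1) (by norm_num) (by norm_num)
    (by norm_num) hX0 hX hY
  exact key.trans (h4 x P hs (by linarith) v2)

/-- local step for `d = 5`, `5 λ² = 1` -/
theorem step_five (hP : Cert5P) (hN : Cert5N) {θ x P X Y : ℝ} (hθ0 : 0 ≤ θ)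
    (hθ : ((5 : ℕ) : ℝ) * θ ^ 2 = 4) (hv : Adm x P) (hs : x ≤ 3 / 10) (hX0 : 0 ≤ X)
    (hX : X ≤ Upoly uA (1 / ((5 : ℕ) : ℝ)) (((5 : ℕ) : ℝ) * θ ^ 2 * (x + 2 * θ * P) / 12)
      (((5 : ℕ) : ℝ) * θ ^ 2 * (x - θ * P) / 6))
    (hY : Y ≤ Upoly uP (1 / ((5 : ℕ) : ℝ)) (((5 : ℕ) : ℝ) * θ ^ 2 * (x + 2 * θ * P) / 12)
      (((5 : ℕ) : ℝ) * θ ^ 2 * (x - θ * P) / 6)) :
    Psi 0 (3 / 2) 1 X Y ≤ Psi 0 (3 / 2) 1 x P - 1 / 10000 * x ^ 2 := by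
  have hx0 := hv.x_nonneg
  obtain ⟨v1, v2, v3⟩ := hv
  have eA : ((5 : ℕ) : ℝ) * θ ^ 2 * (x + 2 * θ * P) / 12 = (x + 2 * (θ * P)) / 3 := by
    rw [hθ]; ring
  have eB : ((5 : ℕ) : ℝ) * θ ^ 2 * (x - θ * P) / 6 = 2 / 3 * (x - θ * P) := by rw [hθ]; ring
  have et : (1 / ((5 : ℕ) : ℝ)) = 1 / 5 := by norm_num
  rw [eA, eB, et] at hX hY
  have hθ9 : θ ≤ 9 / 10 := by
    push_cast at hθ
    nlinarith
  have key := PsiU_ge (c1 := 0) (c2 := 3 / 2) (c3 := 1) (by norm_num) (by norm_num)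
    (by norm_num) hX0 hX hY
  refine key.trans ?_
  rcases le_total 0 P with hp | hp
  · have e : (9 / 10 : ℝ) * (10 / 9 * (θ * P)) = θ * P := by ring
    have hq0 : 0 ≤ 10 / 9 * (θ * P) := by positivity
    have hqP : 10 / 9 * (θ * P) ≤ P := by nlinarith
    have hc := hP x (10 / 9 * (θ * P)) hs hq0 (hqP.trans v2)
    rw [e] at hc
    refine hc.trans ?_
    have := Psi_mono (c1 := 0) (c2 := 3 / 2) (c3 := 1) (by norm_num) (by norm_num)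
      (by norm_num) hx0 (le_refl x) hqP
    linarith
  · have hq : θ * P ≤ 0 := mul_nonpos_of_nonneg_of_nonpos hθ0 hp
    have hqP : P ≤ θ * P := by nlinarith
    have hc := hN x (θ * P) hs hq (by linarith)
    rw [Psi_neg hp]
    exact hc

/-- Poisson trees: `r = d λ² = d θ² / 4 ≤ 1` -/
theorem step_pois (hc : CertPois) {d θ x P X Y : ℝ} (hd : 0 < d) (hθ0 : 0 ≤ θ) (hθ1 : θ ≤ 1)
    (hr : d * θ ^ 2 ≤ 4) (hv : Adm x P) (hX0 : 0 ≤ X)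
    (hX : X ≤ Upoly uA 0 (d * θ ^ 2 * (x + 2 * θ * P) / 12) (d * θ ^ 2 * (x - θ * P) / 6))
    (hY : Y ≤ Upoly uP 0 (d * θ ^ 2 * (x + 2 * θ * P) / 12) (d * θ ^ 2 * (x - θ * P) / 6)) :
    Psi 1 (1 / 8) 1 X Y ≤ Psi 1 (1 / 8) 1 x P - 1 / 1000 * (d * θ ^ 2 / 4) ^ 2 * x ^ 2 := by
  have hx0 := hv.x_nonneg
  have hx1 := hv.x_le_one
  obtain ⟨v1, v2, v3⟩ := hv
  set r : ℝ := d * θ ^ 2 / 4 with hrr
  have hr0 : 0 ≤ r := by positivity
  have hr1 : r ≤ 1 := by rw [hrr]; linarith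
  have eA : d * θ ^ 2 * (x + 2 * θ * P) / 12 = (r * x + 2 * (r * θ * P)) / 3 := by
    rw [hrr]; ring
  have eB : d * θ ^ 2 * (x - θ * P) / 6 = 2 / 3 * (r * x - r * θ * P) := by rw [hrr]; ring
  rw [eA, eB] at hX hY
  have key := PsiU_ge (c1 := 1) (c2 := 1 / 8) (c3 := 1) (by norm_num) (by norm_num)
    (by norm_num) hX0 hX hY
  refine key.trans ?_
  have hrx : r * x ≤ x := by nlinarith
  have hrx0 : 0 ≤ r * x := mul_nonneg hr0 hx0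
  have hrθ0 : 0 ≤ r * θ := mul_nonneg hr0 hθ0
  have hrθ : r * θ ≤ r := by nlinarith
  have hrθ1 : r * θ ≤ 1 := hrθ.trans hr1
  have c1 : -(r * x) / 2 ≤ r * θ * P := by
    rcases le_total 0 P with hp | hp
    · have := mul_nonneg hrθ0 hp
      linarith
    · have h1 : r * P ≤ r * θ * P := by nlinarith
      have h2 : r * (-x / 2) ≤ r * P := mul_le_mul_of_nonneg_left (by linarith) hr0
      linarith
  have c2 : r * θ * P ≤ r * x := by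
    rcases le_total 0 P with hp | hp
    · have h1 : r * θ * P ≤ r * P := by nlinarith
      have h2 : r * P ≤ r * x := mul_le_mul_of_nonneg_left v2 hr0
      linarith
    · have := mul_nonneg hrθ0 (neg_nonneg.2 hp)
      linarith
  have c3 : r * θ * P ≤ 0 → 3 * (r * x) - 2 * (r * θ * P) ≤ 1 := by
    intro h
    rcases lt_or_ge 0 P with hp | hp
    · have h0 : r * θ = 0 := by
        by_contra hne
        have : 0 < r * θ := lt_of_le_of_ne hrθ0 (Ne.symm hne)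
        have := mul_pos this hp
        linarith
      have hr00 : r = 0 := by
        rcases mul_eq_zero.1 h0 with h' | h'
        · exact h'
        · rw [hrr, h']; ring
      rw [hr00]
      norm_num
    · have h1 : r * P ≤ r * θ * P := by nlinarith
      have h2 : r * (3 * x - 2 * P) ≤ r * 1 := mul_le_mul_of_nonneg_left v3 hr0
      nlinarith
  have hcc := hc (r * x) (r * θ * P) (hrx.trans hx1) c1 c2 c3
  refine hcc.trans ?_
  have hm1 : max (max (r * θ * P) ((3 * (r * x) - 1) / 2)) 0 ≤ max P 0 := by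
    apply max_le
    · apply max_le
      · rcases le_total 0 P with hp | hp
        · have : r * θ * P ≤ P := by nlinarith
          exact this.trans (le_max_left _ _)
        · have := mul_nonneg hrθ0 (neg_nonneg.2 hp)
          have h0 : r * θ * P ≤ 0 := by linarith
          exact h0.trans (le_max_right _ _)
      · have : (3 * (r * x) - 1) / 2 ≤ P := by linarith
        exact this.trans (le_max_left _ _)
    · exact le_max_right _ _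
  have hm0 : 0 ≤ max (max (r * θ * P) ((3 * (r * x) - 1) / 2)) 0 := le_max_right _ _
  have hmono : Psi 1 (1 / 8) 1 (r * x) (max (r * θ * P) ((3 * (r * x) - 1) / 2))
      ≤ Psi 1 (1 / 8) 1 x P := by
    unfold Psi
    have e1 : (r * x) ^ 2 ≤ x ^ 2 := pow_le_pow_left₀ hrx0 hrx 2
    have e2 := pow_le_pow_left₀ hm0 hm1 2
    have e3 := mul_le_mul hrx hm1 hm0 hx0
    linarith
  have : (r * x) ^ 2 = r ^ 2 * x ^ 2 := by ring
  rw [this]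
  linarith

end Vale.Agent.P154.LN
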