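import Vale.Agent.Lib.P154.KIdent
import Vale.Agent.Lib.P154.LN.Steps

/-!
# Polynomial expressions for the certificate inequalities
-/

open scoped BigOperators

namespace Vale.Agent.P154.LN

open Vale.Agent.Lib.P154.BoxPos (Ex HTree tchk tchk_sound)

/-- integer powers -/
def ipow (D : ℤ) : ℕ → ℤ
  | 0 => 1
  | k + 1 => ipow D k * D

theorem ipow_eq (D : ℤ) : ∀ k, ((ipow D k : ℤ) : ℝ) = (D : ℝ) ^ k
  | 0 => by simp [ipow]
  | k + 1 => by rw [ipow, Int.cast_mul, ipow_eq D k, pow_succ]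

/-- the expression `256 * D ^ 6 * L * Upoly u t A B`, when `a = D A`, `b = D B`, `w m = L ck t m` -/
def UEx (D : ℤ) (a b : Ex) (w : ℕ → Ex) : List (ℕ × ℕ × ℤ) → Ex
  | [] => .c 0
  | e :: l => .add (.mul (.mul (.c (e.2.2 * ipow D (6 - (e.1 + e.2.1)))) (w (e.1 + e.2.1)))
      (.mul (.pow a e.1) (.pow b e.2.1))) (UEx D a b w l)

theorem UEx_den {x : ℕ → ℝ} {D : ℤ} {a b : Ex} {w : ℕ → Ex} {t A B L : ℝ}
    (ha : a.den x = D * A) (hb : b.den x = D * B)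
    (hw : ∀ m, 1 ≤ m → m ≤ 6 → (w m).den x = L * ck t m) :
    ∀ u : List (ℕ × ℕ × ℤ), (∀ e ∈ u, 1 ≤ e.1 + e.2.1 ∧ e.1 + e.2.1 ≤ 6) →
      (UEx D a b w u).den x = 256 * (D : ℝ) ^ 6 * L * Upoly u t A B
  | [], _ => by simp [UEx, Ex.den, Upoly]
  | e :: l, hu => by
    have he := hu e (by simp)
    have ih := UEx_den ha hb hw l (fun e' h' => hu e' (by simp [h']))
    have hD : (D : ℝ) ^ 6 = (D : ℝ) ^ (6 - (e.1 + e.2.1)) * ((D : ℝ) ^ e.1 * (D : ℝ) ^ e.2.1) := by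
      rw [← pow_add, ← pow_add]
      congr 1
      omega
    simp only [UEx, Ex.den, ih, hw _ he.1 he.2, ha, hb, Int.cast_mul, ipow_eq, mul_pow]
    simp only [Upoly, List.map_cons, List.sum_cons]
    rw [hD]
    ring

theorem uA_ok : ∀ e ∈ uA, 1 ≤ e.1 + e.2.1 ∧ e.1 + e.2.1 ≤ 6 := by decide
theorem uP_ok : ∀ e ∈ uP, 1 ≤ e.1 + e.2.1 ∧ e.1 + e.2.1 ≤ 6 := by decide

/-- `k2 R - (m K X + c3 X^2 + c1 X P + c2 P^2)` -/
def GEx (k2 mK c1 c2 c3 : ℤ) (R NX NP : Ex) : Ex :=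
  .sub (.mul (.c k2) R) (.add (.mul NX (.add (.c mK) (.add (.mul (.c c3) NX) (.mul (.c c1) NP))))
    (.mul (.c c2) (.mul NP NP)))

/-- `k2 R - (m K X + c3 X^2)` -/
def GEx1 (k2 mK c3 : ℤ) (R NX : Ex) : Ex :=
  .sub (.mul (.c k2) R) (.mul NX (.add (.c mK) (.mul (.c c3) NX)))

theorem GEx_sound {x : ℕ → ℝ} {k2 mK c1 c2 c3 : ℤ} {R NX NP : Ex} {K m X P rhs : ℝ}
    (hK : 0 < K) (hm : 0 < m) (h : 0 ≤ (GEx k2 mK c1 c2 c3 R NX NP).den x)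
    (hX : NX.den x = K * X) (hP : NP.den x = K * P) (hmK : (mK : ℝ) = m * K)
    (hR : (k2 : ℝ) * R.den x = m * K ^ 2 * rhs) :
    X + (c3 / m) * X ^ 2 + (c1 / m) * X * P + (c2 / m) * P ^ 2 ≤ rhs := by
  simp only [GEx, Ex.den, hX, hP, hmK, hR] at h
  have e : m * K ^ 2 * rhs - (K * X * (m * K + (c3 * (K * X) + c1 * (K * P)))
      + c2 * (K * P * (K * P)))
      = (m * K ^ 2) * (rhs - (X + (c3 / m) * X ^ 2 + (c1 / m) * X * P + (c2 / m) * P ^ 2)) := by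
    field_simp
    ring
  rw [e] at h
  have := nonneg_of_mul_nonneg_right h (by positivity)
  linarith

theorem GEx1_sound {x : ℕ → ℝ} {k2 mK c3 : ℤ} {R NX : Ex} {K m X rhs : ℝ}
    (hK : 0 < K) (hm : 0 < m) (h : 0 ≤ (GEx1 k2 mK c3 R NX).den x)
    (hX : NX.den x = K * X) (hmK : (mK : ℝ) = m * K)
    (hR : (k2 : ℝ) * R.den x = m * K ^ 2 * rhs) :
    X + (c3 / m) * X ^ 2 ≤ rhs := by
  simp only [GEx1, Ex.den, hX, hmK, hR] at h
  have e : m * K ^ 2 * rhs - K * X * (m * K + c3 * (K * X))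
      = (m * K ^ 2) * (rhs - (X + (c3 / m) * X ^ 2)) := by
    field_simp
  rw [e] at h
  have := nonneg_of_mul_nonneg_right h (by positivity)
  linarith

/-- soundness of the two checks -/
theorem gen_sound {n : ℕ} {T0 T1 : HTree} {a b R : Ex} {w : ℕ → Ex}
    {D k2 mK c1 c2 c3 : ℤ} {t A B L m rhs g1 g2 g3 : ℝ} (x : ℕ → ℝ)
    (h0 : tchk n T0 (GEx k2 mK c1 c2 c3 R (UEx D a b w uA) (UEx D a b w uP)) = true)
    (h1 : tchk n T1 (GEx1 k2 mK c3 R (UEx D a b w uA)) = true)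
    (hx0 : ∀ i, 0 ≤ x i) (hx1 : ∀ i, x i ≤ 1) (hD : 0 < D) (hL : 0 < L) (hm : 0 < m)
    (ha : a.den x = D * A) (hb : b.den x = D * B)
    (hw : ∀ k, 1 ≤ k → k ≤ 6 → (w k).den x = L * ck t k)
    (hmK : (mK : ℝ) = m * (256 * (D : ℝ) ^ 6 * L))
    (hR : (k2 : ℝ) * R.den x = m * (256 * (D : ℝ) ^ 6 * L) ^ 2 * rhs)
    (e1 : (c1 : ℝ) / m = g1) (e2 : (c2 : ℝ) / m = g2) (e3 : (c3 : ℝ) / m = g3) :
    PsiU g1 g2 g3 t A B ≤ rhs := by
  have hA := UEx_den ha hb hw uA uA_ok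
  have hP := UEx_den ha hb hw uP uP_ok
  have hD' : (0 : ℝ) < (D : ℝ) := by exact_mod_cast hD
  have hK : 0 < 256 * (D : ℝ) ^ 6 * L := by positivity
  have g0 := GEx_sound hK hm (tchk_sound n _ _ h0 x hx0 hx1) hA hP hmK hR
  have g1' := GEx1_sound hK hm (tchk_sound n _ _ h1 x hx0 hx1) hA hmK hR
  rw [e1, e2, e3] at g0
  rw [e3] at g1'
  exact Psi_le_of g0 g1'

end Vale.Agent.P154.LN
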