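import Vale.Agent.Lib.P154.LN.CertP

/-!
# Local certificate inequalities for `d = 4` and `d = 5`
-/

namespace Vale.Agent.P154.LN

open Vale.Agent.Lib.P154.BoxPos (Ex tchk)

/-- `4 ^ 5 ck (1/4) m` -/
def w4 (m : ℕ) : Ex := .c (match m with
  | 0 => 1024
  | 1 => 1024
  | 2 => 768
  | 3 => 384
  | 4 => 96
  | _ => 0)

/-- `5 ^ 5 ck (1/5) m` -/
def w5 (m : ℕ) : Ex := .c (match m with
  | 0 => 3125
  | 1 => 3125
  | 2 => 2500
  | 3 => 1500
  | 4 => 600
  | 5 => 120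
  | _ => 0)

theorem w4_ok (x : ℕ → ℝ) : ∀ k, 1 ≤ k → k ≤ 6 → (w4 k).den x = 1024 * ck (1 / 4) k := by
  intro k h1 h2
  interval_cases k <;> simp [w4, Ex.den, ck, Finset.prod_range_succ] <;> norm_num

theorem w5_ok (x : ℕ → ℝ) : ∀ k, 1 ≤ k → k ≤ 6 → (w5 k).den x = 3125 * ck (1 / 5) k := by
  intro k h1 h2
  interval_cases k <;> simp [w5, Ex.den, ck, Finset.prod_range_succ] <;> norm_num

def f4a : Ex := .mul (.v 0) (.add (.c 1) (.mul (.c 2) (.v 1)))
def f4b : Ex := .mul (.c 2) (.mul (.v 0) (.sub (.c 1) (.v 1)))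
def f4R : Ex := .add (.mul (.c 40000) (.v 0)) (.add (.mul (.c 9999) (.mul (.v 0) (.v 0)))
  (.mul (.c 15000) (.mul (.mul (.v 0) (.v 1)) (.mul (.v 0) (.v 1)))))
def f4na : Ex := .mul (.v 0) (.sub (.c 1) (.v 1))
def f4nb : Ex := .mul (.v 0) (.add (.c 2) (.v 1))
def f4nR : Ex := .add (.mul (.c 40000) (.v 0)) (.mul (.c 9999) (.mul (.v 0) (.v 0)))

theorem f4_chk : tchk 2 (.node 1 (.node 1 (.leaf [1808, 140] [13, 13]) (.leaf [1821, 141] [13, 13])) (.leaf [1665, 129] [13, 13]))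
    (GEx (4096 * ipow 12 12 * 1048576) (2560000 * ipow 12 6 * 1024) 0 15000 10000 f4R
      (UEx 12 f4a f4b w4 uA) (UEx 12 f4a f4b w4 uP)) = true := by
  decide +kernel

theorem f4_chk1 : tchk 2 (.leaf [1509, 117] [13, 13])
    (GEx1 (4096 * ipow 12 12 * 1048576) (2560000 * ipow 12 6 * 1024) 10000 f4R
      (UEx 12 f4a f4b w4 uA)) = true := by
  decide +kernel

theorem f4n_chk : tchk 2 (.leaf [1497, 116] [13, 13])
    (GEx (4096 * ipow 12 12 * 1048576) (2560000 * ipow 12 6 * 1024) 0 15000 10000 f4nR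
      (UEx 12 f4na f4nb w4 uA) (UEx 12 f4na f4nb w4 uP)) = true := by
  decide +kernel

theorem f4n_chk1 : tchk 2 (.leaf [1497, 116] [13, 13])
    (GEx1 (4096 * ipow 12 12 * 1048576) (2560000 * ipow 12 6 * 1024) 10000 f4nR
      (UEx 12 f4na f4nb w4 uA)) = true := by
  decide +kernel

/-- local certificate inequality for `d = 4` -/
theorem cert4 : Cert4 := by
  intro x p hx hp1 hp2
  have hx0 : 0 ≤ x := by linarith
  rcases le_total 0 p with hp | hp
  · obtain ⟨s, hs, hs1, ep⟩ : ∃ s : ℝ, 0 ≤ s ∧ s ≤ 1 ∧ p = x * s := by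
      rcases hx0.eq_or_lt with h | h
      · exact ⟨0, le_rfl, zero_le_one, by linarith⟩
      · exact ⟨p / x, div_nonneg hp hx0, (div_le_one h).2 hp2, (mul_div_cancel₀ _ h.ne').symm⟩
    have hr : 0 ≤ 4 * x := by linarith
    have hr1 : 4 * x ≤ 1 := by linarith
    have x0 : pt2 (4 * x) s 0 = 4 * x := pt2_zero _ _
    have x1 : pt2 (4 * x) s 1 = s := pt2_one _ _
    have key := gen_sound (t := 1 / 4) (A := (x + 2 * p) / 3) (B := 2 / 3 * (x - p)) (L := 1024)
      (m := 10000) (rhs := Psi 0 (3 / 2) 1 x p - 1 / 10000 * x ^ 2) (g1 := 0) (g2 := 3 / 2)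
      (g3 := 1) (pt2 (4 * x) s) f4_chk f4_chk1 (pt2_nonneg hr hs) (pt2_le hr1 hs1)
      (by norm_num) (by norm_num) (by norm_num)
      (by simp only [f4a, Ex.den, x0, x1, ep]; push_cast; ring)
      (by simp only [f4b, Ex.den, x0, x1, ep]; push_cast; ring)
      (w4_ok _)
      (by rw [Int.cast_mul, Int.cast_mul, ipow_eq]; push_cast; ring)
      (by
        simp only [f4R, Ex.den, x0, x1, Psi, max_eq_left hp]
        rw [Int.cast_mul, Int.cast_mul, ipow_eq, ep]; push_cast; ring)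
      (by norm_num) (by norm_num) (by norm_num)
    exact key
  · obtain ⟨s, hs, hs1, ep⟩ : ∃ s : ℝ, 0 ≤ s ∧ s ≤ 1 ∧ p = -(x * s) / 2 := by
      rcases hx0.eq_or_lt with h | h
      · exact ⟨0, le_rfl, zero_le_one, by linarith⟩
      · refine ⟨-2 * p / x, div_nonneg (by linarith) hx0, (div_le_one h).2 (by linarith), ?_⟩
        rw [mul_div_cancel₀ _ h.ne']; ring
    have hr : 0 ≤ 4 * x := by linarith
    have hr1 : 4 * x ≤ 1 := by linarith
    have x0 : pt2 (4 * x) s 0 = 4 * x := pt2_zero _ _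
    have x1 : pt2 (4 * x) s 1 = s := pt2_one _ _
    have key := gen_sound (t := 1 / 4) (A := (x + 2 * p) / 3) (B := 2 / 3 * (x - p)) (L := 1024)
      (m := 10000) (rhs := Psi 0 (3 / 2) 1 x p - 1 / 10000 * x ^ 2) (g1 := 0) (g2 := 3 / 2)
      (g3 := 1) (pt2 (4 * x) s) f4n_chk f4n_chk1 (pt2_nonneg hr hs) (pt2_le hr1 hs1)
      (by norm_num) (by norm_num) (by norm_num)
      (by simp only [f4na, Ex.den, x0, x1, ep]; push_cast; ring)
      (by simp only [f4nb, Ex.den, x0, x1, ep]; push_cast; ring)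
      (w4_ok _)
      (by rw [Int.cast_mul, Int.cast_mul, ipow_eq]; push_cast; ring)
      (by
        simp only [f4nR, Ex.den, x0, Psi, max_eq_right hp]
        rw [Int.cast_mul, Int.cast_mul, ipow_eq]; push_cast; ring)
      (by norm_num) (by norm_num) (by norm_num)
    exact key

def f5a : Ex := .mul (.v 0) (.add (.c 5) (.mul (.c 9) (.v 1)))
def f5b : Ex := .mul (.v 0) (.sub (.c 10) (.mul (.c 9) (.v 1)))
def f5R : Ex := .add (.mul (.c 300000) (.v 0)) (.add (.mul (.c 89991) (.mul (.v 0) (.v 0)))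
  (.mul (.c 135000) (.mul (.mul (.v 0) (.v 1)) (.mul (.v 0) (.v 1)))))
def f5nR : Ex := .add (.mul (.c 300000) (.v 0)) (.mul (.c 89991) (.mul (.v 0) (.v 0)))

theorem f5_chk : tchk 2 (.node 1 (.leaf [2029, 157] [13, 13]) (.leaf [2030, 157] [13, 13]))
    (GEx (65536 * ipow 50 10 * 25 * 9765625) (2560000 * ipow 50 6 * 3125) 0 15000 10000 f5R
      (UEx 50 f5a f5b w5 uA) (UEx 50 f5a f5b w5 uP)) = true := by
  decide +kernel

theorem f5_chk1 : tchk 2 (.leaf [1873, 145] [13, 13])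
    (GEx1 (65536 * ipow 50 10 * 25 * 9765625) (2560000 * ipow 50 6 * 3125) 10000 f5R
      (UEx 50 f5a f5b w5 uA)) = true := by
  decide +kernel

theorem f5n_chk : tchk 2 (.leaf [1509, 117] [13, 13])
    (GEx (65536 * ipow 10 10 * 9765625) (2560000 * ipow 10 6 * 3125) 0 15000 10000 f5nR
      (UEx 10 f4na f4nb w5 uA) (UEx 10 f4na f4nb w5 uP)) = true := by
  decide +kernel

theorem f5n_chk1 : tchk 2 (.leaf [1509, 117] [13, 13])
    (GEx1 (65536 * ipow 10 10 * 9765625) (2560000 * ipow 10 6 * 3125) 10000 f5nR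
      (UEx 10 f4na f4nb w5 uA)) = true := by
  decide +kernel

/-- local certificate inequality for `d = 5`, positive part -/
theorem cert5P : Cert5P := by
  intro x p hx hp hp2
  have hx0 : 0 ≤ x := by linarith
  obtain ⟨s, hs, hs1, ep⟩ : ∃ s : ℝ, 0 ≤ s ∧ s ≤ 1 ∧ p = x * s := by
    rcases hx0.eq_or_lt with h | h
    · exact ⟨0, le_rfl, zero_le_one, by linarith⟩
    · exact ⟨p / x, div_nonneg hp hx0, (div_le_one h).2 hp2, (mul_div_cancel₀ _ h.ne').symm⟩
  have hr : 0 ≤ 10 / 3 * x := by linarith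
  have hr1 : 10 / 3 * x ≤ 1 := by linarith
  have x0 : pt2 (10 / 3 * x) s 0 = 10 / 3 * x := pt2_zero _ _
  have x1 : pt2 (10 / 3 * x) s 1 = s := pt2_one _ _
  have key := gen_sound (t := 1 / 5) (A := (x + 2 * (9 / 10 * p)) / 3)
    (B := 2 / 3 * (x - 9 / 10 * p)) (L := 3125)
    (m := 10000) (rhs := Psi 0 (3 / 2) 1 x p - 1 / 10000 * x ^ 2) (g1 := 0) (g2 := 3 / 2)
    (g3 := 1) (pt2 (10 / 3 * x) s) f5_chk f5_chk1 (pt2_nonneg hr hs) (pt2_le hr1 hs1)
    (by norm_num) (by norm_num) (by norm_num)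
    (by simp only [f5a, Ex.den, x0, x1, ep]; push_cast; ring)
    (by simp only [f5b, Ex.den, x0, x1, ep]; push_cast; ring)
    (w5_ok _)
    (by rw [Int.cast_mul, Int.cast_mul, ipow_eq]; push_cast; ring)
    (by
      simp only [f5R, Ex.den, x0, x1, Psi, max_eq_left hp]
      rw [Int.cast_mul, Int.cast_mul, Int.cast_mul, ipow_eq, ep]; push_cast; ring)
    (by norm_num) (by norm_num) (by norm_num)
  exact key

/-- local certificate inequality for `d = 5`, negative part -/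
theorem cert5N : Cert5N := by
  intro x p hx hp hp1
  have hx0 : 0 ≤ x := by linarith
  obtain ⟨s, hs, hs1, ep⟩ : ∃ s : ℝ, 0 ≤ s ∧ s ≤ 1 ∧ p = -(x * s) / 2 := by
    rcases hx0.eq_or_lt with h | h
    · exact ⟨0, le_rfl, zero_le_one, by linarith⟩
    · refine ⟨-2 * p / x, div_nonneg (by linarith) hx0, (div_le_one h).2 (by linarith), ?_⟩
      rw [mul_div_cancel₀ _ h.ne']; ring
  have hr : 0 ≤ 10 / 3 * x := by linarith
  have hr1 : 10 / 3 * x ≤ 1 := by linarith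
  have x0 : pt2 (10 / 3 * x) s 0 = 10 / 3 * x := pt2_zero _ _
  have x1 : pt2 (10 / 3 * x) s 1 = s := pt2_one _ _
  have key := gen_sound (t := 1 / 5) (A := (x + 2 * p) / 3) (B := 2 / 3 * (x - p)) (L := 3125)
    (m := 10000) (rhs := Psi 0 (3 / 2) 1 x 0 - 1 / 10000 * x ^ 2) (g1 := 0) (g2 := 3 / 2)
    (g3 := 1) (pt2 (10 / 3 * x) s) f5n_chk f5n_chk1 (pt2_nonneg hr hs) (pt2_le hr1 hs1)
    (by norm_num) (by norm_num) (by norm_num)
    (by simp only [f4na, Ex.den, x0, x1, ep]; push_cast; ring)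
    (by simp only [f4nb, Ex.den, x0, x1, ep]; push_cast; ring)
    (w5_ok _)
    (by rw [Int.cast_mul, Int.cast_mul, ipow_eq]; push_cast; ring)
    (by
      simp only [f5nR, Ex.den, x0, Psi, max_self]
      rw [Int.cast_mul, Int.cast_mul, ipow_eq]; push_cast; ring)
    (by norm_num) (by norm_num) (by norm_num)
  exact key

end Vale.Agent.P154.LN
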