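import Vale.Agent.Lib.P154.LN.CertEx

/-!
# Certificate inequality for Poisson trees

Three regions: `p ≥ 0, 3 x - 2 p ≤ 1` (a), `0 ≤ p ≤ (3 x - 1) / 2` (b),
`- x / 2 ≤ p ≤ 0, 3 x - 2 p ≤ 1` (c).
-/

namespace Vale.Agent.P154.LN

open Vale.Agent.Lib.P154.BoxPos (Ex tchk)

/-! ### region (a): `x = r (3 - 2 s) / 3`, `p = r (1 - s)` -/

def paX3 : Ex := .mul (.v 0) (.sub (.c 3) (.mul (.c 2) (.v 1)))
def paP : Ex := .mul (.v 0) (.sub (.c 1) (.v 1))
def paR : Ex := .add (.mul (.c 3000) paX3) (.add (.mul paX3 (.add (.mul (.c 999) paX3)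
  (.mul (.c 3000) paP))) (.mul (.c 1125) (.mul paP paP)))
def paa : Ex := .mul (.v 0) (.sub (.c 9) (.mul (.c 8) (.v 1)))
def pab : Ex := .mul (.c 2) (.mul (.v 0) (.v 1))
def paA : Ex := UEx 9 paa pab (fun _ => .c 1) uA
def paPP : Ex := UEx 9 paa pab (fun _ => .c 1) uP
def paG : Ex := GEx (65536 * ipow 9 11) (256000 * ipow 9 6) 1000 125 1000 paR paA paPP
def paG1 : Ex := GEx1 (65536 * ipow 9 11) (256000 * ipow 9 6) 1000 paR paA

theorem pa_chk : tchk 2 (.node 0 (.leaf [1329, 103] [13, 13]) (.leaf [1460, 113] [13, 13]))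
    paG = true := by
  decide +kernel

theorem pa_chk1 : tchk 2 (.leaf [1225, 95] [13, 13]) paG1 = true := by
  decide +kernel

/-! ### region (b): `x = (1 + 2 r) / 3`, `p = r s` -/

def pbX3 : Ex := .add (.c 1) (.mul (.c 2) (.v 0))
def pbR : Ex := .add (.mul (.c 3000) pbX3) (.add (.mul pbX3 (.add (.mul (.c 999) pbX3)
  (.mul (.c 3000) (.v 0)))) (.mul (.c 1125) (.mul (.v 0) (.v 0))))
def pba : Ex := .add pbX3 (.mul (.c 6) (.mul (.v 0) (.v 1)))
def pbb : Ex := .mul (.c 2) (.sub pbX3 (.mul (.c 3) (.mul (.v 0) (.v 1))))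
def pbA : Ex := UEx 9 pba pbb (fun _ => .c 1) uA
def pbPP : Ex := UEx 9 pba pbb (fun _ => .c 1) uP
def pbG : Ex := GEx (65536 * ipow 9 11) (256000 * ipow 9 6) 1000 125 1000 pbR pbA pbPP
def pbG1 : Ex := GEx1 (65536 * ipow 9 11) (256000 * ipow 9 6) 1000 pbR pbA

theorem pb_chk : tchk 2 (.leaf [1253, 97] [13, 13]) pbG = true := by
  decide +kernel

theorem pb_chk1 : tchk 2 (.leaf [1226, 95] [13, 13]) pbG1 = true := by
  decide +kernel

/-! ### region (c): `x = r (4 - s) / 12`, `p = - r s / 8` -/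

def pcX : Ex := .mul (.v 0) (.sub (.c 4) (.v 1))
def pcR : Ex := .add (.mul (.c 12000) pcX) (.mul (.c 999) (.mul pcX pcX))
def pca : Ex := .mul (.c 4) (.mul (.v 0) (.sub (.c 1) (.v 1)))
def pcb : Ex := .mul (.v 0) (.add (.c 8) (.v 1))
def pcA : Ex := UEx 36 pca pcb (fun _ => .c 1) uA
def pcPP : Ex := UEx 36 pca pcb (fun _ => .c 1) uP
def pcG : Ex := GEx (589824 * ipow 36 10) (256000 * ipow 36 6) 1000 125 1000 pcR pcA pcPP
def pcG1 : Ex := GEx1 (589824 * ipow 36 10) (256000 * ipow 36 6) 1000 pcR pcA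

theorem pc_chk : tchk 2 (.leaf [1457, 113] [13, 13]) pcG = true := by
  decide +kernel

theorem pc_chk1 : tchk 2 (.leaf [1457, 113] [13, 13]) pcG1 = true := by
  decide +kernel

end Vale.Agent.P154.LN
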