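import Vale.Agent.Lib.P154.LN.CertEx

/-!
# `d`-ary trees with `d ≥ 6`: the expressions of the certificate inequalities
-/

namespace Vale.Agent.P154.LN

open Vale.Agent.Lib.P154.BoxPos (Ex HTree tchk tchk_sound)

/-- `∏_{1 ≤ j < m} (12 - j - j T)` -/
def wS0 : ℕ → Ex
  | 0 => .c 1
  | 1 => .c 1
  | m + 2 => .mul (wS0 (m + 1)) (.sub (.c (12 - ((m : ℤ) + 1))) (.mul (.c ((m : ℤ) + 1)) (.v 2)))

/-- `12 ^ 5 ck ((1 + T) / 12) m` -/
def wS (m : ℕ) : Ex := .mul (.c (ipow 12 (6 - m))) (wS0 m)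

/-- `∏_{1 ≤ j < m} (12 - j T)` -/
def wL0 : ℕ → Ex
  | 0 => .c 1
  | 1 => .c 1
  | m + 2 => .mul (wL0 (m + 1)) (.sub (.c 12) (.mul (.c ((m : ℤ) + 1)) (.v 2)))

/-- `12 ^ 5 ck (T / 12) m` -/
def wL (m : ℕ) : Ex := .mul (.c (ipow 12 (6 - m))) (wL0 m)

/-- `∏_{1 ≤ j < m} (6 - j T)` -/
def wN0 : ℕ → Ex
  | 0 => .c 1
  | 1 => .c 1
  | m + 2 => .mul (wN0 (m + 1)) (.sub (.c 6) (.mul (.c ((m : ℤ) + 1)) (.v 2)))

/-- `6 ^ 5 ck (T / 6) m` -/
def wN (m : ℕ) : Ex := .mul (.c (ipow 6 (6 - m))) (wN0 m)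

theorem wS_ok (x : ℕ → ℝ) : ∀ k, 1 ≤ k → k ≤ 6 →
    (wS k).den x = 248832 * ck ((1 + x 2) / 12) k := by
  intro k h1 h2
  interval_cases k <;>
    simp only [wS, wS0, Ex.den, ck, Finset.prod_range_succ, Finset.prod_range_zero, ipow_eq,
      Nat.reduceSub] <;>
    push_cast <;> ring

theorem wL_ok (x : ℕ → ℝ) : ∀ k, 1 ≤ k → k ≤ 6 → (wL k).den x = 248832 * ck (x 2 / 12) k := by
  intro k h1 h2
  interval_cases k <;>
    simp only [wL, wL0, Ex.den, ck, Finset.prod_range_succ, Finset.prod_range_zero, ipow_eq,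
      Nat.reduceSub] <;>
    push_cast <;> ring

theorem wN_ok (x : ℕ → ℝ) : ∀ k, 1 ≤ k → k ≤ 6 → (wN k).den x = 7776 * ck (x 2 / 6) k := by
  intro k h1 h2
  interval_cases k <;>
    simp only [wN, wN0, Ex.den, ck, Finset.prod_range_succ, Finset.prod_range_zero, ipow_eq,
      Nat.reduceSub] <;>
    push_cast <;> ring

/-! region (a): `x = r (3 - 2 s) / 3`, `p = r (1 - s)` -/

def raX3 : Ex := .mul (.v 0) (.sub (.c 3) (.mul (.c 2) (.v 1)))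
def raP : Ex := .mul (.v 0) (.sub (.c 1) (.v 1))
def raR : Ex := .mul raX3 (.add (.c 3000) (.add (.mul (.c 499) raX3) (.mul (.c 2250) raP)))

/-! region (b): `x = (1 + 2 r) / 3`, `p = r s` -/

def rbX3 : Ex := .add (.c 1) (.mul (.c 2) (.v 0))
def rbR : Ex := .mul rbX3 (.add (.c 3000) (.add (.mul (.c 499) rbX3) (.mul (.c 2250) (.v 0))))

/-! region (c): `x = r (4 - s) / 12`, `p = - r s / 8` -/

def rcX : Ex := .mul (.v 0) (.sub (.c 4) (.v 1))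
def rcR : Ex := .add (.mul (.c 12000) rcX) (.mul (.c 499) (.mul rcX rcX))

/-! arguments, `τ = 5 / 6` -/

def sa1 : Ex := .mul (.v 0) (.sub (.c 8) (.mul (.c 7) (.v 1)))
def sb1 : Ex := .mul (.v 0) (.add (.c 1) (.v 1))
def sa2 : Ex := .add rbX3 (.mul (.c 5) (.mul (.v 0) (.v 1)))
def sb2 : Ex := .sub (.mul (.c 2) rbX3) (.mul (.c 5) (.mul (.v 0) (.v 1)))

/-! arguments, `τ = 3 / 5` -/

def la1 : Ex := .mul (.v 0) (.sub (.c 33) (.mul (.c 28) (.v 1)))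
def lb1 : Ex := .mul (.c 2) (.mul (.v 0) (.sub (.c 6) (.v 1)))
def la2 : Ex := .add (.mul (.c 5) rbX3) (.mul (.c 18) (.mul (.v 0) (.v 1)))
def lb2 : Ex := .mul (.c 2) (.sub (.mul (.c 5) rbX3) (.mul (.c 9) (.mul (.v 0) (.v 1))))

/-! arguments, region (c) -/

def na : Ex := .mul (.c 4) (.mul (.v 0) (.sub (.c 1) (.v 1)))
def nb : Ex := .mul (.v 0) (.add (.c 8) (.v 1))

/-- the two expressions; `D` is the common denominator of the arguments, `L` the factor of the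
weights, `q` the factor `9` or `144` -/
def E0 (D L k2 : ℤ) (a b R : Ex) (w : ℕ → Ex) : Ex :=
  .sub (.mul (.c k2) R) (.mul (UEx D a b w uA) (.add (.c (256000 * ipow D 6 * L))
    (.add (.mul (.c 500) (UEx D a b w uA)) (.mul (.c 750) (UEx D a b w uP)))))

def E1 (D L k2 : ℤ) (a b R : Ex) (w : ℕ → Ex) : Ex :=
  GEx1 k2 (256000 * ipow D 6 * L) 500 R (UEx D a b w uA)

/-- soundness of the two checks -/
theorem E_sound {n : ℕ} {T0 T1 : HTree} {a b R : Ex} {w : ℕ → Ex}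
    {D k2 L : ℤ} {t A B rhs : ℝ} (x : ℕ → ℝ)
    (h0 : tchk n T0 (E0 D L k2 a b R w) = true) (h1 : tchk n T1 (E1 D L k2 a b R w) = true)
    (hx0 : ∀ i, 0 ≤ x i) (hx1 : ∀ i, x i ≤ 1) (hD : 0 < D) (hL : 0 < L)
    (ha : a.den x = D * A) (hb : b.den x = D * B)
    (hw : ∀ k, 1 ≤ k → k ≤ 6 → (w k).den x = L * ck t k)
    (hR : (k2 : ℝ) * R.den x = 1000 * (256 * (D : ℝ) ^ 6 * L) ^ 2 * rhs) :
    PsiU (3 / 4) 0 (1 / 2) t A B ≤ rhs := by
  have hA := UEx_den ha hb hw uA uA_ok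
  have hP := UEx_den ha hb hw uP uP_ok
  have hD' : (0 : ℝ) < (D : ℝ) := by exact_mod_cast hD
  have hL' : (0 : ℝ) < (L : ℝ) := by exact_mod_cast hL
  have q0 := tchk_sound n _ _ h0 x hx0 hx1
  have q1 := tchk_sound n _ _ h1 x hx0 hx1
  set K : ℝ := 256 * (D : ℝ) ^ 6 * L with hK
  have hK0 : 0 < K := by rw [hK]; positivity
  have hmK : ((256000 * ipow D 6 * L : ℤ) : ℝ) = 1000 * K := by
    rw [Int.cast_mul, Int.cast_mul, ipow_eq, hK]; push_cast; ring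
  have g0 := GEx_sound (c1 := 750) (c2 := 0) (c3 := 500) (mK := 256000 * ipow D 6 * L)
    (R := R) (k2 := k2) (m := 1000) (x := x) (rhs := rhs) hK0 (by norm_num) (by
      refine le_trans q0 (le_of_eq ?_)
      simp only [E0, GEx, Ex.den]; push_cast; ring) hA hP hmK hR
  have g1 := GEx1_sound (m := 1000) (rhs := rhs) hK0 (by norm_num) q1 hA hmK hR
  apply Psi_le_of
  · refine le_trans (le_of_eq ?_) g0
    push_cast; ring
  · refine le_trans (le_of_eq ?_) g1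
    push_cast; ring

end Vale.Agent.P154.LN
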