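import Vale.Agent.Lib.P154.LN.CertR0

/-!
# `d`-ary trees with `d ≥ 6`: kernel checks
-/

namespace Vale.Agent.P154.LN

open Vale.Agent.Lib.P154.BoxPos (tchk)

theorem rS10_chk : tchk 3 (.node 0 (.leaf [21024, 1618, 148] [13, 13, 11])
    (.leaf [22182, 1707, 156] [13, 13, 11]))
    (E0 9 248832 (65536 * ipow 9 11 * ipow 12 10) sa1 sb1 raR wS) = true := by
  decide +kernel

theorem rS11_chk : tchk 3 (.leaf [19737, 1519, 139] [13, 13, 11])
    (E1 9 248832 (65536 * ipow 9 11 * ipow 12 10) sa1 sb1 raR wS) = true := by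
  decide +kernel

theorem rS20_chk : tchk 3 (.leaf [20037, 1542, 141] [13, 13, 11])
    (E0 9 248832 (65536 * ipow 9 11 * ipow 12 10) sa2 sb2 rbR wS) = true := by
  decide +kernel

theorem rS21_chk : tchk 3 (.leaf [19738, 1519, 139] [13, 13, 11])
    (E1 9 248832 (65536 * ipow 9 11 * ipow 12 10) sa2 sb2 rbR wS) = true := by
  decide +kernel

theorem rL10_chk : tchk 3 (.leaf [23885, 1838, 168] [13, 13, 11])
    (E0 45 248832 (65536 * 225 * ipow 45 10 * ipow 12 10) la1 lb1 raR wL) = true := by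
  decide +kernel

theorem rL11_chk : tchk 3 (.leaf [23611, 1817, 166] [13, 13, 11])
    (E1 45 248832 (65536 * 225 * ipow 45 10 * ipow 12 10) la1 lb1 raR wL) = true := by
  decide +kernel

theorem rL20_chk : tchk 3 (.leaf [24040, 1850, 169] [13, 13, 11])
    (E0 45 248832 (65536 * 225 * ipow 45 10 * ipow 12 10) la2 lb2 rbR wL) = true := by
  decide +kernel

theorem rL21_chk : tchk 3 (.leaf [23754, 1828, 167] [13, 13, 11])
    (E1 45 248832 (65536 * 225 * ipow 45 10 * ipow 12 10) la2 lb2 rbR wL) = true := by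
  decide +kernel

theorem rN0_chk : tchk 3 (.leaf [21023, 1618, 148] [13, 13, 11])
    (E0 36 7776 (65536 * 9 * ipow 36 10 * ipow 6 10) na nb rcR wN) = true := by
  decide +kernel

theorem rN1_chk : tchk 3 (.leaf [21023, 1618, 148] [13, 13, 11])
    (E1 36 7776 (65536 * 9 * ipow 36 10 * ipow 6 10) na nb rcR wN) = true := by
  decide +kernel

end Vale.Agent.P154.LN
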