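import Vale.Agent.Lib.P154.LN.Ops

/-!
# The cone of functionals generated by `Fn l f`, `l ≥ 0`

The cone is closed under multiplication of the argument by a nonnegative vector, under the edge
operator and under the message operators of laws.
-/

open scoped BigOperators

namespace Vale.Agent.P154.LN.GW

/-! ### Elementary identities -/

theorem pm_comm (a b : V3) : pm a b = pm b a := by
  funext i
  exact mul_comm _ _

theorem pm_assoc (a b c : V3) : pm (pm a b) c = pm a (pm b c) := by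
  funext i
  exact mul_assoc _ _ _

theorem pm_nonneg {a b : V3} (ha : ∀ i, 0 ≤ a i) (hb : ∀ i, 0 ≤ b i) (i : Fin 3) :
    0 ≤ pm a b i := mul_nonneg (ha i) (hb i)

theorem one3_apply (i : Fin 3) : one3 i = 1 := by
  fin_cases i <;> rfl

theorem pm_one3 (a : V3) : pm a one3 = a := by
  funext i
  show a i * one3 i = a i
  rw [one3_apply, mul_one]

theorem one3_pm (a : V3) : pm one3 a = a := by
  rw [pm_comm, pm_one3]

theorem Fn_pm (l f c w : V3) : Fn l f (pm c w) = Fn (pm l c) f w := by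
  unfold Fn pm
  congr 1
  · congr 1
    exact Finset.sum_congr rfl fun i _ => by ring
  · exact Finset.sum_congr rfl fun i _ => by ring

theorem Fn_smul_left (c : ℝ) (l f w : V3) : Fn (fun i => c * l i) f w = c * Fn l f w := by
  have n : ∑ i, c * l i * f i * w i = c * ∑ i, l i * f i * w i := by
    rw [Finset.mul_sum]
    exact Finset.sum_congr rfl fun i _ => by ring
  have d : ∑ i, c * l i * w i = c * ∑ i, l i * w i := by
    rw [Finset.mul_sum]
    exact Finset.sum_congr rfl fun i _ => by ring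
  unfold Fn
  rw [n, d]
  by_cases hc : c = 0
  · rw [hc]
    simp
  · rw [mul_pow, pow_two c, mul_assoc, mul_div_mul_left _ _ hc, mul_div_assoc]

theorem smooth_eq (lam : ℝ) (w : V3) (i : Fin 3) :
    smooth lam w i = ∑ j, pottsKernel 3 lam i j * w j := by
  unfold smooth pottsKernel
  simp_rw [add_mul]
  rw [Finset.sum_add_distrib, ← Finset.mul_sum]
  congr 1
  rw [Finset.sum_eq_single i]
  · simp
  · intro j _ hj
    rw [if_neg (Ne.symm hj)]
    simp
  · intro h
    exact absurd (Finset.mem_univ i) h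

theorem kernel_nonneg {lam : ℝ} (h0 : -1 / 2 ≤ lam) (h1 : lam ≤ 1) (i j : Fin 3) :
    0 ≤ pottsKernel 3 lam i j := by
  refine pottsKernel_nonneg (by norm_num) ?_ h1 i j
  have : (-1 : ℝ) / (((3 : ℕ) : ℝ) - 1) = -1 / 2 := by norm_num
  rw [this]
  exact h0

theorem smooth_nonneg {lam : ℝ} (h0 : -1 / 2 ≤ lam) (h1 : lam ≤ 1) {w : V3}
    (hw : ∀ i, 0 ≤ w i) (i : Fin 3) : 0 ≤ smooth lam w i := by
  rw [smooth_eq]
  exact Finset.sum_nonneg fun j _ => mul_nonneg (kernel_nonneg h0 h1 i j) (hw j)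

/-- `Fn` seen through an edge -/
theorem Fn_smooth {lam : ℝ} (h0 : -1 / 2 ≤ lam) (h1 : lam ≤ 1) {l : V3} (f : V3)
    (hl : ∀ i, 0 ≤ l i) : ∃ l' f' : V3, (∀ i, 0 ≤ l' i) ∧
      ∀ w, Fn l f (smooth lam w) = Fn l' f' w := by
  set l' : V3 := fun j => ∑ i, l i * pottsKernel 3 lam i j with hl'
  set f' : V3 := fun j => (∑ i, l i * f i * pottsKernel 3 lam i j) / l' j with hf'
  have hnn : ∀ i j, 0 ≤ l i * pottsKernel 3 lam i j := fun i j =>
    mul_nonneg (hl i) (kernel_nonneg h0 h1 i j)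
  have key : ∀ j, l' j * f' j = ∑ i, l i * f i * pottsKernel 3 lam i j := by
    intro j
    by_cases h : l' j = 0
    · have hz : ∀ i, l i * pottsKernel 3 lam i j = 0 := by
        intro i
        exact (Finset.sum_eq_zero_iff_of_nonneg (fun i _ => hnn i j)).1 h i (Finset.mem_univ i)
      rw [h, zero_mul]
      symm
      refine Finset.sum_eq_zero fun i _ => ?_
      calc l i * f i * pottsKernel 3 lam i j = f i * (l i * pottsKernel 3 lam i j) := by ring
        _ = 0 := by rw [hz i, mul_zero]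
    · rw [hf']
      field_simp
  refine ⟨l', f', fun j => Finset.sum_nonneg fun i _ => hnn i j, fun w => ?_⟩
  have n : ∑ i, l i * f i * smooth lam w i = ∑ j, l' j * f' j * w j := by
    simp_rw [key, smooth_eq, Finset.mul_sum, Finset.sum_mul]
    rw [Finset.sum_comm]
    exact Finset.sum_congr rfl fun j _ => Finset.sum_congr rfl fun i _ => by ring
  have d : ∑ i, l i * smooth lam w i = ∑ j, l' j * w j := by
    simp_rw [hl', smooth_eq, Finset.mul_sum, Finset.sum_mul]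
    rw [Finset.sum_comm]
    exact Finset.sum_congr rfl fun j _ => Finset.sum_congr rfl fun i _ => by ring
  unfold Fn
  rw [n, d]

/-! ### The cone -/

/-- finite sums of the functionals `Fn l f`, `l ≥ 0` -/
def InK (Φ : V3 → ℝ) : Prop :=
  ∃ s : List (V3 × V3), (∀ a ∈ s, ∀ i, 0 ≤ a.1 i) ∧ ∀ w, Φ w = (s.map (fun a => Fn a.1 a.2 w)).sum

theorem inK_Fn {l f : V3} (hl : ∀ i, 0 ≤ l i) : InK (Fn l f) :=
  ⟨[(l, f)], by simpa using hl, by simp⟩

theorem InK.zero : InK (fun _ => 0) := ⟨[], by simp, by simp⟩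

theorem InK.add {Φ Ψ : V3 → ℝ} (h : InK Φ) (h' : InK Ψ) : InK (fun w => Φ w + Ψ w) := by
  obtain ⟨s, hs, e⟩ := h
  obtain ⟨s', hs', e'⟩ := h'
  refine ⟨s ++ s', ?_, fun w => ?_⟩
  · intro a ha
    rcases List.mem_append.1 ha with h | h
    · exact hs a h
    · exact hs' a h
  · show Φ w + Ψ w = _
    rw [e, e', List.map_append, List.sum_append]

theorem InK.comp {Φ : V3 → ℝ} (h : InK Φ) (T : V3 → V3)
    (hT : ∀ l f : V3, (∀ i, 0 ≤ l i) → ∃ l' f' : V3, (∀ i, 0 ≤ l' i) ∧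
      ∀ w, Fn l f (T w) = Fn l' f' w) : InK (fun w => Φ (T w)) := by
  obtain ⟨s, hs, e⟩ := h
  have key : ∀ s : List (V3 × V3), (∀ a ∈ s, ∀ i, 0 ≤ a.1 i) →
      InK (fun w => (s.map (fun a => Fn a.1 a.2 (T w))).sum) := by
    intro s
    induction s with
    | nil =>
      intro _
      simpa using InK.zero
    | cons a s ih =>
      intro hs
      have h1 : InK (fun w => Fn a.1 a.2 (T w)) := by
        obtain ⟨l', f', h0, h⟩ := hT a.1 a.2 (hs a (by simp))
        have : (fun w => Fn a.1 a.2 (T w)) = Fn l' f' := funext h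
        rw [this]
        exact inK_Fn h0
      have h2 := ih fun b hb => hs b (by simp [hb])
      simpa using h1.add h2
  have h3 := key s hs
  have h4 : (fun w => Φ (T w)) = fun w => (s.map (fun a => Fn a.1 a.2 (T w))).sum :=
    funext fun w => e (T w)
  rw [h4]
  exact h3

theorem InK.smul {Φ : V3 → ℝ} (h : InK Φ) {c : ℝ} (hc : 0 ≤ c) : InK (fun w => c * Φ w) := by
  obtain ⟨s, hs, e⟩ := h
  refine ⟨s.map fun a => (fun i => c * a.1 i, a.2), ?_, fun w => ?_⟩
  · intro a ha i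
    obtain ⟨b, hb, rfl⟩ := List.mem_map.1 ha
    exact mul_nonneg hc (hs b hb i)
  · show c * Φ w = _
    rw [e, List.map_map, ← List.sum_map_mul_left]
    congr 1
    refine List.map_congr_left fun a _ => ?_
    exact (Fn_smul_left c a.1 a.2 w).symm

theorem InK.pm {Φ : V3 → ℝ} (h : InK Φ) {c : V3} (hc : ∀ i, 0 ≤ c i) :
    InK (fun w => Φ (pm c w)) :=
  h.comp _ fun l f hl => ⟨LN.pm l c, f, pm_nonneg hl hc, fun w => Fn_pm l f c w⟩

theorem InK.pm' {Φ : V3 → ℝ} (h : InK Φ) {c : V3} (hc : ∀ i, 0 ≤ c i) :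
    InK (fun w => Φ (LN.pm w c)) := by
  have := h.pm hc
  simpa only [pm_comm] using this

theorem InK.smooth {Φ : V3 → ℝ} (h : InK Φ) {lam : ℝ} (h0 : -1 / 2 ≤ lam) (h1 : lam ≤ 1) :
    InK (fun w => Φ (smooth lam w)) :=
  h.comp _ fun _ f hl => Fn_smooth h0 h1 f hl

theorem InK.nonneg {Φ : V3 → ℝ} (h : InK Φ) {w : V3} (hw : ∀ i, 0 ≤ w i) : 0 ≤ Φ w := by
  obtain ⟨s, hs, e⟩ := h
  rw [e]
  refine List.sum_nonneg fun x hx => ?_
  obtain ⟨a, ha, rfl⟩ := List.mem_map.1 hx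
  exact Fn_nonneg (hs a ha) hw

/-- the six orientations of a nonnegative vector are nonnegative -/
theorem orient_nonneg {w : V3} (hw : ∀ i, 0 ≤ w i) (a b c : Fin 3) (i : Fin 3) :
    0 ≤ (![w a, w b, w c] : V3) i := by
  fin_cases i
  · exact hw a
  · exact hw b
  · exact hw c

theorem InK.avg_nonneg {Φ : V3 → ℝ} (h : InK Φ) {w : V3} (hw : ∀ i, 0 ≤ w i) :
    0 ≤ avg Φ w := by
  unfold avg
  have := fun a b c => h.nonneg (orient_nonneg hw a b c)
  have h1 := this 0 1 2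
  have h2 := this 0 2 1
  have h3 := this 1 0 2
  have h4 := this 1 2 0
  have h5 := this 2 0 1
  have h6 := this 2 1 0
  positivity

theorem InK.ev_nonneg {Φ : V3 → ℝ} (h : InK Φ) {μ : Law} (hμ : μ.Ok) : 0 ≤ ev μ Φ := by
  unfold ev
  refine List.sum_nonneg fun x hx => ?_
  obtain ⟨a, ha, rfl⟩ := List.mem_map.1 hx
  exact mul_nonneg (hμ a ha).1 (h.avg_nonneg (hμ a ha).2)

/-- averages over orientations of shifted arguments -/
theorem InK.act {Φ : V3 → ℝ} (h : InK Φ) {m : V3} (hm : ∀ i, 0 ≤ m i) : InK (act m Φ) := by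
  have k := fun a b c => h.pm' (orient_nonneg hm a b c)
  have := (((((((k 0 1 2).add (k 0 2 1)).add (k 1 0 2)).add (k 1 2 0)).add (k 2 0 1)).add
    (k 2 1 0)).smul (show (0 : ℝ) ≤ 1 / 6 by norm_num))
  have e : LN.act m Φ = fun w => 1 / 6 * (((((Φ (LN.pm w ![m 0, m 1, m 2])
      + Φ (LN.pm w ![m 0, m 2, m 1])) + Φ (LN.pm w ![m 1, m 0, m 2]))
      + Φ (LN.pm w ![m 1, m 2, m 0])) + Φ (LN.pm w ![m 2, m 0, m 1]))
      + Φ (LN.pm w ![m 2, m 1, m 0])) := by
    funext w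
    unfold LN.act avg
    ring
  rw [e]
  exact this

theorem InK.opL {Φ : V3 → ℝ} (h : InK Φ) {μ : Law} (hμ : μ.Ok) : InK (opL μ Φ) := by
  induction μ with
  | nil =>
    unfold LN.opL
    simpa using InK.zero
  | cons a μ ih =>
    have h1 := ih fun b hb => hμ b (by simp [hb])
    have ha := hμ a (by simp)
    have h2 := (h.act ha.2).smul ha.1
    unfold LN.opL at h1 ⊢
    simpa using h2.add h1

theorem InK.iterate {Φ : V3 → ℝ} (h : InK Φ) {μ : Law} (hμ : μ.Ok) (m : ℕ) :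
    InK ((LN.opL μ)^[m] Φ) := by
  induction m with
  | zero => exact h
  | succ m ih =>
    rw [Function.iterate_succ_apply']
    exact ih.opL hμ

/-! ### Values of laws -/

theorem opL_eq_ev (μ : Law) (φ : V3 → ℝ) (w : V3) : opL μ φ w = ev μ (fun v => φ (pm w v)) := rfl

theorem smooth_vec (lam : ℝ) (w : V3) (a b c : Fin 3) (h : w a + w b + w c = w 0 + w 1 + w 2) :
    smooth lam ![w a, w b, w c] = ![smooth lam w a, smooth lam w b, smooth lam w c] := by
  have e : ∑ j, (![w a, w b, w c] : V3) j = ∑ j, w j := by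
    rw [Fin.sum_univ_three, Fin.sum_univ_three]
    exact h
  funext i
  unfold smooth
  rw [e]
  fin_cases i <;> rfl

theorem avg_smooth (lam : ℝ) (φ : V3 → ℝ) (w : V3) :
    avg φ (smooth lam w) = avg (fun v => φ (smooth lam v)) w := by
  unfold avg
  beta_reduce
  rw [smooth_vec lam w 0 1 2 (by ring), smooth_vec lam w 0 2 1 (by ring),
    smooth_vec lam w 1 0 2 (by ring), smooth_vec lam w 1 2 0 (by ring),
    smooth_vec lam w 2 0 1 (by ring), smooth_vec lam w 2 1 0 (by ring)]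

theorem ev_edgeLaw (lam : ℝ) (μ : Law) (φ : V3 → ℝ) :
    ev (edgeLaw lam μ) φ = ev μ (fun v => φ (smooth lam v)) := by
  unfold ev edgeLaw
  rw [List.map_map]
  congr 1
  refine List.map_congr_left fun a _ => ?_
  show a.1 * avg φ (smooth lam a.2) = a.1 * avg (fun v => φ (smooth lam v)) a.2
  rw [avg_smooth]

theorem _root_.Vale.Agent.P154.LN.Law.Ok.edge {μ : Law} (hμ : μ.Ok) {lam : ℝ} (h0 : -1 / 2 ≤ lam) (h1 : lam ≤ 1) :
    Law.Ok (edgeLaw lam μ) := by
  intro a ha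
  obtain ⟨b, hb, rfl⟩ := List.mem_map.1 ha
  exact ⟨(hμ b hb).1, smooth_nonneg h0 h1 (hμ b hb).2⟩

theorem avg_add (φ ψ : V3 → ℝ) (w : V3) : avg (fun v => φ v + ψ v) w = avg φ w + avg ψ w := by
  unfold avg
  ring

theorem avg_const_mul (c : ℝ) (φ : V3 → ℝ) (w : V3) : avg (fun v => c * φ v) w = c * avg φ w := by
  unfold avg
  ring

theorem ev_add (μ : Law) (φ ψ : V3 → ℝ) : ev μ (fun v => φ v + ψ v) = ev μ φ + ev μ ψ := by
  unfold ev
  rw [← List.sum_map_add]
  congr 1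
  refine List.map_congr_left fun a _ => ?_
  rw [avg_add]
  ring

theorem ev_const_mul (μ : Law) (c : ℝ) (φ : V3 → ℝ) : ev μ (fun v => c * φ v) = c * ev μ φ := by
  unfold ev
  rw [← List.sum_map_mul_left]
  congr 1
  refine List.map_congr_left fun a _ => ?_
  rw [avg_const_mul]
  ring

theorem ev_zero (μ : Law) : ev μ (fun _ => 0) = 0 := by
  have := ev_const_mul μ 0 (fun _ => 0)
  simpa using this

/-- comparison of two laws on the cone -/
theorem ev_le_of_cone {μ ν : Law}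
    (h : ∀ l f : V3, (∀ i, 0 ≤ l i) → ev μ (Fn l f) ≤ ev ν (Fn l f)) {Φ : V3 → ℝ}
    (hΦ : InK Φ) : ev μ Φ ≤ ev ν Φ := by
  obtain ⟨s, hs, e⟩ := hΦ
  have e' : Φ = fun w => (s.map (fun a => Fn a.1 a.2 w)).sum := funext e
  rw [e']
  clear e e'
  induction s with
  | nil =>
    simp only [List.map_nil, List.sum_nil]
    rw [ev_zero, ev_zero]
  | cons a s ih =>
    simp only [List.map_cons, List.sum_cons]
    rw [ev_add, ev_add]
    exact add_le_add (h a.1 a.2 (hs a (by simp))) (ih fun b hb => hs b (by simp [hb]))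

/-- comparison of the message operators of two laws on the cone -/
theorem opL_le_of_cone {μ ν : Law}
    (h : ∀ l f : V3, (∀ i, 0 ≤ l i) → ev μ (Fn l f) ≤ ev ν (Fn l f)) {Φ : V3 → ℝ}
    (hΦ : InK Φ) {w : V3} (hw : ∀ i, 0 ≤ w i) : opL μ Φ w ≤ opL ν Φ w :=
  ev_le_of_cone h (hΦ.pm hw)

theorem opL_mono {μ : Law} (hμ : μ.Ok) {Φ Ψ : V3 → ℝ}
    (h : ∀ w : V3, (∀ i, 0 ≤ w i) → Φ w ≤ Ψ w) {w : V3} (hw : ∀ i, 0 ≤ w i) :
    opL μ Φ w ≤ opL μ Ψ w := by
  unfold opL
  refine List.sum_le_sum fun a ha => ?_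
  refine mul_le_mul_of_nonneg_left ?_ (hμ a ha).1
  have k := fun a' b' c' => h _ (pm_nonneg hw (orient_nonneg (hμ a ha).2 a' b' c'))
  have h1 := k 0 1 2
  have h2 := k 0 2 1
  have h3 := k 1 0 2
  have h4 := k 1 2 0
  have h5 := k 2 0 1
  have h6 := k 2 1 0
  unfold act avg
  linarith

theorem iterate_le_of_cone {μ ν : Law} (hμ : μ.Ok) (hν : ν.Ok)
    (h : ∀ l f : V3, (∀ i, 0 ≤ l i) → ev μ (Fn l f) ≤ ev ν (Fn l f)) {Φ : V3 → ℝ}
    (hΦ : InK Φ) (m : ℕ) : ∀ {w : V3}, (∀ i, 0 ≤ w i) → (opL μ)^[m] Φ w ≤ (opL ν)^[m] Φ w := by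
  induction m with
  | zero => exact fun _ => le_rfl
  | succ m ih =>
    intro w hw
    rw [Function.iterate_succ_apply', Function.iterate_succ_apply']
    refine le_trans (opL_mono hμ (fun v hv => ih hv) hw) ?_
    exact opL_le_of_cone h (hΦ.iterate hν m) hw

end Vale.Agent.P154.LN.GW
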