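import Mathlib

/-!
# Quadratic-over-linear functionals and the collapse to subset-uniform laws (three colours)

For `l ≥ 0` and `f` real put `Fn l f w = (∑ l_i f_i w_i)^2 / ∑ l_i w_i`.  The average of `Fn l f`
over the six orientations of `w` is convex in `w_0 w_1` when `w_2` and `w_0 + w_1` are fixed
(`pi_split`), hence it is at most its interpolation between the centre `(1,1,1)`, the
middle `(3/2,3/2,0)` and the vertex `(3,0,0)` (`star`).
-/

open scoped BigOperators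

namespace Vale.Agent.P154.LN

abbrev V3 := Fin 3 → ℝ

/-- the quadratic-over-linear functional -/
noncomputable def Fn (l f w : V3) : ℝ := (∑ i, l i * f i * w i) ^ 2 / ∑ i, l i * w i

/-- average over the six orientations -/
noncomputable def avg (g : V3 → ℝ) (w : V3) : ℝ :=
  (g ![w 0, w 1, w 2] + g ![w 0, w 2, w 1] + g ![w 1, w 0, w 2] + g ![w 1, w 2, w 0]
    + g ![w 2, w 0, w 1] + g ![w 2, w 1, w 0]) / 6

noncomputable def e1 (w : V3) : ℝ := w 0 + w 1 + w 2
noncomputable def e2 (w : V3) : ℝ := w 0 * w 1 + w 1 * w 2 + w 0 * w 2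
noncomputable def e3 (w : V3) : ℝ := w 0 * w 1 * w 2

/-- weight of the vertices -/
noncomputable def t1 (w : V3) : ℝ := e1 w / 3 - 4 / 3 * e2 w / e1 w + 3 * e3 w / e1 w ^ 2
/-- weight of the middles -/
noncomputable def t2 (w : V3) : ℝ := 4 / 3 * e2 w / e1 w - 12 * e3 w / e1 w ^ 2
/-- weight of the centre -/
noncomputable def t3 (w : V3) : ℝ := 9 * e3 w / e1 w ^ 2

def one3 : V3 := ![1, 1, 1]
noncomputable def mid3 : V3 := ![3 / 2, 3 / 2, 0]
def ver3 : V3 := ![3, 0, 0]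

/-! ### The two-point inequality -/

/-- convexity of a Moebius function -/
theorem mobius {al be W C D1 D2 la mu : ℝ} (hla : 0 ≤ la) (hmu : 0 ≤ mu) (hs : la + mu = 1)
    (p1 : 0 < W - C * D1) (p2 : 0 < W - C * D2) (hC : 0 ≤ C) (hco : 0 ≤ al * C + be * W) :
    (al + be * (la * D1 + mu * D2)) / (W - C * (la * D1 + mu * D2))
      ≤ la * ((al + be * D1) / (W - C * D1)) + mu * ((al + be * D2) / (W - C * D2)) := by
  have hmu' : mu = 1 - la := by linarith
  subst hmu'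
  have p0 : 0 < W - C * (la * D1 + (1 - la) * D2) := by
    have : W - C * (la * D1 + (1 - la) * D2) = la * (W - C * D1) + (1 - la) * (W - C * D2) := by
      ring
    rw [this]
    rcases hla.eq_or_lt with h | h
    · rw [← h]; simpa using p2
    · have := mul_pos h p1
      have := mul_nonneg hmu p2.le
      linarith
  have q0 := p0.ne'
  have q1 := p1.ne'
  have q2 := p2.ne'
  rw [← sub_nonneg]
  have : la * ((al + be * D1) / (W - C * D1)) + (1 - la) * ((al + be * D2) / (W - C * D2))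
      - (al + be * (la * D1 + (1 - la) * D2)) / (W - C * (la * D1 + (1 - la) * D2))
      = (la * (1 - la) * (D1 - D2) ^ 2 * C * (al * C + be * W))
        / ((W - C * D1) * (W - C * D2) * (W - C * (la * D1 + (1 - la) * D2))) := by
    rw [mul_div_assoc', mul_div_assoc', div_add_div _ _ q1 q2, div_sub_div _ _ (mul_ne_zero q1 q2) q0,
      div_eq_div_iff (mul_ne_zero (mul_ne_zero q1 q2) q0) (mul_ne_zero (mul_ne_zero q1 q2) q0)]
    ring
  rw [this]
  apply div_nonneg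
  · positivity
  · exact (mul_pos (mul_pos p1 p2) p0).le

/-- the pair sum as a Moebius function of `x ^ 2` -/
theorem pairsum {V v B c x : ℝ} (hp : 0 < B + c * x) (hm : 0 < B - c * x) :
    (V + v * x) ^ 2 / (B + c * x) + (V - v * x) ^ 2 / (B - c * x)
      = 2 * ((B * V ^ 2 + (B * v ^ 2 - 2 * c * V * v) * x ^ 2) / (B ^ 2 - c ^ 2 * x ^ 2)) := by
  have q1 := hp.ne'
  have q2 := hm.ne'
  have q3 : B ^ 2 - c ^ 2 * x ^ 2 ≠ 0 := by
    have : B ^ 2 - c ^ 2 * x ^ 2 = (B + c * x) * (B - c * x) := by ring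
    rw [this]
    exact mul_ne_zero q1 q2
  rw [div_add_div _ _ q1 q2, mul_div_assoc', div_eq_div_iff (mul_ne_zero q1 q2) q3]
  ring

/-- Basic convexity of the pair sum. -/
theorem core {V v B c d d1 d2 la mu : ℝ} (hla : 0 ≤ la) (hmu : 0 ≤ mu) (hs : la + mu = 1)
    (hD : d ^ 2 = la * d1 ^ 2 + mu * d2 ^ 2)
    (h0p : 0 < B + c * d) (h0m : 0 < B - c * d)
    (h1p : 0 < B + c * d1) (h1m : 0 < B - c * d1)
    (h2p : 0 < B + c * d2) (h2m : 0 < B - c * d2) :
    (V + v * d) ^ 2 / (B + c * d) + (V - v * d) ^ 2 / (B - c * d)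
      ≤ la * ((V + v * d1) ^ 2 / (B + c * d1) + (V - v * d1) ^ 2 / (B - c * d1))
        + mu * ((V + v * d2) ^ 2 / (B + c * d2) + (V - v * d2) ^ 2 / (B - c * d2)) := by
  rw [pairsum h0p h0m, pairsum h1p h1m, pairsum h2p h2m, hD]
  have hB : 0 < B := by linarith
  have p1 : 0 < B ^ 2 - c ^ 2 * d1 ^ 2 := by nlinarith [mul_pos h1p h1m]
  have p2 : 0 < B ^ 2 - c ^ 2 * d2 ^ 2 := by nlinarith [mul_pos h2p h2m]
  have hco : 0 ≤ (B * V ^ 2) * c ^ 2 + (B * v ^ 2 - 2 * c * V * v) * B ^ 2 := by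
    have : (B * V ^ 2) * c ^ 2 + (B * v ^ 2 - 2 * c * V * v) * B ^ 2
        = B * (V * c - B * v) ^ 2 := by ring
    rw [this]; positivity
  have := mobius hla hmu hs p1 p2 (sq_nonneg c) hco
  linarith

/-! ### Pair convexity for `Fn` -/

theorem Fn_expand (l f w : V3) : Fn l f w =
    (l 0 * f 0 * w 0 + l 1 * f 1 * w 1 + l 2 * f 2 * w 2) ^ 2
      / (l 0 * w 0 + l 1 * w 1 + l 2 * w 2) := by
  unfold Fn
  rw [Fin.sum_univ_three, Fin.sum_univ_three]

theorem Fn_nonneg {l f w : V3} (hl : ∀ i, 0 ≤ l i) (hw : ∀ i, 0 ≤ w i) : 0 ≤ Fn l f w := by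
  unfold Fn
  apply div_nonneg (sq_nonneg _)
  exact Finset.sum_nonneg (fun i _ => mul_nonneg (hl i) (hw i))

/-- continuity in `l` at the boundary -/
theorem Fn_tendsto {l f w : V3} (hl : ∀ i, 0 ≤ l i) (hw : ∀ i, 0 ≤ w i) :
    Filter.Tendsto (fun ε : ℝ => Fn (fun i => l i + ε) f w) (nhdsWithin 0 (Set.Ioi 0))
      (nhds (Fn l f w)) := by
  by_cases h : (l 0 * w 0 + l 1 * w 1 + l 2 * w 2) = 0
  · have h0 : l 0 * w 0 = 0 := by
      have a := mul_nonneg (hl 0) (hw 0)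
      have b := mul_nonneg (hl 1) (hw 1)
      have c := mul_nonneg (hl 2) (hw 2)
      linarith
    have h1 : l 1 * w 1 = 0 := by
      have a := mul_nonneg (hl 0) (hw 0)
      have b := mul_nonneg (hl 1) (hw 1)
      have c := mul_nonneg (hl 2) (hw 2)
      linarith
    have h2 : l 2 * w 2 = 0 := by
      have a := mul_nonneg (hl 0) (hw 0)
      have b := mul_nonneg (hl 1) (hw 1)
      have c := mul_nonneg (hl 2) (hw 2)
      linarith
    have e0 : Fn l f w = 0 := by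
      rw [Fn_expand, h, div_zero]
    rw [e0]
    have e1 : ∀ ε : ℝ, ε ∈ Set.Ioi (0 : ℝ) → Fn (fun i => l i + ε) f w
        = ε * ((f 0 * w 0 + f 1 * w 1 + f 2 * w 2) ^ 2 / (w 0 + w 1 + w 2)) := by
      intro ε hε
      have hε' : ε ≠ 0 := ne_of_gt hε
      rw [Fn_expand]
      have n : (l 0 + ε) * f 0 * w 0 + (l 1 + ε) * f 1 * w 1 + (l 2 + ε) * f 2 * w 2
          = ε * (f 0 * w 0 + f 1 * w 1 + f 2 * w 2) := by
        linear_combination f 0 * h0 + f 1 * h1 + f 2 * h2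
      have d : (l 0 + ε) * w 0 + (l 1 + ε) * w 1 + (l 2 + ε) * w 2
          = ε * (w 0 + w 1 + w 2) := by
        linear_combination h0 + h1 + h2
      show ((l 0 + ε) * f 0 * w 0 + (l 1 + ε) * f 1 * w 1 + (l 2 + ε) * f 2 * w 2) ^ 2
        / ((l 0 + ε) * w 0 + (l 1 + ε) * w 1 + (l 2 + ε) * w 2) = _
      rw [n, d, mul_pow, pow_two ε, mul_assoc, mul_div_mul_left _ _ hε', mul_div_assoc]
    have e2 : Filter.Tendsto (fun ε : ℝ =>
        ε * ((f 0 * w 0 + f 1 * w 1 + f 2 * w 2) ^ 2 / (w 0 + w 1 + w 2)))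
        (nhdsWithin 0 (Set.Ioi 0)) (nhds 0) := by
      have : Filter.Tendsto (fun ε : ℝ =>
        ε * ((f 0 * w 0 + f 1 * w 1 + f 2 * w 2) ^ 2 / (w 0 + w 1 + w 2)))
        (nhds 0) (nhds (0 * ((f 0 * w 0 + f 1 * w 1 + f 2 * w 2) ^ 2 / (w 0 + w 1 + w 2)))) :=
        Filter.Tendsto.mul_const _ Filter.tendsto_id
      rw [zero_mul] at this
      exact this.mono_left nhdsWithin_le_nhds
    exact e2.congr' (Filter.eventually_of_mem self_mem_nhdsWithin (fun ε hε => (e1 ε hε).symm))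
  · have hc : ContinuousAt (fun ε : ℝ => Fn (fun i => l i + ε) f w) 0 := by
      simp_rw [Fn_expand]
      apply ContinuousAt.div
      · fun_prop
      · fun_prop
      · simpa using h
    have := hc.tendsto
    simp only [add_zero] at this
    exact this.mono_left nhdsWithin_le_nhds

theorem pair_pos {l f : V3} (hl : ∀ i, 0 < l i) {x y z x1 y1 x2 y2 la mu : ℝ}
    (hx : 0 ≤ x) (hy : 0 ≤ y) (hz : 0 ≤ z) (hx1 : 0 ≤ x1) (hy1 : 0 ≤ y1)
    (hx2 : 0 ≤ x2) (hy2 : 0 ≤ y2) (hla : 0 ≤ la) (hmu : 0 ≤ mu) (hs : la + mu = 1)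
    (s1 : x1 + y1 = x + y) (s2 : x2 + y2 = x + y)
    (hp : x * y = la * (x1 * y1) + mu * (x2 * y2)) (hpos : 0 < x + y + z) :
    Fn l f ![x, y, z] + Fn l f ![y, x, z]
      ≤ la * (Fn l f ![x1, y1, z] + Fn l f ![y1, x1, z])
        + mu * (Fn l f ![x2, y2, z] + Fn l f ![y2, x2, z]) := by
  have den : ∀ a b : ℝ, 0 ≤ a → 0 ≤ b → a + b = x + y → 0 < l 0 * a + l 1 * b + l 2 * z := by
    intro a b ha hb hab
    have h0 := mul_nonneg (hl 0).le ha
    have h1 := mul_nonneg (hl 1).le hb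
    have h2 := mul_nonneg (hl 2).le hz
    rcases hz.eq_or_lt with h | h
    · have : 0 < a + b := by linarith
      rcases ha.eq_or_lt with h' | h'
      · have : 0 < b := by linarith
        have := mul_pos (hl 1) this
        linarith
      · have := mul_pos (hl 0) h'
        linarith
    · have := mul_pos (hl 2) h
      linarith
  have conv : ∀ a b : ℝ, 0 ≤ a → 0 ≤ b → a + b = x + y →
      (0 < ((l 0 + l 1) * ((x + y) / 2) + l 2 * z) + (l 0 - l 1) * ((a - b) / 2) ∧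
       0 < ((l 0 + l 1) * ((x + y) / 2) + l 2 * z) - (l 0 - l 1) * ((a - b) / 2)) ∧
      Fn l f ![a, b, z] + Fn l f ![b, a, z] =
      (((l 0 * f 0 + l 1 * f 1) * ((x + y) / 2) + l 2 * f 2 * z)
          + (l 0 * f 0 - l 1 * f 1) * ((a - b) / 2)) ^ 2
        / (((l 0 + l 1) * ((x + y) / 2) + l 2 * z) + (l 0 - l 1) * ((a - b) / 2))
      + (((l 0 * f 0 + l 1 * f 1) * ((x + y) / 2) + l 2 * f 2 * z)
          - (l 0 * f 0 - l 1 * f 1) * ((a - b) / 2)) ^ 2
        / (((l 0 + l 1) * ((x + y) / 2) + l 2 * z) - (l 0 - l 1) * ((a - b) / 2)) := by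
    intro a b ha hb hab
    have d1 : ((l 0 + l 1) * ((x + y) / 2) + l 2 * z) + (l 0 - l 1) * ((a - b) / 2)
        = l 0 * a + l 1 * b + l 2 * z := by rw [← hab]; ring
    have d2 : ((l 0 + l 1) * ((x + y) / 2) + l 2 * z) - (l 0 - l 1) * ((a - b) / 2)
        = l 0 * b + l 1 * a + l 2 * z := by rw [← hab]; ring
    have n1 : ((l 0 * f 0 + l 1 * f 1) * ((x + y) / 2) + l 2 * f 2 * z)
          + (l 0 * f 0 - l 1 * f 1) * ((a - b) / 2)
        = l 0 * f 0 * a + l 1 * f 1 * b + l 2 * f 2 * z := by rw [← hab]; ring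
    have n2 : ((l 0 * f 0 + l 1 * f 1) * ((x + y) / 2) + l 2 * f 2 * z)
          - (l 0 * f 0 - l 1 * f 1) * ((a - b) / 2)
        = l 0 * f 0 * b + l 1 * f 1 * a + l 2 * f 2 * z := by rw [← hab]; ring
    rw [d1, d2, n1, n2]
    refine ⟨⟨den a b ha hb hab, den b a hb ha (by linarith)⟩, ?_⟩
    rw [Fn_expand, Fn_expand]
    rfl
  obtain ⟨⟨p1, p2⟩, k0⟩ := conv x y hx hy rfl
  obtain ⟨⟨p3, p4⟩, k1⟩ := conv x1 y1 hx1 hy1 s1
  obtain ⟨⟨p5, p6⟩, k2⟩ := conv x2 y2 hx2 hy2 s2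
  rw [k0, k1, k2]
  apply core hla hmu hs _ p1 p2 p3 p4 p5 p6
  have e : ∀ a b : ℝ, ((a - b) / 2) ^ 2 = ((a + b) / 2) ^ 2 - a * b := by intro a b; ring
  rw [e, e, e, s1, s2, hp]
  have hm : mu = 1 - la := by linarith
  rw [hm]
  ring

theorem pair_conv {l f : V3} (hl : ∀ i, 0 ≤ l i) {x y z x1 y1 x2 y2 la mu : ℝ}
    (hx : 0 ≤ x) (hy : 0 ≤ y) (hz : 0 ≤ z) (hx1 : 0 ≤ x1) (hy1 : 0 ≤ y1)
    (hx2 : 0 ≤ x2) (hy2 : 0 ≤ y2) (hla : 0 ≤ la) (hmu : 0 ≤ mu) (hs : la + mu = 1)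
    (s1 : x1 + y1 = x + y) (s2 : x2 + y2 = x + y)
    (hp : x * y = la * (x1 * y1) + mu * (x2 * y2)) :
    Fn l f ![x, y, z] + Fn l f ![y, x, z]
      ≤ la * (Fn l f ![x1, y1, z] + Fn l f ![y1, x1, z])
        + mu * (Fn l f ![x2, y2, z] + Fn l f ![y2, x2, z]) := by
  have nn : ∀ a b : ℝ, 0 ≤ a → 0 ≤ b → ∀ i, 0 ≤ (![a, b, z] : V3) i := by
    intro a b ha hb i
    fin_cases i
    · exact ha
    · exact hb
    · exact hz
  rcases (add_nonneg (add_nonneg hx hy) hz).eq_or_lt with h | h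
  · have z0 : z = 0 := by linarith
    have x0 : x = 0 := by linarith
    have y0 : y = 0 := by linarith
    have F0 : Fn l f ![x, y, z] + Fn l f ![y, x, z] = 0 := by
      rw [Fn_expand, Fn_expand, x0, y0, z0]
      simp
    rw [F0]
    have a1 := Fn_nonneg (f := f) hl (nn x1 y1 hx1 hy1)
    have a2 := Fn_nonneg (f := f) hl (nn y1 x1 hy1 hx1)
    have a3 := Fn_nonneg (f := f) hl (nn x2 y2 hx2 hy2)
    have a4 := Fn_nonneg (f := f) hl (nn y2 x2 hy2 hx2)
    positivity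
  · have L := fun a b ha hb => Fn_tendsto (l := l) (f := f) (w := ![a, b, z]) hl (nn a b ha hb)
    refine le_of_tendsto_of_tendsto ((L x y hx hy).add (L y x hy hx))
      ((((L x1 y1 hx1 hy1).add (L y1 x1 hy1 hx1)).const_mul la).add
        (((L x2 y2 hx2 hy2).add (L y2 x2 hy2 hx2)).const_mul mu)) ?_
    refine Filter.eventually_of_mem self_mem_nhdsWithin (fun ε hε => ?_)
    have hε' : (0 : ℝ) < ε := hε
    exact pair_pos (l := fun i => l i + ε) (f := f) (fun i => by have := hl i; linarith)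
      hx hy hz hx1 hy1 hx2 hy2 hla hmu hs s1 s2 hp h

theorem Fn_swap12 (l f : V3) (a b c : ℝ) :
    Fn l f ![a, c, b] = Fn ![l 0, l 2, l 1] ![f 0, f 2, f 1] ![a, b, c] := by
  rw [Fn_expand, Fn_expand]
  show (l 0 * f 0 * a + l 1 * f 1 * c + l 2 * f 2 * b) ^ 2 / (l 0 * a + l 1 * c + l 2 * b)
    = (l 0 * f 0 * a + l 2 * f 2 * b + l 1 * f 1 * c) ^ 2 / (l 0 * a + l 2 * b + l 1 * c)
  congr 1 <;> ring

theorem Fn_rot (l f : V3) (a b c : ℝ) :
    Fn l f ![c, a, b] = Fn ![l 1, l 2, l 0] ![f 1, f 2, f 0] ![a, b, c] := by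
  rw [Fn_expand, Fn_expand]
  show (l 0 * f 0 * c + l 1 * f 1 * a + l 2 * f 2 * b) ^ 2 / (l 0 * c + l 1 * a + l 2 * b)
    = (l 1 * f 1 * a + l 2 * f 2 * b + l 0 * f 0 * c) ^ 2 / (l 1 * a + l 2 * b + l 0 * c)
  congr 1 <;> ring

/-- **Splitting**: with `z` and `x + y` fixed, the symmetrised functional is convex in `x y`. -/
theorem pi_split {l f : V3} (hl : ∀ i, 0 ≤ l i) {x y z x1 y1 x2 y2 la mu : ℝ}
    (hx : 0 ≤ x) (hy : 0 ≤ y) (hz : 0 ≤ z) (hx1 : 0 ≤ x1) (hy1 : 0 ≤ y1)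
    (hx2 : 0 ≤ x2) (hy2 : 0 ≤ y2) (hla : 0 ≤ la) (hmu : 0 ≤ mu) (hs : la + mu = 1)
    (s1 : x1 + y1 = x + y) (s2 : x2 + y2 = x + y)
    (hp : x * y = la * (x1 * y1) + mu * (x2 * y2)) :
    avg (Fn l f) ![x, y, z] ≤ la * avg (Fn l f) ![x1, y1, z] + mu * avg (Fn l f) ![x2, y2, z] := by
  have A := pair_conv (f := f) hl hx hy hz hx1 hy1 hx2 hy2 hla hmu hs s1 s2 hp
  have hl' : ∀ i, 0 ≤ (![l 0, l 2, l 1] : V3) i := by
    intro i; fin_cases i
    · exact hl 0
    · exact hl 2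
    · exact hl 1
  have hl'' : ∀ i, 0 ≤ (![l 1, l 2, l 0] : V3) i := by
    intro i; fin_cases i
    · exact hl 1
    · exact hl 2
    · exact hl 0
  have B := pair_conv (f := ![f 0, f 2, f 1]) hl' hx hy hz hx1 hy1 hx2 hy2 hla hmu hs s1 s2 hp
  have C := pair_conv (f := ![f 1, f 2, f 0]) hl'' hx hy hz hx1 hy1 hx2 hy2 hla hmu hs s1 s2 hp
  simp only [← Fn_swap12, ← Fn_rot] at B C
  have e : ∀ a b c : ℝ, avg (Fn l f) ![a, b, c] =
      ((Fn l f ![a, b, c] + Fn l f ![b, a, c]) + (Fn l f ![a, c, b] + Fn l f ![b, c, a])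
        + (Fn l f ![c, a, b] + Fn l f ![c, b, a])) / 6 := by
    intro a b c
    unfold avg
    show (Fn l f ![a, b, c] + Fn l f ![a, c, b] + Fn l f ![b, a, c] + Fn l f ![b, c, a]
      + Fn l f ![c, a, b] + Fn l f ![c, b, a]) / 6 = _
    ring
  rw [e, e, e]
  linarith

/-- the bound by the three atoms -/
noncomputable def atoms (l f w : V3) : ℝ :=
  t1 w * avg (Fn l f) ver3 + t2 w * avg (Fn l f) mid3 + t3 w * Fn l f one3

theorem Fn_smul {l f w : V3} {c : ℝ} (hc : 0 ≤ c) :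
    Fn l f ![c * w 0, c * w 1, c * w 2] = c * Fn l f w := by
  rw [Fn_expand, Fn_expand]
  show (l 0 * f 0 * (c * w 0) + l 1 * f 1 * (c * w 1) + l 2 * f 2 * (c * w 2)) ^ 2
    / (l 0 * (c * w 0) + l 1 * (c * w 1) + l 2 * (c * w 2)) = _
  have n : l 0 * f 0 * (c * w 0) + l 1 * f 1 * (c * w 1) + l 2 * f 2 * (c * w 2)
    = c * (l 0 * f 0 * w 0 + l 1 * f 1 * w 1 + l 2 * f 2 * w 2) := by ring
  have d : l 0 * (c * w 0) + l 1 * (c * w 1) + l 2 * (c * w 2)
    = c * (l 0 * w 0 + l 1 * w 1 + l 2 * w 2) := by ring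
  rw [n, d]
  rcases hc.eq_or_lt with h | h
  · rw [← h]; simp
  · rw [mul_pow, pow_two c, mul_assoc, mul_div_mul_left _ _ h.ne', mul_div_assoc]

theorem avg_smul {l f : V3} {c a b d : ℝ} (hc : 0 ≤ c) :
    avg (Fn l f) ![c * a, c * b, c * d] = c * avg (Fn l f) ![a, b, d] := by
  have e : ∀ p q r : ℝ, Fn l f ![c * p, c * q, c * r] = c * Fn l f ![p, q, r] := by
    intro p q r
    exact Fn_smul (w := ![p, q, r]) hc
  unfold avg
  show (Fn l f ![c * a, c * b, c * d] + Fn l f ![c * a, c * d, c * b]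
      + Fn l f ![c * b, c * a, c * d] + Fn l f ![c * b, c * d, c * a]
      + Fn l f ![c * d, c * a, c * b] + Fn l f ![c * d, c * b, c * a]) / 6
    = c * ((Fn l f ![a, b, d] + Fn l f ![a, d, b] + Fn l f ![b, a, d] + Fn l f ![b, d, a]
      + Fn l f ![d, a, b] + Fn l f ![d, b, a]) / 6)
  rw [e, e, e, e, e, e]
  ring

theorem avg_perm (g : V3 → ℝ) (a b c : ℝ) :
    avg g ![a, b, c] = avg g ![b, a, c] ∧ avg g ![a, b, c] = avg g ![a, c, b] := by
  constructor
  · show (g ![a, b, c] + g ![a, c, b] + g ![b, a, c] + g ![b, c, a] + g ![c, a, b]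
      + g ![c, b, a]) / 6 = (g ![b, a, c] + g ![b, c, a] + g ![a, b, c] + g ![a, c, b]
      + g ![c, b, a] + g ![c, a, b]) / 6
    ring
  · show (g ![a, b, c] + g ![a, c, b] + g ![b, a, c] + g ![b, c, a] + g ![c, a, b]
      + g ![c, b, a]) / 6 = (g ![a, c, b] + g ![a, b, c] + g ![c, a, b] + g ![c, b, a]
      + g ![b, a, c] + g ![b, c, a]) / 6
    ring

/-- the bound on the edge `(s, z, 0)` -/
theorem star_edge {l f : V3} (hl : ∀ i, 0 ≤ l i) {s z : ℝ} (hs : 0 ≤ s) (hz : 0 ≤ z) :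
    avg (Fn l f) ![s, z, 0] ≤ atoms l f ![s, z, 0] := by
  rcases (add_nonneg hs hz).eq_or_lt with h | h
  · have s0 : s = 0 := by linarith
    have z0 : z = 0 := by linarith
    have e : avg (Fn l f) ![s, z, 0] = 0 := by
      have := avg_smul (l := l) (f := f) (c := 0) (a := 1) (b := 1) (d := 1) le_rfl
      rw [s0, z0]
      simpa using this
    rw [e]
    unfold atoms t1 t2 t3 e1 e2 e3
    simp [s0, z0]
  · set S := s + z with hS
    have hS0 : S ≠ 0 := h.ne'
    have hmu1 : 4 * (s * z) / S ^ 2 ≤ 1 := by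
      rw [div_le_one (by positivity)]
      nlinarith [sq_nonneg (s - z)]
    have key := pi_split (f := f) hl (x := s) (y := z) (z := 0) (x1 := S) (y1 := 0)
      (x2 := S / 2) (y2 := S / 2) (la := 1 - 4 * (s * z) / S ^ 2) (mu := 4 * (s * z) / S ^ 2)
      hs hz le_rfl h.le le_rfl (by positivity) (by positivity) (by linarith) (by positivity)
      (by ring) (by rw [hS]; ring) (by rw [hS]; ring) (by field_simp; ring)
    have a1 : avg (Fn l f) ![S, 0, 0] = S / 3 * avg (Fn l f) ver3 := by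
      have := avg_smul (l := l) (f := f) (c := S / 3) (a := 3) (b := 0) (d := 0) (by positivity)
      rw [ver3, ← this]
      congr 2 <;> simp
    have a2 : avg (Fn l f) ![S / 2, S / 2, 0] = S / 3 * avg (Fn l f) mid3 := by
      have := avg_smul (l := l) (f := f) (c := S / 3) (a := 3 / 2) (b := 3 / 2) (d := 0)
        (by positivity)
      rw [show S / 3 * (3 / 2) = S / 2 by ring, mul_zero] at this
      rw [mid3]
      exact this
    rw [a1, a2] at key
    refine le_trans key (le_of_eq ?_)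
    unfold atoms t1 t2 t3 e1 e2 e3
    show _ = ((s + z + 0) / 3 - 4 / 3 * (s * z + z * 0 + s * 0) / (s + z + 0)
      + 3 * (s * z * 0) / (s + z + 0) ^ 2) * avg (Fn l f) ver3
      + (4 / 3 * (s * z + z * 0 + s * 0) / (s + z + 0)
        - 12 * (s * z * 0) / (s + z + 0) ^ 2) * avg (Fn l f) mid3
      + 9 * (s * z * 0) / (s + z + 0) ^ 2 * Fn l f one3
    rw [show s + z + 0 = S by rw [hS]; ring]
    field_simp
    ring

/-- scalar inequality behind the real atoms -/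
theorem real_scalar {l L m z : ℝ} (hl : 0 < l) (hL : l < L) (hm : 0 ≤ m) (hz : 0 ≤ z)
    (hS : 0 < z + 2 * m) :
    (z + 2 * m) ^ 2 / (m * L + (z - m) * l) ≤ z / l + 4 * m / (L - l) := by
  have h1 : 0 < L - l := by linarith
  have hD : 0 < m * L + (z - m) * l := by
    have e : m * L + (z - m) * l = z * l + m * (L - l) := by ring
    rw [e]
    rcases hz.eq_or_lt with h | h
    · have : 0 < m := by linarith
      have := mul_pos this h1
      nlinarith
    · have a := mul_pos h hl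
      have b := mul_nonneg hm h1.le
      linarith
  rw [div_le_iff₀ hD]
  have e : (z / l + 4 * m / (L - l)) * (m * L + (z - m) * l) - (z + 2 * m) ^ 2
      = z * m * (L - 3 * l) ^ 2 / (l * (L - l)) := by
    rw [div_add_div _ _ hl.ne' h1.ne', div_mul_eq_mul_div, div_sub' (mul_pos hl h1).ne',
      div_eq_div_iff (mul_pos hl h1).ne' (mul_pos hl h1).ne']
    ring
  have : 0 ≤ z * m * (L - 3 * l) ^ 2 / (l * (L - l)) := by positivity
  linarith

theorem Fn_shift {l f w : V3} (hl : ∀ i, 0 ≤ l i) (hw : ∀ i, 0 ≤ w i) (c : ℝ) :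
    Fn l f w = Fn l (fun i => f i - c) w
      + 2 * c * (l 0 * (f 0 - c) * w 0 + l 1 * (f 1 - c) * w 1 + l 2 * (f 2 - c) * w 2)
      + c ^ 2 * (l 0 * w 0 + l 1 * w 1 + l 2 * w 2) := by
  rw [Fn_expand, Fn_expand]
  set D := l 0 * w 0 + l 1 * w 1 + l 2 * w 2 with hD
  show _ = (l 0 * (f 0 - c) * w 0 + l 1 * (f 1 - c) * w 1 + l 2 * (f 2 - c) * w 2) ^ 2 / D
      + 2 * c * (l 0 * (f 0 - c) * w 0 + l 1 * (f 1 - c) * w 1 + l 2 * (f 2 - c) * w 2)
      + c ^ 2 * D
  by_cases h : D = 0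
  · have a := mul_nonneg (hl 0) (hw 0)
    have b := mul_nonneg (hl 1) (hw 1)
    have d := mul_nonneg (hl 2) (hw 2)
    have h0 : l 0 * w 0 = 0 := by linarith
    have h1 : l 1 * w 1 = 0 := by linarith
    have h2 : l 2 * w 2 = 0 := by linarith
    have e : l 0 * (f 0 - c) * w 0 + l 1 * (f 1 - c) * w 1 + l 2 * (f 2 - c) * w 2 = 0 := by
      linear_combination (f 0 - c) * h0 + (f 1 - c) * h1 + (f 2 - c) * h2
    rw [e, h]
    simp
  · have e : l 0 * f 0 * w 0 + l 1 * f 1 * w 1 + l 2 * f 2 * w 2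
        = (l 0 * (f 0 - c) * w 0 + l 1 * (f 1 - c) * w 1 + l 2 * (f 2 - c) * w 2) + c * D := by
      rw [hD]; ring
    rw [e]
    field_simp
    ring

/-- shift of `avg` -/
theorem avg_shift {l f : V3} (hl : ∀ i, 0 ≤ l i) {a b d : ℝ} (ha : 0 ≤ a) (hb : 0 ≤ b)
    (hd : 0 ≤ d) (c : ℝ) :
    avg (Fn l f) ![a, b, d] = avg (Fn l (fun i => f i - c)) ![a, b, d]
      + (2 * c * (l 0 * (f 0 - c) + l 1 * (f 1 - c) + l 2 * (f 2 - c))
      + c ^ 2 * (l 0 + l 1 + l 2)) * ((a + b + d) / 3) := by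
  have nn : ∀ p q r : ℝ, 0 ≤ p → 0 ≤ q → 0 ≤ r → ∀ i, 0 ≤ (![p, q, r] : V3) i := by
    intro p q r hp hq hr i
    fin_cases i
    · exact hp
    · exact hq
    · exact hr
  have e : ∀ p q r : ℝ, 0 ≤ p → 0 ≤ q → 0 ≤ r → Fn l f ![p, q, r]
      = Fn l (fun i => f i - c) ![p, q, r]
      + 2 * c * (l 0 * (f 0 - c) * p + l 1 * (f 1 - c) * q + l 2 * (f 2 - c) * r)
      + c ^ 2 * (l 0 * p + l 1 * q + l 2 * r) := by
    intro p q r hp hq hr
    exact Fn_shift hl (nn p q r hp hq hr) c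
  show (Fn l f ![a, b, d] + Fn l f ![a, d, b] + Fn l f ![b, a, d] + Fn l f ![b, d, a]
      + Fn l f ![d, a, b] + Fn l f ![d, b, a]) / 6
    = (Fn l (fun i => f i - c) ![a, b, d] + Fn l (fun i => f i - c) ![a, d, b]
      + Fn l (fun i => f i - c) ![b, a, d] + Fn l (fun i => f i - c) ![b, d, a]
      + Fn l (fun i => f i - c) ![d, a, b] + Fn l (fun i => f i - c) ![d, b, a]) / 6 + _
  rw [e a b d ha hb hd, e a d b ha hd hb, e b a d hb ha hd, e b d a hb hd ha,
    e d a b hd ha hb, e d b a hd hb ha]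
  ring

theorem Fn_one (l f : V3) : Fn l f one3
    = (l 0 * f 0 + l 1 * f 1 + l 2 * f 2) ^ 2 / (l 0 + l 1 + l 2) := by
  rw [Fn_expand]
  show (l 0 * f 0 * 1 + l 1 * f 1 * 1 + l 2 * f 2 * 1) ^ 2 / (l 0 * 1 + l 1 * 1 + l 2 * 1) = _
  simp only [mul_one]

theorem avg_ver (l f : V3) : avg (Fn l f) ver3
    = (l 0 * f 0) ^ 2 / l 0 + (l 1 * f 1) ^ 2 / l 1 + (l 2 * f 2) ^ 2 / l 2 := by
  have e : ∀ u v : ℝ, (u * 3) ^ 2 / (v * 3) = 3 * (u ^ 2 / v) := by
    intro u v
    rw [show (u * 3) ^ 2 = (3 * u ^ 2) * 3 by ring, mul_div_mul_right _ _ (by norm_num : (3 : ℝ) ≠ 0),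
      mul_div_assoc]
  show (Fn l f ![3, 0, 0] + Fn l f ![3, 0, 0] + Fn l f ![0, 3, 0] + Fn l f ![0, 0, 3]
      + Fn l f ![0, 3, 0] + Fn l f ![0, 0, 3]) / 6 = _
  rw [Fn_expand, Fn_expand, Fn_expand]
  show ((l 0 * f 0 * 3 + l 1 * f 1 * 0 + l 2 * f 2 * 0) ^ 2 / (l 0 * 3 + l 1 * 0 + l 2 * 0)
    + (l 0 * f 0 * 3 + l 1 * f 1 * 0 + l 2 * f 2 * 0) ^ 2 / (l 0 * 3 + l 1 * 0 + l 2 * 0)
    + (l 0 * f 0 * 0 + l 1 * f 1 * 3 + l 2 * f 2 * 0) ^ 2 / (l 0 * 0 + l 1 * 3 + l 2 * 0)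
    + (l 0 * f 0 * 0 + l 1 * f 1 * 0 + l 2 * f 2 * 3) ^ 2 / (l 0 * 0 + l 1 * 0 + l 2 * 3)
    + (l 0 * f 0 * 0 + l 1 * f 1 * 3 + l 2 * f 2 * 0) ^ 2 / (l 0 * 0 + l 1 * 3 + l 2 * 0)
    + (l 0 * f 0 * 0 + l 1 * f 1 * 0 + l 2 * f 2 * 3) ^ 2 / (l 0 * 0 + l 1 * 0 + l 2 * 3)) / 6 = _
  simp only [mul_zero, add_zero, zero_add]
  rw [e, e, e]
  ring

theorem avg_mid (l f : V3) : avg (Fn l f) mid3
    = ((l 0 * f 0 + l 1 * f 1) ^ 2 / (l 0 + l 1) + (l 0 * f 0 + l 2 * f 2) ^ 2 / (l 0 + l 2)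
      + (l 1 * f 1 + l 2 * f 2) ^ 2 / (l 1 + l 2)) / 2 := by
  have e : ∀ u v : ℝ, (u * (3 / 2)) ^ 2 / (v * (3 / 2)) = 3 / 2 * (u ^ 2 / v) := by
    intro u v
    rw [show (u * (3 / 2)) ^ 2 = (3 / 2 * u ^ 2) * (3 / 2) by ring,
      mul_div_mul_right _ _ (by norm_num : (3 / 2 : ℝ) ≠ 0), mul_div_assoc]
  show (Fn l f ![3 / 2, 3 / 2, 0] + Fn l f ![3 / 2, 0, 3 / 2] + Fn l f ![3 / 2, 3 / 2, 0]
      + Fn l f ![3 / 2, 0, 3 / 2]
      + Fn l f ![0, 3 / 2, 3 / 2] + Fn l f ![0, 3 / 2, 3 / 2]) / 6 = _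
  rw [Fn_expand, Fn_expand, Fn_expand]
  show ((l 0 * f 0 * (3 / 2) + l 1 * f 1 * (3 / 2) + l 2 * f 2 * 0) ^ 2
      / (l 0 * (3 / 2) + l 1 * (3 / 2) + l 2 * 0)
    + (l 0 * f 0 * (3 / 2) + l 1 * f 1 * 0 + l 2 * f 2 * (3 / 2)) ^ 2
      / (l 0 * (3 / 2) + l 1 * 0 + l 2 * (3 / 2))
    + (l 0 * f 0 * (3 / 2) + l 1 * f 1 * (3 / 2) + l 2 * f 2 * 0) ^ 2
      / (l 0 * (3 / 2) + l 1 * (3 / 2) + l 2 * 0)
    + (l 0 * f 0 * (3 / 2) + l 1 * f 1 * 0 + l 2 * f 2 * (3 / 2)) ^ 2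
      / (l 0 * (3 / 2) + l 1 * 0 + l 2 * (3 / 2))
    + (l 0 * f 0 * 0 + l 1 * f 1 * (3 / 2) + l 2 * f 2 * (3 / 2)) ^ 2
      / (l 0 * 0 + l 1 * (3 / 2) + l 2 * (3 / 2))
    + (l 0 * f 0 * 0 + l 1 * f 1 * (3 / 2) + l 2 * f 2 * (3 / 2)) ^ 2
      / (l 0 * 0 + l 1 * (3 / 2) + l 2 * (3 / 2))) / 6 = _
  simp only [mul_zero, add_zero, zero_add, ← add_mul]
  rw [e, e, e]
  ring

theorem real_term {u l L m z : ℝ} (hl : 0 ≤ l) (hL : l ≤ L) (hm : 0 ≤ m) (hz : 0 ≤ z)
    (hS : 0 < z + 2 * m) (h0 : l = 0 → u = 0) (h1 : L = l → u = 0) :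
    ((z - m) * u) ^ 2 / (m * L + (z - m) * l) / 3
      ≤ (z - m) ^ 2 * z / (3 * (z + 2 * m) ^ 2) * (u ^ 2 / l)
        + 8 * (z - m) ^ 2 * m / (3 * (z + 2 * m) ^ 2) * (u ^ 2 / (L - l)) / 2 := by
  by_cases hu : u = 0
  · subst hu
    simp
  · have hl' : 0 < l := lt_of_le_of_ne hl (fun h => hu (h0 h.symm))
    have hL' : l < L := lt_of_le_of_ne hL (fun h => hu (h1 h.symm))
    have h2 : 0 < L - l := by linarith
    have key := real_scalar hl' hL' hm hz hS
    have hS2 : 0 < (z + 2 * m) ^ 2 := by positivity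
    have hk : 0 ≤ ((z - m) * u) ^ 2 / (3 * (z + 2 * m) ^ 2) := by positivity
    have := mul_le_mul_of_nonneg_left key hk
    have e1 : ((z - m) * u) ^ 2 / (3 * (z + 2 * m) ^ 2)
        * ((z + 2 * m) ^ 2 / (m * L + (z - m) * l))
        = ((z - m) * u) ^ 2 / (m * L + (z - m) * l) / 3 := by
      rw [div_mul_div_comm, show 3 * (z + 2 * m) ^ 2 * (m * L + (z - m) * l)
        = ((m * L + (z - m) * l) * 3) * (z + 2 * m) ^ 2 by ring,
        mul_div_mul_right _ _ hS2.ne', div_div]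
    have e2 : ((z - m) * u) ^ 2 / (3 * (z + 2 * m) ^ 2) * (z / l + 4 * m / (L - l))
        = (z - m) ^ 2 * z / (3 * (z + 2 * m) ^ 2) * (u ^ 2 / l)
        + 8 * (z - m) ^ 2 * m / (3 * (z + 2 * m) ^ 2) * (u ^ 2 / (L - l)) / 2 := by
      field_simp
      ring
    rw [e1, e2] at this
    exact this

/-- the bound at the real atoms `(m, m, z)` -/
theorem star_real {l f : V3} (hl : ∀ i, 0 ≤ l i) {m z : ℝ} (hm : 0 ≤ m) (hz : 0 ≤ z) :
    avg (Fn l f) ![m, m, z] ≤ atoms l f ![m, m, z] := by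
  have hS0 : 0 ≤ z + 2 * m := by linarith
  rcases hS0.eq_or_lt with h | hS
  · have m0 : m = 0 := by linarith
    have z0 : z = 0 := by linarith
    have e : avg (Fn l f) ![m, m, z] = 0 := by
      have := avg_smul (l := l) (f := f) (c := 0) (a := 1) (b := 1) (d := 1) le_rfl
      rw [m0, z0]
      simpa using this
    rw [e]
    unfold atoms t1 t2 t3 e1 e2 e3
    simp [m0, z0]
  · set L := l 0 + l 1 + l 2 with hL
    have hL0 : 0 ≤ L := add_nonneg (add_nonneg (hl 0) (hl 1)) (hl 2)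
    rcases hL0.eq_or_lt with hLz | hLp
    · have l0 : l 0 = 0 := by have := hl 0; have := hl 1; have := hl 2; linarith
      have l1 : l 1 = 0 := by have := hl 0; have := hl 1; have := hl 2; linarith
      have l2 : l 2 = 0 := by have := hl 0; have := hl 1; have := hl 2; linarith
      have z : ∀ w : V3, Fn l f w = 0 := by
        intro w
        rw [Fn_expand, l0, l1, l2]
        simp
      unfold atoms avg
      simp [z]
    · set c := (l 0 * f 0 + l 1 * f 1 + l 2 * f 2) / L with hc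
      set f' : V3 := fun i => f i - c with hf'
      set u0 := l 0 * f' 0 with hu0
      set u1 := l 1 * f' 1 with hu1
      set u2 := l 2 * f' 2 with hu2
      have hsum : u0 + u1 + u2 = 0 := by
        have : u0 + u1 + u2 = (l 0 * f 0 + l 1 * f 1 + l 2 * f 2) - c * L := by
          rw [hu0, hu1, hu2, hf', hL]; ring
        rw [this, hc, div_mul_cancel₀ _ hLp.ne', sub_self]
      have hsum' : l 0 * (f 0 - c) + l 1 * (f 1 - c) + l 2 * (f 2 - c) = 0 := hsum
      -- the four shifts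
      have sh := avg_shift (f := f) hl hm hm hz c
      have shv : avg (Fn l f) ver3 = avg (Fn l f') ver3 + c ^ 2 * L := by
        have := avg_shift (f := f) hl (a := 3) (b := 0) (d := 0) (by norm_num) le_rfl le_rfl c
        rw [hsum'] at this
        rw [ver3, this]
        ring
      have shm : avg (Fn l f) mid3 = avg (Fn l f') mid3 + c ^ 2 * L := by
        have := avg_shift (f := f) hl (a := 3 / 2) (b := 3 / 2) (d := 0) (by norm_num)
          (by norm_num) le_rfl c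
        rw [hsum'] at this
        rw [mid3, this]
        ring
      have sho : Fn l f one3 = c ^ 2 * L := by
        rw [Fn_one, ← hL]
        have : l 0 * f 0 + l 1 * f 1 + l 2 * f 2 = c * L := by
          rw [hc, div_mul_cancel₀ _ hLp.ne']
        rw [this]
        field_simp
      rw [hsum'] at sh
      have hT : t1 ![m, m, z] + t2 ![m, m, z] + t3 ![m, m, z] = (m + m + z) / 3 := by
        unfold t1 t2 t3 e1 e2 e3
        show (m + m + z) / 3 - 4 / 3 * (m * m + m * z + m * z) / (m + m + z)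
          + 3 * (m * m * z) / (m + m + z) ^ 2
          + (4 / 3 * (m * m + m * z + m * z) / (m + m + z)
          - 12 * (m * m * z) / (m + m + z) ^ 2) + 9 * (m * m * z) / (m + m + z) ^ 2 = _
        ring
      have T1 : t1 ![m, m, z] = (z - m) ^ 2 * z / (3 * (z + 2 * m) ^ 2) := by
        unfold t1 e1 e2 e3
        show (m + m + z) / 3 - 4 / 3 * (m * m + m * z + m * z) / (m + m + z)
          + 3 * (m * m * z) / (m + m + z) ^ 2 = _
        rw [show m + m + z = z + 2 * m by ring]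
        field_simp
        ring
      have T2 : t2 ![m, m, z] = 8 * (z - m) ^ 2 * m / (3 * (z + 2 * m) ^ 2) := by
        unfold t2 e1 e2 e3
        show 4 / 3 * (m * m + m * z + m * z) / (m + m + z)
          - 12 * (m * m * z) / (m + m + z) ^ 2 = _
        rw [show m + m + z = z + 2 * m by ring]
        field_simp
        ring
      have main : avg (Fn l f') ![m, m, z]
          ≤ t1 ![m, m, z] * avg (Fn l f') ver3 + t2 ![m, m, z] * avg (Fn l f') mid3 := by
        rw [T1, T2, avg_ver, avg_mid]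
        have r0 := real_term (u := u0) (l := l 0) (L := L) (m := m) (z := z) (hl 0)
          (by have := hl 1; have := hl 2; linarith) hm hz hS
          (fun h => by rw [hu0, h, zero_mul])
          (fun h => by
            have a1 : l 1 = 0 := by have := hl 1; have := hl 2; linarith
            have a2 : l 2 = 0 := by have := hl 1; have := hl 2; linarith
            have b1 : u1 = 0 := by rw [hu1, a1, zero_mul]
            have b2 : u2 = 0 := by rw [hu2, a2, zero_mul]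
            linarith)
        have r1 := real_term (u := u1) (l := l 1) (L := L) (m := m) (z := z) (hl 1)
          (by have := hl 0; have := hl 2; linarith) hm hz hS
          (fun h => by rw [hu1, h, zero_mul])
          (fun h => by
            have a1 : l 0 = 0 := by have := hl 0; have := hl 2; linarith
            have a2 : l 2 = 0 := by have := hl 0; have := hl 2; linarith
            have b1 : u0 = 0 := by rw [hu0, a1, zero_mul]
            have b2 : u2 = 0 := by rw [hu2, a2, zero_mul]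
            linarith)
        have r2 := real_term (u := u2) (l := l 2) (L := L) (m := m) (z := z) (hl 2)
          (by have := hl 0; have := hl 1; linarith) hm hz hS
          (fun h => by rw [hu2, h, zero_mul])
          (fun h => by
            have a1 : l 0 = 0 := by have := hl 0; have := hl 1; linarith
            have a2 : l 1 = 0 := by have := hl 0; have := hl 1; linarith
            have b1 : u0 = 0 := by rw [hu0, a1, zero_mul]
            have b2 : u1 = 0 := by rw [hu1, a2, zero_mul]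
            linarith)
        have lhs : avg (Fn l f') ![m, m, z]
            = ((z - m) * u0) ^ 2 / (m * L + (z - m) * l 0) / 3
            + ((z - m) * u1) ^ 2 / (m * L + (z - m) * l 1) / 3
            + ((z - m) * u2) ^ 2 / (m * L + (z - m) * l 2) / 3 := by
          show (Fn l f' ![m, m, z] + Fn l f' ![m, z, m] + Fn l f' ![m, m, z] + Fn l f' ![m, z, m]
            + Fn l f' ![z, m, m] + Fn l f' ![z, m, m]) / 6 = _
          rw [Fn_expand, Fn_expand, Fn_expand]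
          show ((u0 * m + u1 * m + u2 * z) ^ 2 / (l 0 * m + l 1 * m + l 2 * z)
            + (u0 * m + u1 * z + u2 * m) ^ 2 / (l 0 * m + l 1 * z + l 2 * m)
            + (u0 * m + u1 * m + u2 * z) ^ 2 / (l 0 * m + l 1 * m + l 2 * z)
            + (u0 * m + u1 * z + u2 * m) ^ 2 / (l 0 * m + l 1 * z + l 2 * m)
            + (u0 * z + u1 * m + u2 * m) ^ 2 / (l 0 * z + l 1 * m + l 2 * m)
            + (u0 * z + u1 * m + u2 * m) ^ 2 / (l 0 * z + l 1 * m + l 2 * m)) / 6 = _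
          have a0 : u0 * z + u1 * m + u2 * m = (z - m) * u0 := by
            linear_combination m * hsum
          have a1 : u0 * m + u1 * z + u2 * m = (z - m) * u1 := by
            linear_combination m * hsum
          have a2 : u0 * m + u1 * m + u2 * z = (z - m) * u2 := by
            linear_combination m * hsum
          have b0 : l 0 * z + l 1 * m + l 2 * m = m * L + (z - m) * l 0 := by rw [hL]; ring
          have b1 : l 0 * m + l 1 * z + l 2 * m = m * L + (z - m) * l 1 := by rw [hL]; ring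
          have b2 : l 0 * m + l 1 * m + l 2 * z = m * L + (z - m) * l 2 := by rw [hL]; ring
          rw [a0, a1, a2, b0, b1, b2]
          ring
        have c01 : (l 0 * f' 0 + l 1 * f' 1) ^ 2 / (l 0 + l 1) = u2 ^ 2 / (L - l 2) := by
          have x1 : l 0 * f' 0 + l 1 * f' 1 = - u2 := by
            show u0 + u1 = - u2; linarith
          have x2 : l 0 + l 1 = L - l 2 := by rw [hL]; ring
          rw [x1, x2, neg_sq]
        have c02 : (l 0 * f' 0 + l 2 * f' 2) ^ 2 / (l 0 + l 2) = u1 ^ 2 / (L - l 1) := by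
          have x1 : l 0 * f' 0 + l 2 * f' 2 = - u1 := by
            show u0 + u2 = - u1; linarith
          have x2 : l 0 + l 2 = L - l 1 := by rw [hL]; ring
          rw [x1, x2, neg_sq]
        have c12 : (l 1 * f' 1 + l 2 * f' 2) ^ 2 / (l 1 + l 2) = u0 ^ 2 / (L - l 0) := by
          have x1 : l 1 * f' 1 + l 2 * f' 2 = - u0 := by
            show u1 + u2 = - u0; linarith
          have x2 : l 1 + l 2 = L - l 0 := by rw [hL]; ring
          rw [x1, x2, neg_sq]
        rw [lhs, c01, c02, c12]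
        show _ ≤ _ * (u0 ^ 2 / l 0 + u1 ^ 2 / l 1 + u2 ^ 2 / l 2) + _
        linarith
      unfold atoms
      rw [sh, shv, shm, sho]
      have : (2 * c * 0 + c ^ 2 * (l 0 + l 1 + l 2)) * ((m + m + z) / 3)
          = (t1 ![m, m, z] + t2 ![m, m, z] + t3 ![m, m, z]) * (c ^ 2 * L) := by
        rw [hT, hL]; ring
      rw [this]
      linarith

/-- `atoms` is affine in `x y` with `x + y` and `z` fixed -/
theorem atoms_affine (l f : V3) {x y z x1 y1 x2 y2 la mu : ℝ} (hs : la + mu = 1)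
    (s1 : x1 + y1 = x + y) (s2 : x2 + y2 = x + y)
    (hp : x * y = la * (x1 * y1) + mu * (x2 * y2)) :
    atoms l f ![x, y, z] = la * atoms l f ![x1, y1, z] + mu * atoms l f ![x2, y2, z] := by
  unfold atoms t1 t2 t3 e1 e2 e3
  show ((x + y + z) / 3 - 4 / 3 * (x * y + y * z + x * z) / (x + y + z)
      + 3 * (x * y * z) / (x + y + z) ^ 2) * avg (Fn l f) ver3
      + (4 / 3 * (x * y + y * z + x * z) / (x + y + z)
        - 12 * (x * y * z) / (x + y + z) ^ 2) * avg (Fn l f) mid3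
      + 9 * (x * y * z) / (x + y + z) ^ 2 * Fn l f one3
    = la * (((x1 + y1 + z) / 3 - 4 / 3 * (x1 * y1 + y1 * z + x1 * z) / (x1 + y1 + z)
      + 3 * (x1 * y1 * z) / (x1 + y1 + z) ^ 2) * avg (Fn l f) ver3
      + (4 / 3 * (x1 * y1 + y1 * z + x1 * z) / (x1 + y1 + z)
        - 12 * (x1 * y1 * z) / (x1 + y1 + z) ^ 2) * avg (Fn l f) mid3
      + 9 * (x1 * y1 * z) / (x1 + y1 + z) ^ 2 * Fn l f one3)
    + mu * (((x2 + y2 + z) / 3 - 4 / 3 * (x2 * y2 + y2 * z + x2 * z) / (x2 + y2 + z)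
      + 3 * (x2 * y2 * z) / (x2 + y2 + z) ^ 2) * avg (Fn l f) ver3
      + (4 / 3 * (x2 * y2 + y2 * z + x2 * z) / (x2 + y2 + z)
        - 12 * (x2 * y2 * z) / (x2 + y2 + z) ^ 2) * avg (Fn l f) mid3
      + 9 * (x2 * y2 * z) / (x2 + y2 + z) ^ 2 * Fn l f one3)
  have a1 : x1 * y1 + y1 * z + x1 * z = x1 * y1 + (x + y) * z := by rw [← s1]; ring
  have a2 : x2 * y2 + y2 * z + x2 * z = x2 * y2 + (x + y) * z := by rw [← s2]; ring
  have a0 : x * y + y * z + x * z = x * y + (x + y) * z := by ring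
  rw [a0, a1, a2, s1, s2, hp]
  have hm : mu = 1 - la := by linarith
  rw [hm]
  ring

/-- **The collapse inequality**. -/
theorem star {l f : V3} (hl : ∀ i, 0 ≤ l i) {x y z : ℝ} (hx : 0 ≤ x) (hy : 0 ≤ y) (hz : 0 ≤ z) :
    avg (Fn l f) ![x, y, z] ≤ atoms l f ![x, y, z] := by
  rcases (add_nonneg hx hy).eq_or_lt with h | h
  · have x0 : x = 0 := by linarith
    have y0 : y = 0 := by linarith
    rw [x0, y0]
    have := star_real (f := f) hl (m := 0) (z := z) le_rfl hz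
    exact this
  · set s := x + y with hs
    have hs0 : s ≠ 0 := h.ne'
    have hmu1 : 4 * (x * y) / s ^ 2 ≤ 1 := by
      rw [div_le_one (by positivity)]
      nlinarith [sq_nonneg (x - y)]
    have hp : x * y = (1 - 4 * (x * y) / s ^ 2) * (s * 0) + 4 * (x * y) / s ^ 2 * (s / 2 * (s / 2)) := by
      field_simp
      ring
    have key := pi_split (f := f) hl (x := x) (y := y) (z := z) (x1 := s) (y1 := 0)
      (x2 := s / 2) (y2 := s / 2) (la := 1 - 4 * (x * y) / s ^ 2) (mu := 4 * (x * y) / s ^ 2)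
      hx hy hz h.le le_rfl (by positivity) (by positivity) (by linarith) (by positivity)
      (by ring) (by rw [hs]; ring) (by rw [hs]; ring) hp
    have aff := atoms_affine l f (x := x) (y := y) (z := z) (x1 := s) (y1 := 0)
      (x2 := s / 2) (y2 := s / 2) (la := 1 - 4 * (x * y) / s ^ 2) (mu := 4 * (x * y) / s ^ 2)
      (by ring) (by rw [hs]; ring) (by rw [hs]; ring) hp
    have E : avg (Fn l f) ![s, 0, z] ≤ atoms l f ![s, 0, z] := by
      have := star_edge (f := f) hl h.le hz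
      have p := (avg_perm (Fn l f) s 0 z).2
      have q : atoms l f ![s, z, 0] = atoms l f ![s, 0, z] := by
        unfold atoms t1 t2 t3 e1 e2 e3
        show ((s + z + 0) / 3 - 4 / 3 * (s * z + z * 0 + s * 0) / (s + z + 0)
          + 3 * (s * z * 0) / (s + z + 0) ^ 2) * avg (Fn l f) ver3
          + (4 / 3 * (s * z + z * 0 + s * 0) / (s + z + 0)
            - 12 * (s * z * 0) / (s + z + 0) ^ 2) * avg (Fn l f) mid3
          + 9 * (s * z * 0) / (s + z + 0) ^ 2 * Fn l f one3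
          = ((s + 0 + z) / 3 - 4 / 3 * (s * 0 + 0 * z + s * z) / (s + 0 + z)
          + 3 * (s * 0 * z) / (s + 0 + z) ^ 2) * avg (Fn l f) ver3
          + (4 / 3 * (s * 0 + 0 * z + s * z) / (s + 0 + z)
            - 12 * (s * 0 * z) / (s + 0 + z) ^ 2) * avg (Fn l f) mid3
          + 9 * (s * 0 * z) / (s + 0 + z) ^ 2 * Fn l f one3
        rw [show s + z + 0 = s + 0 + z by ring]
        ring
      rw [p, ← q]
      exact this
    have R := star_real (f := f) hl (m := s / 2) (z := z) (by positivity) hz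
    rw [aff]
    have b1 : 0 ≤ 1 - 4 * (x * y) / s ^ 2 := by linarith
    have b2 : 0 ≤ 4 * (x * y) / s ^ 2 := by positivity
    have c1 := mul_le_mul_of_nonneg_left E b1
    have c2 := mul_le_mul_of_nonneg_left R b2
    linarith

end Vale.Agent.P154.LN
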