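import Vale.Agent.Lib.P154.LN.FourSem

/-!
# Soundness of the packed bilinear maps
-/

open scoped BigOperators

namespace Vale.Agent.P154.LN.Four

/-- weighted sum over a list -/
def lsum {α R : Type} [Semiring R] (F : α → R) : List α → List ℕ → R
  | u :: us, w :: ws => (w : R) * F u + lsum F us ws
  | _, _ => 0

theorem lsum_nil_right {α R : Type} [Semiring R] (F : α → R) (us : List α) :
    lsum F us [] = 0 := by
  cases us <;> rfl

theorem lsum_congr {α R : Type} [Semiring R] {F G : α → R} (us : List α) (ws : List ℕ)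
    (h : ∀ u ∈ us, F u = G u) : lsum F us ws = lsum G us ws := by
  induction us generalizing ws with
  | nil => rfl
  | cons u us ih =>
    cases ws with
    | nil => rfl
    | cons w ws =>
      show (w : R) * F u + lsum F us ws = (w : R) * G u + lsum G us ws
      rw [h u (by simp), ih ws (fun v hv => h v (by simp [hv]))]

theorem lsum_finsum {α R : Type} [CommSemiring R] (J : ℕ) (r : α → ℕ → R) (b : ℕ → R)
    (us : List α) (ws : List ℕ) :
    lsum (fun u => ∑ k ∈ Finset.range J, r u k * b k) us ws
      = ∑ k ∈ Finset.range J, lsum (fun u => r u k) us ws * b k := by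
  induction us generalizing ws with
  | nil => simp [lsum]
  | cons u us ih =>
    cases ws with
    | nil => simp [lsum]
    | cons w ws =>
      simp only [lsum]
      rw [ih ws, Finset.mul_sum, ← Finset.sum_add_distrib]
      refine Finset.sum_congr rfl (fun k _ => ?_)
      ring

theorem lsum_cast {α : Type} (F : α → ℕ) (us : List α) (ws : List ℕ) :
    ((lsum F us ws : ℕ) : ℝ) = lsum (fun u => (F u : ℝ)) us ws := by
  induction us generalizing ws with
  | nil => simp [lsum]
  | cons u us ih =>
    cases ws with
    | nil => simp [lsum]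
    | cons w ws =>
      simp only [lsum]
      push_cast
      rw [ih ws]

theorem lsum_mono {α : Type} {F G : α → ℝ} (us : List α) (ws : List ℕ)
    (h : ∀ u ∈ us, F u ≤ G u) : lsum F us ws ≤ lsum G us ws := by
  induction us generalizing ws with
  | nil => exact le_rfl
  | cons u us ih =>
    cases ws with
    | nil => exact le_rfl
    | cons w ws =>
      show (w : ℝ) * F u + lsum F us ws ≤ (w : ℝ) * G u + lsum G us ws
      exact add_le_add (mul_le_mul_of_nonneg_left (h u (by simp)) (Nat.cast_nonneg _))
        (ih ws (fun v hv => h v (by simp [hv])))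

theorem lsum_le {α : Type} {F : α → ℕ} {c : ℕ} (us : List α) (ws : List ℕ)
    (h : ∀ u, F u ≤ c) : lsum F us ws ≤ sm ws * c := by
  induction us generalizing ws with
  | nil => exact Nat.zero_le _
  | cons u us ih =>
    cases ws with
    | nil => exact Nat.zero_le _
    | cons w ws =>
      show w * F u + lsum F us ws ≤ (w + sm ws) * c
      rw [add_mul]
      exact add_le_add (Nat.mul_le_mul_left _ (h u)) (ih ws)

theorem lsum_mul_left {α : Type} (c : ℝ) (F : α → ℝ) (us : List α) (ws : List ℕ) :
    lsum (fun u => c * F u) us ws = c * lsum F us ws := by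
  induction us generalizing ws with
  | nil => simp [lsum]
  | cons u us ih =>
    cases ws with
    | nil => simp [lsum]
    | cons w ws =>
      simp only [lsum]
      rw [ih ws]; ring

theorem lsum_sub {α : Type} (F G : α → ℝ) (us : List α) (ws : List ℕ) :
    lsum (fun u => F u - G u) us ws = lsum F us ws - lsum G us ws := by
  induction us generalizing ws with
  | nil => simp [lsum]
  | cons u us ih =>
    cases ws with
    | nil => simp [lsum]
    | cons w ws =>
      simp only [lsum]
      rw [ih ws]; ring

theorem lsum_const {α : Type} (c : ℝ) (us : List α) (ws : List ℕ) (hl : us.length = ws.length) :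
    lsum (fun _ => c) us ws = (sm ws : ℕ) * c := by
  induction us generalizing ws with
  | nil =>
    cases ws with
    | nil => simp [lsum, sm]
    | cons w ws => simp at hl
  | cons u us ih =>
    cases ws with
    | nil => simp at hl
    | cons w ws =>
      simp only [lsum]
      rw [ih ws (by simpa using hl)]
      have : sm (w :: ws) = w + sm ws := rfl
      rw [this]; push_cast; ring

/-! ### packed rows -/

/-- the vector of an output list -/
def vec : List (ℕ × ℕ) → ℕ → ℕ
  | [], _ => 0
  | p :: l, k => (if p.1 = k then p.2 else 0) + vec l k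

theorem vec_le (l : List (ℕ × ℕ)) (k : ℕ) : vec l k ≤ wsum l := by
  induction l with
  | nil => exact Nat.zero_le _
  | cons p l ih =>
    show (if p.1 = k then p.2 else 0) + vec l k ≤ p.2 + wsum l
    refine add_le_add ?_ ih
    split
    · exact le_rfl
    · exact Nat.zero_le _

theorem pk_eq (B J : ℕ) (l : List (ℕ × ℕ)) (h : idxLt J l = true) :
    pk B l = ∑ k ∈ Finset.range J, vec l k * B ^ k := by
  induction l with
  | nil => simp [pk, vec]
  | cons p l ih =>
    have h' : Nat.blt p.1 J = true ∧ idxLt J l = true := by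
      simpa [idxLt, Bool.and_eq_true] using h
    have hlt : p.1 < J := by simpa [Nat.blt_eq] using h'.1
    show p.2 * B ^ p.1 + pk B l = ∑ k ∈ Finset.range J, ((if p.1 = k then p.2 else 0) + vec l k) * B ^ k
    rw [ih h'.2]
    simp only [add_mul, Finset.sum_add_distrib, ite_mul, zero_mul]
    rw [Finset.sum_ite_eq]
    simp [hlt]

theorem val_eq (D : ℝ → ℝ → ℝ → ℝ) (nodes : List Tr) (J : ℕ) (l : List (ℕ × ℕ))
    (h : idxLt J l = true) :
    val D nodes l = ∑ k ∈ Finset.range J, (vec l k : ℝ) * dn D nodes k := by
  induction l with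
  | nil => simp [val, vec]
  | cons p l ih =>
    have h' : Nat.blt p.1 J = true ∧ idxLt J l = true := by
      simpa [idxLt, Bool.and_eq_true] using h
    have hlt : p.1 < J := by simpa [Nat.blt_eq] using h'.1
    have e : ∀ k, ((vec (p :: l) k : ℕ) : ℝ) = (if p.1 = k then (p.2 : ℝ) else 0) + vec l k := by
      intro k
      show (((if p.1 = k then p.2 else 0) + vec l k : ℕ) : ℝ) = _
      push_cast
      rfl
    simp only [e]
    simp only [val]
    rw [ih h'.2]
    simp only [add_mul, Finset.sum_add_distrib, ite_mul, zero_mul]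
    rw [Finset.sum_ite_eq]
    simp [hlt]

theorem rowL_idx (G : Grid) (S J : ℕ) (u v : Tr) (den : ℕ) :
    idxLt J (rowL G S J u v den) = true := by
  unfold rowL
  cases h : (Nat.ble (wsum (row6 G u v S den)) S && idxLt J (row6 G u v S den))
  · rfl
  · rw [cond_true]
    rw [Bool.and_eq_true] at h
    exact h.2

theorem rowL_mass (G : Grid) (S J : ℕ) (u v : Tr) (den : ℕ) :
    wsum (rowL G S J u v den) ≤ S := by
  unfold rowL
  cases h : (Nat.ble (wsum (row6 G u v S den)) S && idxLt J (row6 G u v S den))
  · exact Nat.zero_le _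
  · rw [cond_true]
    rw [Bool.and_eq_true] at h
    exact Nat.le_of_ble_eq_true h.1

/-! ### the bilinear form -/

theorem dot_map (P : Tr → ℕ) (vs : List Tr) (ws : List ℕ) :
    dot (vs.map P) ws = lsum P vs ws := by
  induction vs generalizing ws with
  | nil => rfl
  | cons v vs ih =>
    cases ws with
    | nil => rfl
    | cons w ws =>
      show P v * w + dot (vs.map P) ws = w * P v + lsum P vs ws
      rw [ih ws, mul_comm]

theorem bil_map (P : Tr → Tr → ℕ) (us vs : List Tr) (ws ws' : List ℕ) :
    bil (us.map (fun u => vs.map (P u))) ws ws' = lsum (fun u => lsum (P u) vs ws') us ws := by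
  induction us generalizing ws with
  | nil => rfl
  | cons u us ih =>
    cases ws with
    | nil => rfl
    | cons w ws =>
      show w * dot (vs.map (P u)) ws' + bil (us.map (fun u => vs.map (P u))) ws ws'
        = w * lsum (P u) vs ws' + lsum (fun u => lsum (P u) vs ws') us ws
      rw [ih ws, dot_map]

/-- coefficients of the bilinear map -/
def Zc (G : Grid) (S J : ℕ) (us vs : List Tr) (den : ℕ) (ws ws' : List ℕ) (k : ℕ) : ℕ :=
  lsum (fun u => lsum (fun v => vec (rowL G S J u v den) k) vs ws') us ws

theorem bil_table (G : Grid) (S J B : ℕ) (us vs : List Tr) (den : ℕ) (ws ws' : List ℕ) :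
    bil (table G S J B us vs den) ws ws'
      = ∑ k ∈ Finset.range J, Zc G S J us vs den ws ws' k * B ^ k := by
  unfold table Zc
  rw [bil_map (fun u v => pk B (rowL G S J u v den))]
  rw [← lsum_finsum]
  refine lsum_congr _ _ (fun u _ => ?_)
  rw [← lsum_finsum]
  refine lsum_congr _ _ (fun v _ => ?_)
  exact pk_eq B J _ (rowL_idx G S J u v den)

theorem Zc_le (G : Grid) (S J : ℕ) (us vs : List Tr) (den : ℕ) (ws ws' : List ℕ) (k : ℕ) :
    Zc G S J us vs den ws ws' k ≤ sm ws * (sm ws' * S) := by
  unfold Zc
  refine lsum_le _ _ (fun u => ?_)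
  refine lsum_le _ _ (fun v => ?_)
  exact (vec_le _ _).trans (rowL_mass G S J u v den)

theorem Zc_val {D : ℝ → ℝ → ℝ → ℝ} {G : Grid} (S J : ℕ) (us vs : List Tr) (den : ℕ)
    (ws ws' : List ℕ) :
    ∑ k ∈ Finset.range J, (Zc G S J us vs den ws ws' k : ℝ) * dn D G.nodes k
      = lsum (fun u => lsum (fun v => val D G.nodes (rowL G S J u v den)) vs ws') us ws := by
  unfold Zc
  have e : ∀ k, ((lsum (fun u => lsum (fun v => vec (rowL G S J u v den) k) vs ws') us ws : ℕ) : ℝ)
      = lsum (fun u => lsum (fun v => (vec (rowL G S J u v den) k : ℝ)) vs ws') us ws := by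
    intro k
    rw [lsum_cast]
    refine lsum_congr _ _ (fun u _ => ?_)
    rw [lsum_cast]
  simp only [e]
  rw [← lsum_finsum]
  refine lsum_congr _ _ (fun u _ => ?_)
  rw [← lsum_finsum]
  refine lsum_congr _ _ (fun v _ => ?_)
  exact (val_eq D G.nodes J _ (rowL_idx G S J u v den)).symm

/-! ### digit extraction -/

theorem dig_sound {F : Tr → ℝ} (hF : ∀ u, 0 ≤ F u) {B C : ℕ} (Ks : List Tr) (ws : List ℕ)
    (z : ℕ → ℕ) (hz : ∀ k, z k < B) (N : ℕ)
    (hN : N = ∑ k ∈ Finset.range Ks.length, z k * B ^ k) (h : digLe B C N ws = true) :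
    (C : ℝ) * lsum F Ks ws
      ≤ ∑ k ∈ Finset.range Ks.length, (z k : ℝ) * F (Ks.getD k (0, 0, 0)) := by
  induction Ks generalizing ws z N with
  | nil => simp [lsum]
  | cons K Ks ih =>
    cases ws with
    | nil =>
      rw [lsum_nil_right, mul_zero]
      exact Finset.sum_nonneg (fun k _ => mul_nonneg (Nat.cast_nonneg _) (hF _))
    | cons w ws =>
      have h' : Nat.ble (w * C) (N % B) = true ∧ digLe B C (N / B) ws = true := by
        have : (Nat.ble (Nat.mul w C) (Nat.mod N B) &&
          frc (Nat.div N B) fun N' => digLe B C N' ws) = true := h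
        rw [frc_eq, Bool.and_eq_true] at this
        exact this
      have B0 : 0 < B := lt_of_le_of_lt (Nat.zero_le _) (hz 0)
      have hN' : N = z 0 + B * ∑ k ∈ Finset.range Ks.length, z (k + 1) * B ^ k := by
        rw [hN, List.length_cons, Finset.sum_range_succ', Finset.mul_sum, add_comm]
        simp only [pow_zero, mul_one]
        congr 1
        refine Finset.sum_congr rfl (fun k _ => ?_)
        rw [pow_succ]; ring
      have hmod : N % B = z 0 := by
        rw [hN', Nat.add_mul_mod_self_left, Nat.mod_eq_of_lt (hz 0)]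
      have hdiv : N / B = ∑ k ∈ Finset.range Ks.length, z (k + 1) * B ^ k := by
        rw [hN', Nat.add_mul_div_left _ _ B0, Nat.div_eq_of_lt (hz 0), zero_add]
      have IH := ih ws (fun k => z (k + 1)) (fun k => hz _) (N / B) hdiv h'.2
      have hw : (w : ℝ) * C ≤ z 0 := by
        have := Nat.le_of_ble_eq_true h'.1
        rw [hmod] at this
        exact_mod_cast this
      rw [List.length_cons, Finset.sum_range_succ']
      simp only [lsum, List.getD_cons_succ, List.getD_cons_zero]
      have := mul_le_mul_of_nonneg_right hw (hF K)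
      linarith

theorem okW_sound {F : Tr → ℝ} (hF : ∀ u, 0 ≤ F u) {S B C J : ℕ} {K : Tr} {Ks : List Tr}
    (hK : F K = 0) (hJ : (K :: Ks).length = J) (W : List ℕ)
    (z : ℕ → ℕ) (hz : ∀ k, z k < B) {N : ℕ}
    (hN : N = ∑ k ∈ Finset.range J, z k * B ^ k) (h : okW S B C J N W = true) :
    (C : ℝ) * lsum F (K :: Ks) W
      ≤ ∑ k ∈ Finset.range J, (z k : ℝ) * F ((K :: Ks).getD k (0, 0, 0)) := by
  cases W with
  | nil => simp [okW] at h
  | cons w ws =>
    have h' : Nat.beq (Nat.add w (sm ws)) S = true ∧ Nat.beq (Nat.succ ws.length) J = true ∧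
        digLe B C (N / B) ws = true := by
      have : (Nat.beq (Nat.add w (sm ws)) S && (Nat.beq (Nat.succ ws.length) J &&
        frc N fun N => digLe B C (Nat.div N B) ws)) = true := h
      rw [frc_eq, Bool.and_eq_true, Bool.and_eq_true] at this
      exact this
    have B0 : 0 < B := lt_of_le_of_lt (Nat.zero_le _) (hz 0)
    rw [← hJ, List.length_cons] at hN ⊢
    have hN' : N = z 0 + B * ∑ k ∈ Finset.range Ks.length, z (k + 1) * B ^ k := by
      rw [hN, Finset.sum_range_succ', Finset.mul_sum, add_comm]
      simp only [pow_zero, mul_one]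
      congr 1
      refine Finset.sum_congr rfl (fun k _ => ?_)
      rw [pow_succ]; ring
    have hdiv : N / B = ∑ k ∈ Finset.range Ks.length, z (k + 1) * B ^ k := by
      rw [hN', Nat.add_mul_div_left _ _ B0, Nat.div_eq_of_lt (hz 0), zero_add]
    have IH := dig_sound hF Ks ws (fun k => z (k + 1)) (fun k => hz _) (N / B) hdiv h'.2.2
    rw [Finset.sum_range_succ']
    simp only [lsum, List.getD_cons_succ, List.getD_cons_zero, hK, mul_zero, zero_add, add_zero]
    exact IH

theorem okW_mass {S B C J N : ℕ} {W : List ℕ} (h : okW S B C J N W = true) :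
    sm W = S ∧ W.length = J := by
  cases W with
  | nil => simp [okW] at h
  | cons w ws =>
    have : (Nat.beq (Nat.add w (sm ws)) S && (Nat.beq (Nat.succ ws.length) J &&
        frc N fun N => digLe B C (Nat.div N B) ws)) = true := h
    rw [Bool.and_eq_true, Bool.and_eq_true] at this
    exact ⟨Nat.eq_of_beq_eq_true this.1, Nat.eq_of_beq_eq_true this.2.1⟩

end Vale.Agent.P154.LN.Four
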