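import Vale.Agent.Lib.P154.LN.FourLaw

/-!
# Chains of certified levels
-/

open scoped BigOperators

namespace Vale.Agent.P154.LN.Four

/-- integer message vector -/
def mt (p q N0 : ℕ) (u : Tr) : Tr :=
  (Nat.sub (Nat.mul p N0) (Nat.mul q u.1), Nat.sub (Nat.mul p N0) (Nat.mul q u.2.1),
    Nat.sub (Nat.mul p N0) (Nat.mul q u.2.2))

/-- all the parameters of a certified computation -/
structure Setup (G : Grid) (S B C J p q r : ℕ) (H Ks : List Tr) : Prop where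
  hG : G.Ok
  hN : 0 < G.N0
  hS : 0 < S
  hr : 0 < r
  hp : 3 * p = 3 * r + q
  hqp : q ≤ p
  hH : H = G.nodes.map (mt p q G.N0)
  hn : ∀ u ∈ G.nodes, u.1 + u.2.1 + u.2.2 = G.N0
  hK : G.nodes = (G.N0, 0, 0) :: Ks
  hJ : G.nodes.length = J
  hB : S * (S * S) < B
  hC : C = S * S

variable {G : Grid} {S B C J p q r : ℕ} {H Ks : List Tr}

theorem mt_sum {p q r N0 : ℕ} (hp : 3 * p = 3 * r + q) (hqp : q ≤ p) {u : Tr}
    (hu : u.1 + u.2.1 + u.2.2 = N0) :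
    (mt p q N0 u).1 + (mt p q N0 u).2.1 + (mt p q N0 u).2.2 = 3 * r * N0 := by
  have h1 : q * u.1 ≤ p * N0 := Nat.mul_le_mul hqp (by omega)
  have h2 : q * u.2.1 ≤ p * N0 := Nat.mul_le_mul hqp (by omega)
  have h3 : q * u.2.2 ≤ p * N0 := Nat.mul_le_mul hqp (by omega)
  show (p * N0 - q * u.1) + (p * N0 - q * u.2.1) + (p * N0 - q * u.2.2) = 3 * r * N0
  have e : q * u.1 + q * u.2.1 + q * u.2.2 = q * N0 := by rw [← hu]; ring
  have e' : 3 * (p * N0) = 3 * r * N0 + q * N0 := by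
    calc 3 * (p * N0) = (3 * p) * N0 := by ring
      _ = (3 * r + q) * N0 := by rw [hp]
      _ = _ := by ring
  omega

theorem edge_vr {p q r N0 : ℕ} (hr : 0 < r) (hN : 0 < N0) (hp : 3 * p = 3 * r + q) (hqp : q ≤ p)
    {u : Tr} (hu : u.1 + u.2.1 + u.2.2 = N0) :
    smooth (-((q : ℝ) / (3 * r))) (vr (3 / N0) u) = vr (3 / ((3 * r * N0 : ℕ) : ℝ)) (mt p q N0 u) := by
  have h1 : q * u.1 ≤ p * N0 := Nat.mul_le_mul hqp (by omega)
  have h2 : q * u.2.1 ≤ p * N0 := Nat.mul_le_mul hqp (by omega)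
  have h3 : q * u.2.2 ≤ p * N0 := Nat.mul_le_mul hqp (by omega)
  have c1 : (((mt p q N0 u).1 : ℕ) : ℝ) = p * N0 - q * u.1 := by
    show ((p * N0 - q * u.1 : ℕ) : ℝ) = _
    rw [Nat.cast_sub h1]; push_cast; ring
  have c2 : (((mt p q N0 u).2.1 : ℕ) : ℝ) = p * N0 - q * u.2.1 := by
    show ((p * N0 - q * u.2.1 : ℕ) : ℝ) = _
    rw [Nat.cast_sub h2]; push_cast; ring
  have c3 : (((mt p q N0 u).2.2 : ℕ) : ℝ) = p * N0 - q * u.2.2 := by
    show ((p * N0 - q * u.2.2 : ℕ) : ℝ) = _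
    rw [Nat.cast_sub h3]; push_cast; ring
  have hu' : (u.1 : ℝ) + u.2.1 + u.2.2 = N0 := by exact_mod_cast hu
  have hr' : (0 : ℝ) < r := by exact_mod_cast hr
  have hN' : (0 : ℝ) < N0 := by exact_mod_cast hN
  have hp' : (p : ℝ) = r + q / 3 := by
    have : 3 * (p : ℝ) = 3 * r + q := by exact_mod_cast hp
    linarith
  have hs : ∑ j, vr (3 / N0) u j = 3 := by
    rw [Fin.sum_univ_three]
    show 3 / (N0 : ℝ) * u.1 + 3 / (N0 : ℝ) * u.2.1 + 3 / (N0 : ℝ) * u.2.2 = 3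
    rw [← mul_add, ← mul_add, hu']
    field_simp
  have key : ∀ a : ℝ, -((q : ℝ) / (3 * r)) * (3 / N0 * a) + (1 - -((q : ℝ) / (3 * r))) / ((3 : ℕ) : ℝ) * 3
      = 3 / ((3 * r * N0 : ℕ) : ℝ) * (p * N0 - q * a) := by
    intro a
    rw [hp']
    push_cast
    field_simp
    ring
  funext i
  unfold smooth
  rw [hs]
  fin_cases i
  · show -((q : ℝ) / (3 * r)) * (3 / N0 * u.1) + (1 - -((q : ℝ) / (3 * r))) / ((3 : ℕ) : ℝ) * 3
      = 3 / ((3 * r * N0 : ℕ) : ℝ) * (((mt p q N0 u).1 : ℕ) : ℝ)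
    rw [c1]; exact key _
  · show -((q : ℝ) / (3 * r)) * (3 / N0 * u.2.1) + (1 - -((q : ℝ) / (3 * r))) / ((3 : ℕ) : ℝ) * 3
      = 3 / ((3 * r * N0 : ℕ) : ℝ) * (((mt p q N0 u).2.1 : ℕ) : ℝ)
    rw [c2]; exact key _
  · show -((q : ℝ) / (3 * r)) * (3 / N0 * u.2.2) + (1 - -((q : ℝ) / (3 * r))) / ((3 : ℕ) : ℝ) * 3
      = 3 / ((3 * r * N0 : ℕ) : ℝ) * (((mt p q N0 u).2.2 : ℕ) : ℝ)
    rw [c3]; exact key _

theorem edge_law_aux {p q r N0 : ℕ} (hr : 0 < r) (hN : 0 < N0) (hp : 3 * p = 3 * r + q)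
    (hqp : q ≤ p) (us : List Tr) (hu : ∀ u ∈ us, u.1 + u.2.1 + u.2.2 = N0) (ws : List ℕ) :
    edgeLaw (-((q : ℝ) / (3 * r))) (law N0 S us ws)
      = law (3 * r * N0) S (us.map (mt p q N0)) ws := by
  induction us generalizing ws with
  | nil => rfl
  | cons u us ih =>
    cases ws with
    | nil => rfl
    | cons w ws =>
      have e1 : edgeLaw (-((q : ℝ) / (3 * r))) (law N0 S (u :: us) (w :: ws))
          = ((w : ℝ) / S, smooth (-((q : ℝ) / (3 * r))) (vr (3 / N0) u)) ::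
            edgeLaw (-((q : ℝ) / (3 * r))) (law N0 S us ws) := rfl
      rw [e1, ih (fun v hv => hu v (by simp [hv])), edge_vr hr hN hp hqp (hu u (by simp))]
      rfl

theorem Setup.edge (s : Setup G S B C J p q r H Ks) (W : List ℕ) :
    edgeLaw (-((q : ℝ) / (3 * r))) (law G.N0 S G.nodes W) = law (3 * r * G.N0) S H W := by
  rw [s.hH]
  exact edge_law_aux s.hr s.hN s.hp s.hqp G.nodes s.hn W

/-- from the unit vector to all nonnegative vectors -/
theorem pointwise {μ μ' ν : Law}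
    (h : ∀ l : V3, (∀ i, 0 ≤ l i) → ∀ f : V3,
      opL μ (opL μ' (Fn l f)) one3 ≤ ev ν (Fn l f))
    {l f w : V3} (hl : ∀ i, 0 ≤ l i) (hw : ∀ i, 0 ≤ w i) :
    opL μ (opL μ' (Fn l f)) w ≤ opL ν (Fn l f) w := by
  have key := h (pm l w) (pm_nonneg hl hw) f
  have e1 : opL μ (opL μ' (Fn l f)) w = opL μ (opL μ' (Fn (pm l w) f)) one3 := by
    simp only [opL_eq_ev, one3_pm]
    congr 1
    funext v
    congr 1
    funext u
    rw [pm_assoc, Fn_pm' l f w]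
  have e2 : opL ν (Fn l f) w = ev ν (Fn (pm l w) f) := by
    rw [opL_eq_ev]
    congr 1
    funext v
    rw [Fn_pm' l f w]
  rw [e1, e2]
  exact key

theorem Setup.H_sum (s : Setup G S B C J p q r H Ks) :
    ∀ u ∈ H, u.1 + u.2.1 + u.2.2 = 3 * r * G.N0 := by
  intro u hu
  rw [s.hH, List.mem_map] at hu
  obtain ⟨v, hv, rfl⟩ := hu
  exact mt_sum s.hp s.hqp (s.hn v hv)

theorem Setup.H_len (s : Setup G S B C J p q r H Ks) : H.length = J := by
  rw [s.hH, List.length_map, s.hJ]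

/-- message times message -/
theorem Setup.stepA (s : Setup G S B C J p q r H Ks) {W N : List ℕ}
    (hW : sm W = S ∧ W.length = J)
    (h : okW S B C J (bil (table G S J B H H (2 * (3 * r * G.N0) * (3 * r * G.N0))) W W) N = true) :
    ∀ l : V3, (∀ i, 0 ≤ l i) → ∀ f : V3,
      opL (law (3 * r * G.N0) S H W) (opL (law (3 * r * G.N0) S H W) (Fn l f)) one3
        ≤ ev (law G.N0 S G.nodes N) (Fn l f) := by
  intro l hl f
  have hsu : 0 < 3 * r * G.N0 := Nat.mul_pos (Nat.mul_pos (by norm_num) s.hr) s.hN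
  exact bil_law s.hG s.hN s.hS hsu hsu rfl s.H_sum s.H_sum s.hn
    (by rw [s.H_len, hW.2]) (by rw [s.H_len, hW.2]) hW.1 hW.1 s.hK s.hJ s.hB s.hC h hl f

/-- node times node -/
theorem Setup.stepB (s : Setup G S B C J p q r H Ks) {W N : List ℕ}
    (hW : sm W = S ∧ W.length = J)
    (h : okW S B C J (bil (table G S J B G.nodes G.nodes (2 * G.N0 * G.N0)) W W) N = true) :
    ∀ l : V3, (∀ i, 0 ≤ l i) → ∀ f : V3,
      opL (law G.N0 S G.nodes W) (opL (law G.N0 S G.nodes W) (Fn l f)) one3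
        ≤ ev (law G.N0 S G.nodes N) (Fn l f) := by
  intro l hl f
  exact bil_law s.hG s.hN s.hS s.hN s.hN rfl s.hn s.hn s.hn
    (by rw [s.hJ, hW.2]) (by rw [s.hJ, hW.2]) hW.1 hW.1 s.hK s.hJ s.hB s.hC h hl f

/-- node times message -/
theorem Setup.stepC (s : Setup G S B C J p q r H Ks) {W W' N : List ℕ}
    (hW : sm W = S ∧ W.length = J) (hW' : sm W' = S ∧ W'.length = J)
    (h : okW S B C J (bil (table G S J B G.nodes H (2 * G.N0 * (3 * r * G.N0))) W W') N = true) :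
    ∀ l : V3, (∀ i, 0 ≤ l i) → ∀ f : V3,
      opL (law G.N0 S G.nodes W) (opL (law (3 * r * G.N0) S H W') (Fn l f)) one3
        ≤ ev (law G.N0 S G.nodes N) (Fn l f) := by
  intro l hl f
  have hsu : 0 < 3 * r * G.N0 := Nat.mul_pos (Nat.mul_pos (by norm_num) s.hr) s.hN
  exact bil_law s.hG s.hN s.hS s.hN hsu rfl s.hn s.H_sum s.hn
    (by rw [s.hJ, hW.2]) (by rw [s.H_len, hW'.2]) hW.1 hW'.1 s.hK s.hJ s.hB s.hC h hl f

/-- abstract composition, four factors -/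
theorem comp4 {A N V : Law} (hA : A.Ok) (hN : N.Ok)
    (h1 : ∀ l : V3, (∀ i, 0 ≤ l i) → ∀ f : V3, opL A (opL A (Fn l f)) one3 ≤ ev N (Fn l f))
    (h2 : ∀ l : V3, (∀ i, 0 ≤ l i) → ∀ f : V3, opL N (opL N (Fn l f)) one3 ≤ ev V (Fn l f))
    (l f : V3) (hl : ∀ i, 0 ≤ l i) : (opL A)^[4] (Fn l f) one3 ≤ ev V (Fn l f) := by
  have p1 : ∀ v : V3, (∀ i, 0 ≤ v i) → opL A (opL A (Fn l f)) v ≤ opL N (Fn l f) v :=
    fun v hv => pointwise h1 hl hv
  calc (opL A)^[4] (Fn l f) one3 = opL A (opL A (opL A (opL A (Fn l f)))) one3 := rfl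
    _ ≤ opL A (opL A (opL N (Fn l f))) one3 :=
        opL_mono hA (fun v hv => opL_mono hA p1 hv) one3_nonneg
    _ = opL N (opL A (opL A (Fn l f))) one3 := by
        rw [opL_comm A N (Fn l f), opL_comm A N (opL A (Fn l f))]
    _ ≤ opL N (opL N (Fn l f)) one3 := opL_mono hN p1 one3_nonneg
    _ ≤ _ := h2 l hl f

/-- abstract composition, five factors -/
theorem comp5 {A N N2 V : Law} (hA : A.Ok) (hN : N.Ok)
    (h1 : ∀ l : V3, (∀ i, 0 ≤ l i) → ∀ f : V3, opL A (opL A (Fn l f)) one3 ≤ ev N (Fn l f))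
    (h2 : ∀ l : V3, (∀ i, 0 ≤ l i) → ∀ f : V3, opL N (opL N (Fn l f)) one3 ≤ ev N2 (Fn l f))
    (h3 : ∀ l : V3, (∀ i, 0 ≤ l i) → ∀ f : V3, opL N2 (opL A (Fn l f)) one3 ≤ ev V (Fn l f))
    (l f : V3) (hl : ∀ i, 0 ≤ l i) : (opL A)^[5] (Fn l f) one3 ≤ ev V (Fn l f) := by
  have p1 : ∀ v : V3, (∀ i, 0 ≤ v i) → opL A (opL A (Fn l f)) v ≤ opL N (Fn l f) v :=
    fun v hv => pointwise h1 hl hv
  have p2 : ∀ v : V3, (∀ i, 0 ≤ v i) → opL N (opL N (Fn l f)) v ≤ opL N2 (Fn l f) v :=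
    fun v hv => pointwise h2 hl hv
  have p3 : ∀ v : V3, (∀ i, 0 ≤ v i) →
      opL A (opL A (opL A (opL A (Fn l f)))) v ≤ opL N2 (Fn l f) v := by
    intro v hv
    calc opL A (opL A (opL A (opL A (Fn l f)))) v
        ≤ opL A (opL A (opL N (Fn l f))) v :=
          opL_mono hA (fun v hv => opL_mono hA p1 hv) hv
      _ = opL N (opL A (opL A (Fn l f))) v := by
          rw [opL_comm A N (Fn l f), opL_comm A N (opL A (Fn l f))]
      _ ≤ opL N (opL N (Fn l f)) v := opL_mono hN p1 hv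
      _ ≤ _ := p2 v hv
  calc (opL A)^[5] (Fn l f) one3 = opL A (opL A (opL A (opL A (opL A (Fn l f))))) one3 := rfl
    _ ≤ opL A (opL N2 (Fn l f)) one3 := opL_mono hA p3 one3_nonneg
    _ = opL N2 (opL A (Fn l f)) one3 := by rw [opL_comm A N2 (Fn l f)]
    _ ≤ _ := h3 l hl f

theorem lam_bounds {q r p : ℕ} (hr : 0 < r) (hp : 3 * p = 3 * r + q) (hqp : q ≤ p) :
    -1 / 2 ≤ -((q : ℝ) / (3 * r)) ∧ -((q : ℝ) / (3 * r)) ≤ 1 := by
  have hr' : (0 : ℝ) < r := by exact_mod_cast hr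
  have h2 : 2 * (q : ℝ) ≤ 3 * r := by
    have : 2 * q ≤ 3 * r := by omega
    exact_mod_cast this
  constructor
  · have : (q : ℝ) / (3 * r) ≤ 1 / 2 := by
      rw [div_le_div_iff₀ (by positivity) (by norm_num)]
      linarith
    linarith
  · have : 0 ≤ (q : ℝ) / (3 * r) := by positivity
    linarith

theorem Setup.chain4 (s : Setup G S B C J p q r H Ks) {TA TB : List (List ℕ)}
    (hTA : table G S J B H H (2 * (3 * r * G.N0) * (3 * r * G.N0)) = TA)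
    (hTB : table G S J B G.nodes G.nodes (2 * G.N0 * G.N0) = TB)
    (ch : List (List ℕ × List ℕ)) :
    ∀ (W : List ℕ) (n : ℕ), sm W = S ∧ W.length = J → chk4 S B C J TA TB W ch = true →
      Dom (regLik 3 4 (-((q : ℝ) / (3 * r))) n) (law G.N0 S G.nodes W) →
      ∃ n', Dom (regLik 3 4 (-((q : ℝ) / (3 * r))) n') (law G.N0 S G.nodes (lst4 W ch)) ∧
        (sm (lst4 W ch) = S ∧ (lst4 W ch).length = J) := by
  induction ch with
  | nil => intro W n hW _ hD; exact ⟨n, hD, hW⟩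
  | cons a rest ih =>
    intro W n hW hc hD
    have hc' : okW S B C J (bil TA W W) a.1 = true ∧ okW S B C J (bil TB a.1 a.1) a.2 = true ∧
        chk4 S B C J TA TB a.2 rest = true := by
      have : (okW S B C J (bil TA W W) a.1 && (okW S B C J (bil TB a.1 a.1) a.2 &&
        chk4 S B C J TA TB a.2 rest)) = true := hc
      rw [Bool.and_eq_true, Bool.and_eq_true] at this
      exact this
    obtain ⟨h1, h2, h3⟩ := hc'
    have m1 := okW_mass h1
    have m2 := okW_mass h2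
    rw [← hTA] at h1
    rw [← hTB] at h2
    obtain ⟨b0, b1⟩ := lam_bounds s.hr s.hp s.hqp
    refine ih a.2 (n + 1) m2 h3 ?_
    refine reg_law_step b0 b1 (law_ok _ _ _ _) hD ?_
    rw [s.edge W]
    exact comp4 (law_ok _ _ _ _) (law_ok _ _ _ _) (s.stepA hW h1) (s.stepB m1 h2)

theorem Setup.chain5 (s : Setup G S B C J p q r H Ks) {TA TB TC : List (List ℕ)}
    (hTA : table G S J B H H (2 * (3 * r * G.N0) * (3 * r * G.N0)) = TA)
    (hTB : table G S J B G.nodes G.nodes (2 * G.N0 * G.N0) = TB)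
    (hTC : table G S J B G.nodes H (2 * G.N0 * (3 * r * G.N0)) = TC)
    (ch : List (List ℕ × List ℕ × List ℕ)) :
    ∀ (W : List ℕ) (n : ℕ), sm W = S ∧ W.length = J → chk5 S B C J TA TB TC W ch = true →
      Dom (regLik 3 5 (-((q : ℝ) / (3 * r))) n) (law G.N0 S G.nodes W) →
      ∃ n', Dom (regLik 3 5 (-((q : ℝ) / (3 * r))) n') (law G.N0 S G.nodes (lst5 W ch)) ∧
        (sm (lst5 W ch) = S ∧ (lst5 W ch).length = J) := by
  induction ch with
  | nil => intro W n hW _ hD; exact ⟨n, hD, hW⟩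
  | cons a rest ih =>
    intro W n hW hc hD
    have hc' : okW S B C J (bil TA W W) a.1 = true ∧ okW S B C J (bil TB a.1 a.1) a.2.1 = true ∧
        okW S B C J (bil TC a.2.1 W) a.2.2 = true ∧
        chk5 S B C J TA TB TC a.2.2 rest = true := by
      have : (okW S B C J (bil TA W W) a.1 && (okW S B C J (bil TB a.1 a.1) a.2.1 &&
        (okW S B C J (bil TC a.2.1 W) a.2.2 && chk5 S B C J TA TB TC a.2.2 rest))) = true := hc
      rw [Bool.and_eq_true, Bool.and_eq_true, Bool.and_eq_true] at this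
      exact this
    obtain ⟨h1, h2, h3, h4⟩ := hc'
    have m1 := okW_mass h1
    have m2 := okW_mass h2
    have m3 := okW_mass h3
    rw [← hTA] at h1
    rw [← hTB] at h2
    rw [← hTC] at h3
    obtain ⟨b0, b1⟩ := lam_bounds s.hr s.hp s.hqp
    refine ih a.2.2 (n + 1) m3 h4 ?_
    refine reg_law_step b0 b1 (law_ok _ _ _ _) hD ?_
    rw [s.edge W]
    exact comp5 (law_ok _ _ _ _) (law_ok _ _ _ _) (s.stepA hW h1) (s.stepB m1 h2)
      (s.stepC m2 hW h3)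

/-! ### initial state and final collapse -/

theorem lsum_replicate (F : Tr → ℝ) (us : List Tr) (n : ℕ) :
    lsum F us (List.replicate n 0) = 0 := by
  induction us generalizing n with
  | nil => rfl
  | cons u us ih =>
    cases n with
    | zero => rfl
    | succ n =>
      rw [List.replicate_succ]
      simp only [lsum]
      rw [ih n]; simp

theorem Setup.start (s : Setup G S B C J p q r H Ks) {d : ℕ} {lam : ℝ} (n : ℕ) :
    Dom (regLik 3 d lam 0) (law G.N0 S G.nodes (S :: List.replicate n 0)) := by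
  intro l f hl
  refine (dom_zero l f hl).trans (le_of_eq ?_)
  rw [ev_law, ev_law3, s.hK]
  simp only [lsum]
  rw [lsum_replicate]
  have hN' : (0 : ℝ) < G.N0 := by exact_mod_cast s.hN
  have hS' : (0 : ℝ) < S := by exact_mod_cast s.hS
  have : vr (3 / G.N0) (G.N0, 0, 0) = ver3 := by
    unfold vr ver3
    show ![3 / (G.N0 : ℝ) * (G.N0 : ℝ), 3 / (G.N0 : ℝ) * ((0 : ℕ) : ℝ),
      3 / (G.N0 : ℝ) * ((0 : ℕ) : ℝ)] = ![3, 0, 0]
    rw [Nat.cast_zero, mul_zero, div_mul_cancel₀ _ hN'.ne']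
  rw [this]
  field_simp
  ring

/-- second elementary symmetric function -/
def s2 (u : Tr) : ℕ := u.1 * u.2.1 + u.2.1 * u.2.2 + u.1 * u.2.2

/-- third elementary symmetric function -/
def s3 (u : Tr) : ℕ := u.1 * u.2.1 * u.2.2

theorem fA_vr {N0 : ℕ} (hN : 0 < N0) {u : Tr} (hu : u.1 + u.2.1 + u.2.2 = N0) :
    avg fA (vr (3 / N0) u) = 1 - 3 / (N0 : ℝ) ^ 2 * s2 u := by
  rw [inv_fA.avg_eq]
  have hN' : (0 : ℝ) < N0 := by exact_mod_cast hN
  have hu' : (u.1 : ℝ) + u.2.1 + u.2.2 = N0 := by exact_mod_cast hu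
  unfold vr fA
  rw [t1_mk, t2_mk]
  have e : 3 / (N0 : ℝ) * u.1 + 3 / (N0 : ℝ) * u.2.1 + 3 / (N0 : ℝ) * u.2.2 = 3 := by
    rw [← mul_add, ← mul_add, hu']
    field_simp
  rw [e]
  unfold s2
  push_cast
  field_simp
  ring

theorem fP_vr {N0 : ℕ} (hN : 0 < N0) {u : Tr} (hu : u.1 + u.2.1 + u.2.2 = N0) :
    avg fP (vr (3 / N0) u)
      = 1 - (9 / 2 / (N0 : ℝ) ^ 2 * s2 u - 27 / 2 / (N0 : ℝ) ^ 3 * s3 u) := by
  rw [inv_fP.avg_eq]
  have hN' : (0 : ℝ) < N0 := by exact_mod_cast hN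
  have hu' : (u.1 : ℝ) + u.2.1 + u.2.2 = N0 := by exact_mod_cast hu
  unfold vr fP
  rw [t1_mk, t2_mk]
  have e : 3 / (N0 : ℝ) * u.1 + 3 / (N0 : ℝ) * u.2.1 + 3 / (N0 : ℝ) * u.2.2 = 3 := by
    rw [← mul_add, ← mul_add, hu']
    field_simp
  rw [e]
  unfold s2 s3
  push_cast
  field_simp
  ring

theorem mass_vr {N0 : ℕ} (hN : 0 < N0) {u : Tr} (hu : u.1 + u.2.1 + u.2.2 = N0) :
    avg mass (vr (3 / N0) u) = 1 := by
  rw [inv_mass.avg_eq, mass_eq3]
  have hN' : (0 : ℝ) < N0 := by exact_mod_cast hN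
  have hu' : (u.1 : ℝ) + u.2.1 + u.2.2 = N0 := by exact_mod_cast hu
  show (3 / (N0 : ℝ) * u.1 + 3 / (N0 : ℝ) * u.2.1 + 3 / (N0 : ℝ) * u.2.2) / 3 = 1
  rw [← mul_add, ← mul_add, hu']
  field_simp

/-- the final collapse -/
theorem Setup.final (s : Setup G S B C J p q r H Ks) {Ω : Type} [Fintype Ω]
    {L : Fin 3 → Ω → ℝ} {W : List ℕ} (hW : sm W = S ∧ W.length = J)
    (hD : Dom L (law G.N0 S G.nodes W)) {X2 X3 : ℕ}
    (h2 : lsum s2 G.nodes W = X2) (h3 : lsum s3 G.nodes W = X3) :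
    Dom L (law3 (1 - 3 / (G.N0 : ℝ) ^ 2 * X2 / S)
      (1 - (9 / 2 / (G.N0 : ℝ) ^ 2 * X2 / S - 27 / 2 / (G.N0 : ℝ) ^ 3 * X3 / S))) := by
  have hS' : (S : ℝ) ≠ 0 := by exact_mod_cast s.hS.ne'
  have hlen : G.nodes.length = W.length := by rw [s.hJ, hW.2]
  have hmass : (law G.N0 S G.nodes W).mass = 1 := by
    rw [← ev_mass, ev_law, lsum_congr _ _ (G := fun _ => (1 : ℝ))
      (fun u hu => mass_vr s.hN (s.hn u hu)), lsum_const _ _ _ hlen, hW.1]
    field_simp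
  have c2 : lsum (fun u => ((s2 u : ℕ) : ℝ)) G.nodes W = X2 := by
    rw [← lsum_cast, h2]
  have c3 : lsum (fun u => ((s3 u : ℕ) : ℝ)) G.nodes W = X3 := by
    rw [← lsum_cast, h3]
  have eA : ev (law G.N0 S G.nodes W) fA = 1 - 3 / (G.N0 : ℝ) ^ 2 * X2 / S := by
    rw [ev_law, lsum_congr _ _ (fun u hu => fA_vr s.hN (s.hn u hu)), lsum_sub,
      lsum_const _ _ _ hlen, hW.1, lsum_mul_left, c2]
    field_simp
  have eP : ev (law G.N0 S G.nodes W) fP
      = 1 - (9 / 2 / (G.N0 : ℝ) ^ 2 * X2 / S - 27 / 2 / (G.N0 : ℝ) ^ 3 * X3 / S) := by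
    rw [ev_law, lsum_congr _ _ (fun u hu => fP_vr s.hN (s.hn u hu)), lsum_sub,
      lsum_const _ _ _ hlen, hW.1, lsum_sub, lsum_mul_left, lsum_mul_left, c2, c3]
    field_simp
  intro l f hl
  refine (hD l f hl).trans ?_
  have := ev_collapse (law_ok G.N0 S G.nodes W) hmass (f := f) hl
  rw [eA, eP] at this
  exact this

end Vale.Agent.P154.LN.Four
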