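import Mathlib

/-!
# Integer quantiser and level maps (computational definitions)

Nonnegative integer vectors `(a, b, c)` are split into multiples of the nodes of a grid.
-/

namespace Vale.Agent.P154.LN.Four

/-- integer vectors -/
abbrev Tr := ℕ × ℕ × ℕ

/-- a grid: total `N0`, the list of nodes (the vertex first), and the layers `(h, entries)`;
an entry `(a, t, i)` of the layer `h` stands for the vector `(a, t, h)`, which is a permutation of
the node number `i`. -/
structure Grid where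
  N0 : ℕ
  nodes : List Tr
  lays : List (ℕ × List (ℕ × ℕ × ℕ))

/-- evaluate the argument first -/
def frc {α : Type} (n : ℕ) (k : ℕ → α) : α := Nat.rec (k 0) (fun m _ => k (Nat.succ m)) n

/-- decreasing rearrangement -/
def srt {α : Type} (a b c : ℕ) (k : ℕ → ℕ → ℕ → α) : α :=
  bif Nat.ble a b then
    bif Nat.ble b c then k c b a else bif Nat.ble a c then k b c a else k b a c
  else
    bif Nat.ble a c then k c a b else bif Nat.ble b c then k a c b else k a b c

/-- output of a splitting inside a layer -/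
def out2 (M x y num den : ℕ) (e1 e2 : ℕ × ℕ × ℕ) : List (ℕ × ℕ) :=
  frc (Nat.mul x y) fun f =>
  frc (Nat.mul (Nat.mul e1.1 M) (Nat.mul e1.2.1 M)) fun f1 =>
  frc (Nat.mul (Nat.mul e2.1 M) (Nat.mul e2.2.1 M)) fun f2 =>
  frc (Nat.sub f2 f) fun p1 =>
  frc (Nat.sub f f1) fun p2 =>
  frc (Nat.add p1 p2) fun q =>
  bif (Nat.beq (Nat.mul (Nat.add e1.1 e1.2.1) M) (Nat.add x y)) &&
    ((Nat.beq (Nat.mul (Nat.add e2.1 e2.2.1) M) (Nat.add x y)) &&
    ((Nat.ble 1 q) && (Nat.beq (Nat.mul q f) (Nat.add (Nat.mul p1 f1) (Nat.mul p2 f2))))) then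
    frc (Nat.mul den q) fun dq =>
    frc (Nat.div (Nat.mul (Nat.mul num p1) M) dq) fun n1 =>
    frc (Nat.div (Nat.mul (Nat.mul num p2) M) dq) fun n2 =>
    [(e1.2.2, n1), (e2.2.2, n2)]
  else []

/-- splitting inside the layer -/
def inl (M x y num den : ℕ) : List (ℕ × ℕ × ℕ) → List (ℕ × ℕ)
  | [] => []
  | e1 :: rest =>
    match rest with
    | [] => []
    | e2 :: _ =>
      bif Nat.ble (min x y) (Nat.mul e2.2.1 M) then out2 M x y num den e1 e2
      else inl M x y num den rest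

/-- output of a splitting between two layers -/
def out4 (M a b c num den : ℕ) (L1 L2 : ℕ × List (ℕ × ℕ × ℕ)) : List (ℕ × ℕ) :=
  frc (Nat.add a c) fun s =>
  frc (Nat.mul a c) fun f =>
  frc (Nat.mul L1.1 M) fun h1 =>
  frc (Nat.mul L2.1 M) fun h2 =>
  frc (Nat.sub s h1) fun u1 =>
  frc (Nat.sub s h2) fun u2 =>
  frc (Nat.mul u1 h1) fun f1 =>
  frc (Nat.mul u2 h2) fun f2 =>
  frc (Nat.sub f2 f) fun p1 =>
  frc (Nat.sub f f1) fun p2 =>
  frc (Nat.add p1 p2) fun q =>
  bif (Nat.beq (Nat.add u1 h1) s) && ((Nat.beq (Nat.add u2 h2) s) &&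
    ((Nat.ble 1 q) && (Nat.beq (Nat.mul q f) (Nat.add (Nat.mul p1 f1) (Nat.mul p2 f2))))) then
    frc (Nat.mul den q) fun dq =>
    inl M u1 b (Nat.mul num p1) dq L1.2 ++ inl M u2 b (Nat.mul num p2) dq L2.2
  else []

/-- splitting between the layers: `a ≥ b ≥ c`, the sum is `N0 * M` -/
def shift (M a b c num den : ℕ) : List (ℕ × List (ℕ × ℕ × ℕ)) → List (ℕ × ℕ)
  | [] => []
  | L1 :: rest =>
    match rest with
    | [] => []
    | L2 :: _ =>
      bif Nat.ble c (Nat.mul L2.1 M) then out4 M a b c num den L1 L2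
      else shift M a b c num den rest

/-- quantisation of an integer vector -/
def quant (G : Grid) (a b c num den : ℕ) : List (ℕ × ℕ) :=
  frc a fun a => frc b fun b => frc c fun c =>
  frc (Nat.add (Nat.add a b) c) fun M =>
  srt a b c fun x y z =>
  frc (Nat.mul G.N0 x) fun x => frc (Nat.mul G.N0 y) fun y => frc (Nat.mul G.N0 z) fun z =>
  shift M x y z num den G.lays

/-- all six orientations -/
def row6 (G : Grid) (u v : Tr) (num den : ℕ) : List (ℕ × ℕ) :=
  quant G (Nat.mul u.1 v.1) (Nat.mul u.2.1 v.2.1) (Nat.mul u.2.2 v.2.2) num den ++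
  (quant G (Nat.mul u.1 v.1) (Nat.mul u.2.1 v.2.2) (Nat.mul u.2.2 v.2.1) num den ++
  (quant G (Nat.mul u.1 v.2.1) (Nat.mul u.2.1 v.1) (Nat.mul u.2.2 v.2.2) num den ++
  (quant G (Nat.mul u.1 v.2.1) (Nat.mul u.2.1 v.2.2) (Nat.mul u.2.2 v.1) num den ++
  (quant G (Nat.mul u.1 v.2.2) (Nat.mul u.2.1 v.1) (Nat.mul u.2.2 v.2.1) num den ++
  quant G (Nat.mul u.1 v.2.2) (Nat.mul u.2.1 v.2.1) (Nat.mul u.2.2 v.1) num den))))

/-- total weight -/
def wsum : List (ℕ × ℕ) → ℕ
  | [] => 0
  | p :: l => Nat.add p.2 (wsum l)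

/-- packing in base `B` -/
def pk (B : ℕ) : List (ℕ × ℕ) → ℕ
  | [] => 0
  | p :: l => Nat.add (Nat.mul p.2 (Nat.pow B p.1)) (pk B l)

/-- all indices are below `J` -/
def idxLt (J : ℕ) : List (ℕ × ℕ) → Bool
  | [] => true
  | p :: l => Nat.blt p.1 J && idxLt J l

/-- the row, or nothing if it is not admissible -/
def rowL (G : Grid) (S J : ℕ) (u v : Tr) (den : ℕ) : List (ℕ × ℕ) :=
  bif Nat.ble (wsum (row6 G u v S den)) S && idxLt J (row6 G u v S den) then row6 G u v S den
  else []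

/-- the table -/
def table (G : Grid) (S J B : ℕ) (us vs : List Tr) (den : ℕ) : List (List ℕ) :=
  us.map (fun u => vs.map (fun v => pk B (rowL G S J u v den)))

/-- scalar product -/
def dot : List ℕ → List ℕ → ℕ
  | a :: as, b :: bs => Nat.add (Nat.mul a b) (dot as bs)
  | _, _ => 0

/-- bilinear form with a table -/
def bil : List (List ℕ) → List ℕ → List ℕ → ℕ
  | r :: rs, w :: ws, ws' => Nat.add (Nat.mul w (dot r ws')) (bil rs ws ws')
  | _, _, _ => 0

/-- `w k * C` is at most the `k`-th digit of `N` in base `B` -/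
def digLe (B C : ℕ) : ℕ → List ℕ → Bool
  | _, [] => true
  | N, w :: ws => Nat.ble (Nat.mul w C) (Nat.mod N B) && frc (Nat.div N B) fun N' => digLe B C N' ws

/-- sum -/
def sm : List ℕ → ℕ
  | [] => 0
  | w :: ws => Nat.add w (sm ws)

/-- the new weights are admissible -/
def okW (S B C J : ℕ) (N : ℕ) : List ℕ → Bool
  | [] => false
  | w :: ws => Nat.beq (Nat.add w (sm ws)) S && (Nat.beq (Nat.succ ws.length) J &&
      frc N fun N => digLe B C (Nat.div N B) ws)

/-- chain of levels for `d = 4` -/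
def chk4 (S B C J : ℕ) (TA TB : List (List ℕ)) : List ℕ → List (List ℕ × List ℕ) → Bool
  | _, [] => true
  | W, p :: rest => okW S B C J (bil TA W W) p.1 && (okW S B C J (bil TB p.1 p.1) p.2 &&
      chk4 S B C J TA TB p.2 rest)

/-- chain of levels for `d = 5` -/
def chk5 (S B C J : ℕ) (TA TB TC : List (List ℕ)) :
    List ℕ → List (List ℕ × List ℕ × List ℕ) → Bool
  | _, [] => true
  | W, p :: rest => okW S B C J (bil TA W W) p.1 && (okW S B C J (bil TB p.1 p.1) p.2.1 &&
      (okW S B C J (bil TC p.2.1 W) p.2.2 && chk5 S B C J TA TB TC p.2.2 rest))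

/-- last state of a chain -/
def lst4 : List ℕ → List (List ℕ × List ℕ) → List ℕ
  | W, [] => W
  | _, a :: rest => lst4 a.2 rest

/-- last state of a chain -/
def lst5 : List ℕ → List (List ℕ × List ℕ × List ℕ) → List ℕ
  | W, [] => W
  | _, a :: rest => lst5 a.2.2 rest

end Vale.Agent.P154.LN.Four
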