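import Vale.Agent.Lib.P154.LN.FrameReg
import Vale.Agent.Lib.P154.LN.FourBil

/-!
# From the integer tables to laws
-/

open scoped BigOperators

namespace Vale.Agent.P154.LN.Four

/-- scaled integer vector -/
noncomputable def vr (c : ℝ) (u : Tr) : V3 := ![c * u.1, c * u.2.1, c * u.2.2]

/-- the law with weights `w / S` on the vectors `3 u / su` -/
noncomputable def law (su S : ℕ) : List Tr → List ℕ → Law
  | u :: us, w :: ws => ((w : ℝ) / S, vr (3 / su) u) :: law su S us ws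
  | _, _ => []

/-- the defect of `Fn l f` -/
noncomputable def dfc (l f : V3) (x y z : ℝ) : ℝ :=
  (x + y + z) / 3 * avg (Fn l f) ver3 - avg (Fn l f) ![x, y, z]

theorem Fn_le_ver {l f w : V3} (hl : ∀ i, 0 ≤ l i) (hw : ∀ i, 0 ≤ w i) :
    Fn l f w ≤ ∑ i, w i * ((l i * f i) ^ 2 / l i) := by
  unfold Fn
  have h1 : ∀ i, 0 ≤ l i * w i := fun i => mul_nonneg (hl i) (hw i)
  have h2 : ∀ i, 0 ≤ w i * ((l i * f i) ^ 2 / l i) := fun i =>
    mul_nonneg (hw i) (div_nonneg (sq_nonneg _) (hl i))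
  apply div_le_of_le_mul₀ (Finset.sum_nonneg fun i _ => h1 i) (Finset.sum_nonneg fun i _ => h2 i)
  rw [mul_comm]
  refine Finset.sum_sq_le_sum_mul_sum_of_sq_le_mul Finset.univ (fun i _ => h1 i) (fun i _ => h2 i)
    (fun i _ => le_of_eq ?_)
  rcases (hl i).eq_or_lt with h | h
  · rw [← h]; simp
  · field_simp

theorem avg_le_ver {l f : V3} (hl : ∀ i, 0 ≤ l i) {x y z : ℝ} (hx : 0 ≤ x) (hy : 0 ≤ y)
    (hz : 0 ≤ z) : avg (Fn l f) ![x, y, z] ≤ (x + y + z) / 3 * avg (Fn l f) ver3 := by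
  have nn : ∀ a b c : ℝ, 0 ≤ a → 0 ≤ b → 0 ≤ c → Fn l f ![a, b, c] ≤
      a * ((l 0 * f 0) ^ 2 / l 0) + b * ((l 1 * f 1) ^ 2 / l 1) + c * ((l 2 * f 2) ^ 2 / l 2) := by
    intro a b c ha hb hc
    have h := Fn_le_ver (f := f) hl (w := ![a, b, c]) (by
      intro i
      fin_cases i
      · exact ha
      · exact hb
      · exact hc)
    rw [Fin.sum_univ_three] at h
    exact h
  rw [avg_ver]
  unfold avg
  show (Fn l f ![x, y, z] + Fn l f ![x, z, y] + Fn l f ![y, x, z] + Fn l f ![y, z, x]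
    + Fn l f ![z, x, y] + Fn l f ![z, y, x]) / 6 ≤ _
  have a1 := nn x y z hx hy hz
  have a2 := nn x z y hx hz hy
  have a3 := nn y x z hy hx hz
  have a4 := nn y z x hy hz hx
  have a5 := nn z x y hz hx hy
  have a6 := nn z y x hz hy hx
  linarith

theorem dfc_defect {l : V3} (hl : ∀ i, 0 ≤ l i) (f : V3) : Defect (dfc l f) where
  nn := by
    intro x y z hx hy hz
    unfold dfc
    have := avg_le_ver (f := f) hl hx hy hz
    linarith
  sw := by
    intro x y z
    unfold dfc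
    rw [(avg_perm (Fn l f) x y z).1]
    ring
  sw' := by
    intro x y z
    unfold dfc
    rw [(avg_perm (Fn l f) x y z).2]
    ring
  hom := by
    intro c x y z hc
    unfold dfc
    rw [avg_smul hc]
    ring
  split := by
    intro x y z x1 y1 x2 y2 la mu hx hy hz hx1 hy1 hx2 hy2 hla hmu hs s1 s2 hp
    unfold dfc
    have := pi_split (f := f) hl hx hy hz hx1 hy1 hx2 hy2 hla hmu hs s1 s2 hp
    rw [s1, s2]
    have e : la * ((x + y + z) / 3 * avg (Fn l f) ver3)
          + mu * ((x + y + z) / 3 * avg (Fn l f) ver3) = (x + y + z) / 3 * avg (Fn l f) ver3 := by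
      rw [← add_mul, hs, one_mul]
    rw [mul_sub, mul_sub]
    linarith

theorem dfc_ver (l f : V3) (x : ℝ) (hx : 0 ≤ x) : dfc l f x 0 0 = 0 := by
  unfold dfc
  have h := avg_smul (l := l) (f := f) (c := x / 3) (a := 3) (b := 0) (d := 0) (by positivity)
  rw [show x / 3 * 3 = x by ring, mul_zero] at h
  rw [h]
  have : (![3, 0, 0] : V3) = ver3 := rfl
  rw [this]
  ring

/-! ### values -/

theorem ev_law (su S : ℕ) (us : List Tr) (ws : List ℕ) (φ : V3 → ℝ) :
    ev (law su S us ws) φ = 1 / S * lsum (fun u => avg φ (vr (3 / su) u)) us ws := by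
  induction us generalizing ws with
  | nil => simp [law, lsum, ev]
  | cons u us ih =>
    cases ws with
    | nil => simp [law, lsum, ev]
    | cons w ws =>
      have e : ev (law su S (u :: us) (w :: ws)) φ
          = (w : ℝ) / S * avg φ (vr (3 / su) u) + ev (law su S us ws) φ := by
        unfold ev
        simp [law]
      rw [e, ih ws]
      simp only [lsum]
      ring

theorem law_ok (su S : ℕ) (us : List Tr) (ws : List ℕ) : (law su S us ws).Ok := by
  induction us generalizing ws with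
  | nil => intro a ha; simp [law] at ha
  | cons u us ih =>
    cases ws with
    | nil => intro a ha; simp [law] at ha
    | cons w ws =>
      intro a ha
      have : a = ((w : ℝ) / S, vr (3 / su) u) ∨ a ∈ law su S us ws := by
        simpa [law] using ha
      rcases this with h | h
      · rw [h]
        refine ⟨by positivity, ?_⟩
        intro i
        show 0 ≤ vr (3 / su) u i
        unfold vr
        fin_cases i
        · show 0 ≤ (3 / (su : ℝ)) * u.1
          positivity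
        · show 0 ≤ (3 / (su : ℝ)) * u.2.1
          positivity
        · show 0 ≤ (3 / (su : ℝ)) * u.2.2
          positivity
      · exact ih ws a h

theorem avg_lsum {α : Type} (c : ℝ) (H : α → V3 → ℝ) (us : List α) (ws : List ℕ) (x : V3) :
    avg (fun v => c * lsum (fun u => H u v) us ws) x = c * lsum (fun u => avg (H u) x) us ws := by
  rw [avg_mul]
  congr 1
  induction us generalizing ws with
  | nil => exact avg_zero x
  | cons u us ih =>
    cases ws with
    | nil => exact avg_zero x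
    | cons w ws =>
      simp only [lsum]
      rw [avg_add, avg_mul, ih ws]

theorem pm_mk (a b c d e f : ℝ) : pm ![a, b, c] ![d, e, f] = ![a * d, b * e, c * f] := by
  funext i
  unfold pm
  fin_cases i <;> rfl

/-- the average over products of orientations -/
theorem avg_avg (φ : V3 → ℝ) (a b c d e f : ℝ) :
    avg (fun v => avg (fun y => φ (pm v y)) ![d, e, f]) ![a, b, c]
      = (avg φ ![a * d, b * e, c * f] + (avg φ ![a * d, b * f, c * e] +
        (avg φ ![a * e, b * d, c * f] + (avg φ ![a * e, b * f, c * d] +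
        (avg φ ![a * f, b * d, c * e] + avg φ ![a * f, b * e, c * d]))))) / 6 := by
  have A : ∀ (ψ : V3 → ℝ) (x y z : ℝ), avg ψ ![x, y, z] = (ψ ![x, y, z] + ψ ![x, z, y]
      + ψ ![y, x, z] + ψ ![y, z, x] + ψ ![z, x, y] + ψ ![z, y, x]) / 6 := fun ψ x y z => rfl
  simp only [A, pm_mk]
  ring

theorem kernel_eq {l f : V3} {su sv : ℕ} (hsu : 0 < su) (hsv : 0 < sv) {u v : Tr}
    (hu : u.1 + u.2.1 + u.2.2 = su) (hv : v.1 + v.2.1 + v.2.2 = sv) :
    avg (fun x => avg (fun y => Fn l f (pm x y)) (vr (3 / sv) v)) (vr (3 / su) u)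
      = avg (Fn l f) ver3 - 3 / (2 * su * sv) * six (dfc l f) u v := by
  unfold vr
  rw [avg_avg]
  have c0 : (0 : ℝ) ≤ 3 / su * (3 / sv) := by positivity
  have e : ∀ p q r x y z : ℕ, avg (Fn l f) ![3 / (su : ℝ) * p * (3 / (sv : ℝ) * x),
      3 / (su : ℝ) * q * (3 / (sv : ℝ) * y), 3 / (su : ℝ) * r * (3 / (sv : ℝ) * z)]
      = 3 / su * (3 / sv) * avg (Fn l f) ![((p * x : ℕ) : ℝ), ((q * y : ℕ) : ℝ),
        ((r * z : ℕ) : ℝ)] := by
    intro p q r x y z
    rw [← avg_smul c0]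
    push_cast
    congr 1
    funext i
    fin_cases i
    · show 3 / (su : ℝ) * p * (3 / (sv : ℝ) * x) = 3 / su * (3 / sv) * (p * x)
      ring
    · show 3 / (su : ℝ) * q * (3 / (sv : ℝ) * y) = 3 / su * (3 / sv) * (q * y)
      ring
    · show 3 / (su : ℝ) * r * (3 / (sv : ℝ) * z) = 3 / su * (3 / sv) * (r * z)
      ring
  simp only [e]
  have d : ∀ p q r : ℕ, avg (Fn l f) ![(p : ℝ), (q : ℝ), (r : ℝ)]
      = ((p : ℝ) + q + r) / 3 * avg (Fn l f) ver3 - dfc l f p q r := by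
    intro p q r
    unfold dfc
    ring
  simp only [d]
  unfold six
  have hsu' : (0 : ℝ) < su := by exact_mod_cast hsu
  have hsv' : (0 : ℝ) < sv := by exact_mod_cast hsv
  have hu' : (u.1 : ℝ) + u.2.1 + u.2.2 = su := by exact_mod_cast hu
  have hv' : (v.1 : ℝ) + v.2.1 + v.2.2 = sv := by exact_mod_cast hv
  push_cast
  generalize dfc l f (↑u.1 * ↑v.1) (↑u.2.1 * ↑v.2.1) (↑u.2.2 * ↑v.2.2) = D1
  generalize dfc l f (↑u.1 * ↑v.1) (↑u.2.1 * ↑v.2.2) (↑u.2.2 * ↑v.2.1) = D2
  generalize dfc l f (↑u.1 * ↑v.2.1) (↑u.2.1 * ↑v.1) (↑u.2.2 * ↑v.2.2) = D3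
  generalize dfc l f (↑u.1 * ↑v.2.1) (↑u.2.1 * ↑v.2.2) (↑u.2.2 * ↑v.1) = D4
  generalize dfc l f (↑u.1 * ↑v.2.2) (↑u.2.1 * ↑v.1) (↑u.2.2 * ↑v.2.1) = D5
  generalize dfc l f (↑u.1 * ↑v.2.2) (↑u.2.1 * ↑v.2.1) (↑u.2.2 * ↑v.1) = D6
  have hm : (u.1 : ℝ) * v.1 + u.2.1 * v.2.1 + u.2.2 * v.2.2
      + (u.1 * v.1 + u.2.1 * v.2.2 + u.2.2 * v.2.1)
      + (u.1 * v.2.1 + u.2.1 * v.1 + u.2.2 * v.2.2)
      + (u.1 * v.2.1 + u.2.1 * v.2.2 + u.2.2 * v.1)
      + (u.1 * v.2.2 + u.2.1 * v.1 + u.2.2 * v.2.1)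
      + (u.1 * v.2.2 + u.2.1 * v.2.1 + u.2.2 * v.1) = 2 * (su * sv) := by
    rw [← hu', ← hv']; ring
  have h1 : (3 : ℝ) / su * (3 / sv) * (2 * (su * sv)) = 18 := by
    field_simp; ring
  have h2 : (3 : ℝ) / su * (3 / sv) = 9 / (su * sv) := by
    field_simp; ring
  have h3 : (3 : ℝ) / (2 * su * sv) = 3 / 2 / (su * sv) := by
    field_simp
  rw [← hm] at h1
  rw [h3]
  rw [h2] at h1 ⊢
  have h4 : (9 : ℝ) / (su * sv) = 6 * (3 / 2 / (su * sv)) := by ring
  rw [h4] at h1 ⊢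
  generalize (3 : ℝ) / 2 / (su * sv) = c at h1 ⊢
  linear_combination (avg (Fn l f) ver3) / 18 * h1

/-- the double sum of the defects -/
noncomputable def LL (D : ℝ → ℝ → ℝ → ℝ) (us vs : List Tr) (ws ws' : List ℕ) : ℝ :=
  lsum (fun u => lsum (fun v => six D u v) vs ws') us ws

theorem opL_opL {l f : V3} {su sv S : ℕ} (hsu : 0 < su) (hsv : 0 < sv) (hS : 0 < S)
    {us vs : List Tr} {ws ws' : List ℕ}
    (hu : ∀ u ∈ us, u.1 + u.2.1 + u.2.2 = su) (hv : ∀ v ∈ vs, v.1 + v.2.1 + v.2.2 = sv)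
    (hlu : us.length = ws.length) (hlv : vs.length = ws'.length)
    (hws : sm ws = S) (hws' : sm ws' = S) :
    opL (law su S us ws) (opL (law sv S vs ws') (Fn l f)) one3
      = avg (Fn l f) ver3
        - 3 / (2 * su * sv) / (S * S) * LL (dfc l f) us vs ws ws' := by
  rw [opL_eq_ev]
  simp only [one3_pm, opL_eq_ev]
  rw [ev_law]
  have e : ∀ v : V3, ev (law sv S vs ws') (fun w => Fn l f (pm v w))
      = 1 / S * lsum (fun u => avg (fun y => Fn l f (pm v y)) (vr (3 / sv) u)) vs ws' := by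
    intro v
    rw [ev_law]
  simp only [e]
  have e2 : ∀ u : Tr, avg (fun v => 1 / (S : ℝ) *
      lsum (fun u' => avg (fun y => Fn l f (pm v y)) (vr (3 / sv) u')) vs ws') (vr (3 / su) u)
      = 1 / S * lsum (fun u' => avg (fun v => avg (fun y => Fn l f (pm v y)) (vr (3 / sv) u'))
        (vr (3 / su) u)) vs ws' := by
    intro u
    rw [avg_lsum]
  simp only [e2]
  have S0 : (S : ℝ) ≠ 0 := by exact_mod_cast hS.ne'
  have e3 : ∀ u ∈ us, lsum (fun u' => avg (fun v => avg (fun y => Fn l f (pm v y))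
      (vr (3 / sv) u')) (vr (3 / su) u)) vs ws'
      = (S : ℝ) * avg (Fn l f) ver3 - 3 / (2 * su * sv) * lsum (fun v => six (dfc l f) u v) vs ws' := by
    intro u hu'
    rw [lsum_congr vs ws' (fun v hv' => kernel_eq hsu hsv (hu u hu') (hv v hv')), lsum_sub,
      lsum_const _ _ _ hlv, hws', lsum_mul_left]
  rw [lsum_congr us ws (G := fun u => 1 / (S : ℝ) * ((S : ℝ) * avg (Fn l f) ver3
    - 3 / (2 * su * sv) * lsum (fun v => six (dfc l f) u v) vs ws'))
    (fun u hu' => by rw [e3 u hu'])]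
  rw [lsum_mul_left, lsum_sub, lsum_const _ _ _ hlu, hws, lsum_mul_left]
  unfold LL
  field_simp

/-- **Soundness of one bilinear step.** -/
theorem bil_law {G : Grid} {S B C J su sv den : ℕ} {us vs : List Tr} {ws ws' W' : List ℕ}
    (hG : G.Ok) (hN : 0 < G.N0) (hS : 0 < S) (hsu : 0 < su) (hsv : 0 < sv)
    (hden : den = 2 * su * sv)
    (hu : ∀ u ∈ us, u.1 + u.2.1 + u.2.2 = su) (hv : ∀ v ∈ vs, v.1 + v.2.1 + v.2.2 = sv)
    (hn : ∀ u ∈ G.nodes, u.1 + u.2.1 + u.2.2 = G.N0)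
    (hlu : us.length = ws.length) (hlv : vs.length = ws'.length)
    (hws : sm ws = S) (hws' : sm ws' = S)
    {Ks : List Tr} (hK : G.nodes = (G.N0, 0, 0) :: Ks) (hJ : G.nodes.length = J)
    (hB : S * (S * S) < B) (hC : C = S * S)
    (h : okW S B C J (bil (table G S J B us vs den) ws ws') W' = true)
    {l : V3} (hl : ∀ i, 0 ≤ l i) (f : V3) :
    opL (law su S us ws) (opL (law sv S vs ws') (Fn l f)) one3
      ≤ ev (law G.N0 S G.nodes W') (Fn l f) := by
  have hD := dfc_defect hl f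
  rw [opL_opL hsu hsv hS hu hv hlu hlv hws hws', ev_law]
  obtain ⟨hm', hl'⟩ := okW_mass h
  have hN' : (0 : ℝ) < G.N0 := by exact_mod_cast hN
  have hS' : (0 : ℝ) < S := by exact_mod_cast hS
  have hsu' : (0 : ℝ) < su := by exact_mod_cast hsu
  have hsv' : (0 : ℝ) < sv := by exact_mod_cast hsv
  set F : Tr → ℝ := fun u => dfc l f u.1 u.2.1 u.2.2 with hF
  have eF : ∀ u ∈ G.nodes, avg (Fn l f) (vr (3 / G.N0) u)
      = avg (Fn l f) ver3 - 3 / G.N0 * F u := by
    intro u hu'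
    unfold vr
    rw [avg_smul (by positivity)]
    have e0 : F u = ((u.1 : ℝ) + u.2.1 + u.2.2) / 3 * avg (Fn l f) ver3
      - avg (Fn l f) ![(u.1 : ℝ), u.2.1, u.2.2] := rfl
    have : ((u.1 : ℝ) + u.2.1 + u.2.2) = G.N0 := by exact_mod_cast hn u hu'
    rw [e0, this]
    field_simp
    ring
  rw [lsum_congr _ _ eF, lsum_sub, lsum_const _ _ _ (by rw [hJ, hl']), hm', lsum_mul_left]
  have key := okW_sound (F := F) (fun u => D_nonneg_nat hD _ _ _) (S := S) (B := B) (C := C)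
    (J := J) (K := (G.N0, 0, 0)) (Ks := Ks) (by
      show dfc l f (G.N0 : ℝ) ((0 : ℕ) : ℝ) ((0 : ℕ) : ℝ) = 0
      rw [Nat.cast_zero]
      exact dfc_ver l f _ hN'.le) (by rw [← hK]; exact hJ) W'
    (Zc G S J us vs den ws ws') (fun k => lt_of_le_of_lt (Zc_le G S J us vs den ws ws' k) (by
      rw [hws, hws']; exact hB)) (bil_table G S J B us vs den ws ws') h
  rw [← hK] at key
  have k2 : ∑ k ∈ Finset.range J, (Zc G S J us vs den ws ws' k : ℝ) *
      F (G.nodes.getD k (0, 0, 0))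
      = lsum (fun u => lsum (fun v => val (dfc l f) G.nodes (rowL G S J u v den)) vs ws') us ws :=
    Zc_val (D := dfc l f) (G := G) S J us vs den ws ws'
  rw [k2] at key
  have hden' : (den : ℝ) = 2 * su * sv := by rw [hden]; push_cast; ring
  have k3 : lsum (fun u => lsum (fun v => val (dfc l f) G.nodes (rowL G S J u v den)) vs ws') us ws
      ≤ (S * G.N0 / (2 * su * sv)) * LL (dfc l f) us vs ws ws' := by
    unfold LL
    rw [← lsum_mul_left]
    refine lsum_mono _ _ (fun u _ => ?_)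
    rw [← lsum_mul_left]
    refine lsum_mono _ _ (fun v _ => ?_)
    have := rowL_sound hD hG S J u v den
    rw [hden'] at this
    rw [div_mul_eq_mul_div, le_div_iff₀ (by positivity)]
    linarith
  have k4 := key.trans k3
  rw [hC] at k4
  push_cast at k4
  have k5 : lsum F G.nodes W' ≤ G.N0 / (2 * su * sv) / S * LL (dfc l f) us vs ws ws' := by
    rw [← mul_le_mul_iff_right₀ (show (0 : ℝ) < S * S by positivity)]
    refine k4.trans (le_of_eq ?_)
    field_simp
  have k6 := mul_le_mul_of_nonneg_left k5 (show (0 : ℝ) ≤ 1 / S * (3 / G.N0) by positivity)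
  have e7 : 1 / (S : ℝ) * (3 / G.N0) * (G.N0 / (2 * su * sv) / S * LL (dfc l f) us vs ws ws')
      = 3 / (2 * su * sv) / (S * S) * LL (dfc l f) us vs ws ws' := by
    field_simp
  rw [e7] at k6
  have e8 : 1 / (S : ℝ) * ((S : ℝ) * avg (Fn l f) ver3 - 3 / G.N0 * lsum F G.nodes W')
      = avg (Fn l f) ver3 - 1 / S * (3 / G.N0) * lsum F G.nodes W' := by
    field_simp
  rw [e8]
  linarith

end Vale.Agent.P154.LN.Four
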