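import Vale.Agent.Lib.P154.LN.Ops
import Vale.Agent.Lib.P154.LN.FourDef

/-!
# Soundness of the integer quantiser
-/

open scoped BigOperators

namespace Vale.Agent.P154.LN.Four

/-- properties of the defect functionals -/
structure Defect (D : ℝ → ℝ → ℝ → ℝ) : Prop where
  nn : ∀ {x y z : ℝ}, 0 ≤ x → 0 ≤ y → 0 ≤ z → 0 ≤ D x y z
  sw : ∀ x y z : ℝ, D y x z = D x y z
  sw' : ∀ x y z : ℝ, D x z y = D x y z
  hom : ∀ {c : ℝ} (x y z : ℝ), 0 ≤ c → D (c * x) (c * y) (c * z) = c * D x y z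
  split : ∀ {x y z x1 y1 x2 y2 la mu : ℝ}, 0 ≤ x → 0 ≤ y → 0 ≤ z → 0 ≤ x1 → 0 ≤ y1 →
    0 ≤ x2 → 0 ≤ y2 → 0 ≤ la → 0 ≤ mu → la + mu = 1 → x1 + y1 = x + y → x2 + y2 = x + y →
    x * y = la * (x1 * y1) + mu * (x2 * y2) → la * D x1 y1 z + mu * D x2 y2 z ≤ D x y z

theorem ndiv_eq (a b : ℕ) : Nat.div a b = a / b := rfl

theorem frc_eq {α : Type} (n : ℕ) (k : ℕ → α) : frc n k = k n := by
  cases n <;> rfl

section Sound

variable {D : ℝ → ℝ → ℝ → ℝ} (hD : Defect D) {nodes : List Tr}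

/-- value of the node number `i` -/
noncomputable def dn (D : ℝ → ℝ → ℝ → ℝ) (nodes : List Tr) (i : ℕ) : ℝ :=
  D ((nodes.getD i (0, 0, 0)).1 : ℝ) ((nodes.getD i (0, 0, 0)).2.1 : ℝ)
    ((nodes.getD i (0, 0, 0)).2.2 : ℝ)

/-- value of an output list -/
noncomputable def val (D : ℝ → ℝ → ℝ → ℝ) (nodes : List Tr) : List (ℕ × ℕ) → ℝ
  | [] => 0
  | p :: l => (p.2 : ℝ) * dn D nodes p.1 + val D nodes l

theorem val_append (l l' : List (ℕ × ℕ)) :
    val D nodes (l ++ l') = val D nodes l + val D nodes l' := by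
  induction l with
  | nil => simp [val]
  | cons p l ih => simp only [List.cons_append, val, ih]; ring

/-- entries of a layer -/
def entOk (nodes : List Tr) (h : ℕ) (e : ℕ × ℕ × ℕ) : Prop :=
  nodes.getD e.2.2 (0, 0, 0) = (e.1, e.2.1, h) ∨ nodes.getD e.2.2 (0, 0, 0) = (e.1, h, e.2.1)

instance (nodes : List Tr) (h : ℕ) (e : ℕ × ℕ × ℕ) : Decidable (entOk nodes h e) := by
  unfold entOk; infer_instance

include hD

theorem dn_ent {h : ℕ} {e : ℕ × ℕ × ℕ} (he : entOk nodes h e) :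
    dn D nodes e.2.2 = D (e.1 : ℝ) (e.2.1 : ℝ) (h : ℝ) := by
  unfold dn
  rcases he with he | he
  · rw [he]
  · rw [he]
    exact hD.sw' _ _ _

theorem D_nonneg_nat (a b c : ℕ) : 0 ≤ D (a : ℝ) b c :=
  hD.nn (Nat.cast_nonneg _) (Nat.cast_nonneg _) (Nat.cast_nonneg _)

theorem dn_nonneg (i : ℕ) : 0 ≤ dn D nodes i := D_nonneg_nat hD _ _ _

/-- splitting with integer data -/
theorem split_nat {x y z x1 y1 x2 y2 p1 p2 : ℕ} (hq : 1 ≤ p1 + p2) (s1 : x1 + y1 = x + y)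
    (s2 : x2 + y2 = x + y) (hp : (p1 + p2) * (x * y) = p1 * (x1 * y1) + p2 * (x2 * y2)) :
    (p1 : ℝ) * D x1 y1 z + (p2 : ℝ) * D x2 y2 z ≤ ((p1 + p2 : ℕ) : ℝ) * D x y z := by
  have q0 : (0 : ℝ) < ((p1 + p2 : ℕ) : ℝ) := by exact_mod_cast hq
  set q : ℝ := ((p1 + p2 : ℕ) : ℝ) with hqd
  have hqs : q = p1 + p2 := by rw [hqd]; push_cast; ring
  have hp' : q * ((x : ℝ) * y) = p1 * ((x1 : ℝ) * y1) + p2 * ((x2 : ℝ) * y2) := by
    rw [hqd]; exact_mod_cast hp
  have key := hD.split (x := x) (y := y) (z := z) (x1 := x1) (y1 := y1) (x2 := x2) (y2 := y2)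
    (la := p1 / q) (mu := p2 / q) (Nat.cast_nonneg _) (Nat.cast_nonneg _) (Nat.cast_nonneg _)
    (Nat.cast_nonneg _) (Nat.cast_nonneg _) (Nat.cast_nonneg _) (Nat.cast_nonneg _)
    (by positivity) (by positivity) (by rw [← add_div, ← hqs, div_self q0.ne'])
    (by exact_mod_cast s1) (by exact_mod_cast s2)
    (by
      have : (x : ℝ) * y = (p1 * ((x1 : ℝ) * y1) + p2 * ((x2 : ℝ) * y2)) / q := by
        rw [← hp']; field_simp
      rw [this]; ring)
  have := mul_le_mul_of_nonneg_left key q0.le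
  calc (p1 : ℝ) * D x1 y1 z + (p2 : ℝ) * D x2 y2 z
      = q * (p1 / q * D x1 y1 z + p2 / q * D x2 y2 z) := by field_simp
    _ ≤ _ := this

theorem out2_sound {h M x y num den : ℕ} {e1 e2 : ℕ × ℕ × ℕ}
    (he1 : entOk nodes h e1) (he2 : entOk nodes h e2) :
    (den : ℝ) * val D nodes (out2 M x y num den e1 e2) ≤ num * D x y ((h * M : ℕ) : ℝ) := by
  unfold out2
  simp only [frc_eq, Nat.add_eq, Nat.mul_eq, Nat.sub_eq, ndiv_eq]
  set p1 := e2.1 * M * (e2.2.1 * M) - x * y with hp1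
  set p2 := x * y - e1.1 * M * (e1.2.1 * M) with hp2
  by_cases hc : (((e1.1 + e1.2.1) * M).beq (x + y) && (((e2.1 + e2.2.1) * M).beq (x + y) &&
      (Nat.ble 1 (p1 + p2) && ((p1 + p2) * (x * y)).beq (p1 * (e1.1 * M * (e1.2.1 * M)) +
        p2 * (e2.1 * M * (e2.2.1 * M)))))) = true
  · rw [hc, cond_true]
    simp only [Bool.and_eq_true, Nat.beq_eq, Nat.ble_eq] at hc
    obtain ⟨s1, s2, hq, hp⟩ := hc
    have key := split_nat hD (x := x) (y := y) (z := h * M) (x1 := e1.1 * M) (y1 := e1.2.1 * M)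
      (x2 := e2.1 * M) (y2 := e2.2.1 * M) hq (by rw [← s1]; ring) (by rw [← s2]; ring) hp
    simp only [val, add_zero]
    rw [dn_ent hD he1, dn_ent hD he2]
    have q0 : (0 : ℝ) < ((p1 + p2 : ℕ) : ℝ) := by exact_mod_cast hq
    have hm : ∀ a b : ℕ, D ((a * M : ℕ) : ℝ) ((b * M : ℕ) : ℝ) ((h * M : ℕ) : ℝ)
        = M * D (a : ℝ) b h := by
      intro a b
      rw [← hD.hom _ _ _ (Nat.cast_nonneg M)]
      push_cast
      congr 1 <;> ring
    rw [hm, hm] at key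
    have n1 : (((num * p1 * M / (den * (p1 + p2)) : ℕ) : ℝ)) * (den * ((p1 + p2 : ℕ) : ℝ))
        ≤ num * p1 * M := by
      exact_mod_cast Nat.div_mul_le_self (num * p1 * M) (den * (p1 + p2))
    have n2 : (((num * p2 * M / (den * (p1 + p2)) : ℕ) : ℝ)) * (den * ((p1 + p2 : ℕ) : ℝ))
        ≤ num * p2 * M := by
      exact_mod_cast Nat.div_mul_le_self (num * p2 * M) (den * (p1 + p2))
    have d1 : 0 ≤ D (e1.1 : ℝ) e1.2.1 h := D_nonneg_nat hD _ _ _
    have d2 : 0 ≤ D (e2.1 : ℝ) e2.2.1 h := D_nonneg_nat hD _ _ _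
    have m1 := mul_le_mul_of_nonneg_right n1 d1
    have m2 := mul_le_mul_of_nonneg_right n2 d2
    have m3 := mul_le_mul_of_nonneg_left key (Nat.cast_nonneg (α := ℝ) num)
    rw [← mul_le_mul_iff_left₀ q0]
    calc _ = (((num * p1 * M / (den * (p1 + p2)) : ℕ) : ℝ)) * (den * ((p1 + p2 : ℕ) : ℝ))
            * D (e1.1 : ℝ) e1.2.1 h
          + (((num * p2 * M / (den * (p1 + p2)) : ℕ) : ℝ)) * (den * ((p1 + p2 : ℕ) : ℝ))
            * D (e2.1 : ℝ) e2.2.1 h := by ring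
      _ ≤ (num : ℝ) * p1 * M * D (e1.1 : ℝ) e1.2.1 h + (num : ℝ) * p2 * M * D (e2.1 : ℝ) e2.2.1 h :=
          add_le_add m1 m2
      _ ≤ (num : ℝ) * ((((p1 + p2 : ℕ) : ℝ)) * D x y ((h * M : ℕ) : ℝ)) := by
          refine le_trans (le_of_eq ?_) m3
          ring
      _ = _ := by ring
  · rw [Bool.not_eq_true] at hc
    rw [hc, cond_false]
    simp only [val, mul_zero]
    have := D_nonneg_nat hD x y (h * M)
    positivity

theorem inl_sound {h M x y num den : ℕ} (E : List (ℕ × ℕ × ℕ)) (hE : ∀ e ∈ E, entOk nodes h e) :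
    (den : ℝ) * val D nodes (inl M x y num den E) ≤ num * D x y ((h * M : ℕ) : ℝ) := by
  have nn := D_nonneg_nat hD x y (h * M)
  have z : (den : ℝ) * val D nodes [] ≤ num * D x y ((h * M : ℕ) : ℝ) := by
    simp only [val, mul_zero]; positivity
  induction E with
  | nil => exact z
  | cons e1 rest ih =>
    cases rest with
    | nil => exact z
    | cons e2 r =>
      show (den : ℝ) * val D nodes (bif Nat.ble (min x y) (Nat.mul e2.2.1 M) then
        out2 M x y num den e1 e2 else inl M x y num den (e2 :: r)) ≤ _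
      cases Nat.ble (min x y) (Nat.mul e2.2.1 M)
      · exact ih (fun e he => hE e (List.mem_cons_of_mem _ he))
      · exact out2_sound hD (hE e1 List.mem_cons_self) (hE e2 (by simp))

theorem out4_sound {M a b c num den : ℕ} {L1 L2 : ℕ × List (ℕ × ℕ × ℕ)}
    (h1 : ∀ e ∈ L1.2, entOk nodes L1.1 e) (h2 : ∀ e ∈ L2.2, entOk nodes L2.1 e) :
    (den : ℝ) * val D nodes (out4 M a b c num den L1 L2) ≤ num * D a b c := by
  unfold out4
  simp only [frc_eq, Nat.add_eq, Nat.mul_eq, Nat.sub_eq]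
  set u1 := a + c - L1.1 * M
  set u2 := a + c - L2.1 * M
  set p1 := u2 * (L2.1 * M) - a * c with hp1
  set p2 := a * c - u1 * (L1.1 * M) with hp2
  by_cases hc : ((u1 + L1.1 * M).beq (a + c) && ((u2 + L2.1 * M).beq (a + c) &&
      (Nat.ble 1 (p1 + p2) && ((p1 + p2) * (a * c)).beq (p1 * (u1 * (L1.1 * M)) +
        p2 * (u2 * (L2.1 * M)))))) = true
  · rw [hc, cond_true]
    simp only [Bool.and_eq_true, Nat.beq_eq, Nat.ble_eq] at hc
    obtain ⟨s1, s2, hq, hp⟩ := hc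
    have key := split_nat hD (x := a) (y := c) (z := b) (x1 := u1) (y1 := L1.1 * M)
      (x2 := u2) (y2 := L2.1 * M) hq s1 s2 hp
    rw [hD.sw' (u1 : ℝ) b ((L1.1 * M : ℕ) : ℝ), hD.sw' (u2 : ℝ) b ((L2.1 * M : ℕ) : ℝ),
      hD.sw' (a : ℝ) b c] at key
    have i1 := inl_sound hD (h := L1.1) (M := M) (x := u1) (y := b) (num := num * p1)
      (den := den * (p1 + p2)) L1.2 h1
    have i2 := inl_sound hD (h := L2.1) (M := M) (x := u2) (y := b) (num := num * p2)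
      (den := den * (p1 + p2)) L2.2 h2
    rw [val_append]
    have q0 : (0 : ℝ) < ((p1 + p2 : ℕ) : ℝ) := by exact_mod_cast hq
    have m3 := mul_le_mul_of_nonneg_left key (Nat.cast_nonneg (α := ℝ) num)
    rw [Nat.cast_mul] at i1 i2
    rw [Nat.cast_mul num] at i1 i2
    rw [← mul_le_mul_iff_left₀ q0]
    calc _ = ((den : ℝ) * ((p1 + p2 : ℕ) : ℝ)) * val D nodes
            (inl M u1 b (num * p1) (den * (p1 + p2)) L1.2)
          + ((den : ℝ) * ((p1 + p2 : ℕ) : ℝ)) * val D nodes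
            (inl M u2 b (num * p2) (den * (p1 + p2)) L2.2) := by ring
      _ ≤ (num : ℝ) * p1 * D u1 b ((L1.1 * M : ℕ) : ℝ)
          + (num : ℝ) * p2 * D u2 b ((L2.1 * M : ℕ) : ℝ) := add_le_add i1 i2
      _ ≤ (num : ℝ) * ((((p1 + p2 : ℕ) : ℝ)) * D a b c) := by
          refine le_trans (le_of_eq ?_) m3
          ring
      _ = _ := by ring
  · rw [Bool.not_eq_true] at hc
    rw [hc, cond_false]
    simp only [val, mul_zero]
    have := D_nonneg_nat hD a b c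
    positivity

theorem shift_sound {M a b c num den : ℕ} (Ls : List (ℕ × List (ℕ × ℕ × ℕ)))
    (hL : ∀ L ∈ Ls, ∀ e ∈ L.2, entOk nodes L.1 e) :
    (den : ℝ) * val D nodes (shift M a b c num den Ls) ≤ num * D a b c := by
  have nn := D_nonneg_nat hD a b c
  have z : (den : ℝ) * val D nodes [] ≤ num * D a b c := by
    simp only [val, mul_zero]; positivity
  induction Ls with
  | nil => exact z
  | cons L1 rest ih =>
    cases rest with
    | nil => exact z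
    | cons L2 r =>
      show (den : ℝ) * val D nodes (bif Nat.ble c (Nat.mul L2.1 M) then
        out4 M a b c num den L1 L2 else shift M a b c num den (L2 :: r)) ≤ _
      cases Nat.ble c (Nat.mul L2.1 M)
      · exact ih (fun L he => hL L (List.mem_cons_of_mem _ he))
      · exact out4_sound hD (hL L1 List.mem_cons_self) (hL L2 (by simp))

end Sound

/-- the entries of the grid are permutations of nodes -/
def Grid.Ok (G : Grid) : Prop := ∀ L ∈ G.lays, ∀ e ∈ L.2, entOk G.nodes L.1 e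

instance (G : Grid) : Decidable G.Ok := by
  unfold Grid.Ok; infer_instance

section Sound2

variable {D : ℝ → ℝ → ℝ → ℝ} (hD : Defect D) {G : Grid} (hG : G.Ok)

include hD hG

theorem quant_sound (a b c num den : ℕ) :
    (den : ℝ) * val D G.nodes (quant G a b c num den) ≤ num * (G.N0 * D a b c) := by
  unfold quant
  simp only [frc_eq, Nat.add_eq, Nat.mul_eq]
  have key : ∀ x y z : ℕ, (den : ℝ) * val D G.nodes
      (shift (a + b + c) (G.N0 * x) (G.N0 * y) (G.N0 * z) num den G.lays)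
      ≤ num * (G.N0 * D x y z) := by
    intro x y z
    have := shift_sound hD (nodes := G.nodes) (M := a + b + c) (a := G.N0 * x) (b := G.N0 * y)
      (c := G.N0 * z) (num := num) (den := den) G.lays hG
    rw [Nat.cast_mul, Nat.cast_mul, Nat.cast_mul, hD.hom _ _ _ (Nat.cast_nonneg _)] at this
    exact this
  have s := hD.sw
  have s' := hD.sw'
  unfold srt
  cases Nat.ble a b <;> cases Nat.ble b c <;> cases Nat.ble a c <;>
    simp only [cond_true, cond_false]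
  · exact key _ _ _
  · refine (key _ _ _).trans (le_of_eq ?_)
    rw [s (a : ℝ) c b, s' (a : ℝ) b c]
  · refine (key _ _ _).trans (le_of_eq ?_)
    rw [s' (a : ℝ) b c]
  · refine (key _ _ _).trans (le_of_eq ?_)
    rw [s (a : ℝ) c b, s' (a : ℝ) b c]
  · refine (key _ _ _).trans (le_of_eq ?_)
    rw [s (a : ℝ) b c]
  · refine (key _ _ _).trans (le_of_eq ?_)
    rw [s' (b : ℝ) a c, s (a : ℝ) b c]
  · refine (key _ _ _).trans (le_of_eq ?_)
    rw [s (b : ℝ) c a, s' (b : ℝ) a c, s (a : ℝ) b c]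
  · refine (key _ _ _).trans (le_of_eq ?_)
    rw [s (b : ℝ) c a, s' (b : ℝ) a c, s (a : ℝ) b c]

end Sound2

/-- sum of a functional over the six products -/
noncomputable def six (D : ℝ → ℝ → ℝ → ℝ) (u v : Tr) : ℝ :=
  D ((u.1 * v.1 : ℕ) : ℝ) ((u.2.1 * v.2.1 : ℕ) : ℝ) ((u.2.2 * v.2.2 : ℕ) : ℝ) +
  (D ((u.1 * v.1 : ℕ) : ℝ) ((u.2.1 * v.2.2 : ℕ) : ℝ) ((u.2.2 * v.2.1 : ℕ) : ℝ) +
  (D ((u.1 * v.2.1 : ℕ) : ℝ) ((u.2.1 * v.1 : ℕ) : ℝ) ((u.2.2 * v.2.2 : ℕ) : ℝ) +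
  (D ((u.1 * v.2.1 : ℕ) : ℝ) ((u.2.1 * v.2.2 : ℕ) : ℝ) ((u.2.2 * v.1 : ℕ) : ℝ) +
  (D ((u.1 * v.2.2 : ℕ) : ℝ) ((u.2.1 * v.1 : ℕ) : ℝ) ((u.2.2 * v.2.1 : ℕ) : ℝ) +
  D ((u.1 * v.2.2 : ℕ) : ℝ) ((u.2.1 * v.2.1 : ℕ) : ℝ) ((u.2.2 * v.1 : ℕ) : ℝ)))))

section Sound3

variable {D : ℝ → ℝ → ℝ → ℝ} (hD : Defect D) {G : Grid} (hG : G.Ok)

include hD

theorem six_nonneg (u v : Tr) : 0 ≤ six D u v := by
  unfold six
  have h := D_nonneg_nat hD
  exact add_nonneg (h _ _ _) (add_nonneg (h _ _ _) (add_nonneg (h _ _ _) (add_nonneg (h _ _ _)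
    (add_nonneg (h _ _ _) (h _ _ _)))))

include hG

theorem row6_sound (u v : Tr) (num den : ℕ) :
    (den : ℝ) * val D G.nodes (row6 G u v num den) ≤ num * (G.N0 * six D u v) := by
  unfold row6 six
  simp only [val_append, Nat.mul_eq]
  have q := quant_sound hD hG
  have q1 := q (u.1 * v.1) (u.2.1 * v.2.1) (u.2.2 * v.2.2) num den
  have q2 := q (u.1 * v.1) (u.2.1 * v.2.2) (u.2.2 * v.2.1) num den
  have q3 := q (u.1 * v.2.1) (u.2.1 * v.1) (u.2.2 * v.2.2) num den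
  have q4 := q (u.1 * v.2.1) (u.2.1 * v.2.2) (u.2.2 * v.1) num den
  have q5 := q (u.1 * v.2.2) (u.2.1 * v.1) (u.2.2 * v.2.1) num den
  have q6 := q (u.1 * v.2.2) (u.2.1 * v.2.1) (u.2.2 * v.1) num den
  linarith

theorem rowL_sound (S J : ℕ) (u v : Tr) (den : ℕ) :
    (den : ℝ) * val D G.nodes (rowL G S J u v den) ≤ S * (G.N0 * six D u v) := by
  unfold rowL
  cases Nat.ble (wsum (row6 G u v S den)) S && idxLt J (row6 G u v S den)
  · rw [cond_false]
    simp only [val, mul_zero]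
    have := six_nonneg hD u v
    positivity
  · rw [cond_true]
    exact row6_sound hD hG u v S den

end Sound3

end Vale.Agent.P154.LN.Four
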