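import Vale.Agent.Lib.P154.LN.Core
import Vale.Agent.Lib.P154.FrameNR

/-!
# Laws, domination and message operators

A (symmetric, finite) law is a list of pairs `(weight, vector)`; its value on a functional is the
weighted sum of the averages over orientations.  `Dom L μ` says that the likelihood family `L` is
dominated by the law `μ` for all quadratic-over-linear functionals.
-/

open scoped BigOperators

namespace Vale.Agent.P154.LN

/-- pointwise product -/
def pm (a b : V3) : V3 := fun i => a i * b i

/-- finite symmetric laws -/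
abbrev Law := List (ℝ × V3)

/-- nonnegative weights and nonnegative vectors -/
def Law.Ok (μ : Law) : Prop := ∀ a ∈ μ, 0 ≤ a.1 ∧ ∀ i, 0 ≤ a.2 i

/-- value of a functional on a law -/
noncomputable def ev (μ : Law) (φ : V3 → ℝ) : ℝ := (μ.map (fun a => a.1 * avg φ a.2)).sum

/-- domination of a family of likelihood vectors by a law -/
def Dom {Ω : Type} [Fintype Ω] (L : Fin 3 → Ω → ℝ) (μ : Law) : Prop :=
  ∀ l f : V3, (∀ i, 0 ≤ l i) → sumF (Fn l f) L ≤ ev μ (Fn l f)

/-- average of `φ` over the products of `w` with the six orientations of `m` -/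
noncomputable def act (m : V3) (φ : V3 → ℝ) (w : V3) : ℝ := avg (fun v => φ (pm w v)) m

/-- message operator of a law -/
noncomputable def opL (μ : Law) (φ : V3 → ℝ) : V3 → ℝ :=
  fun w => (μ.map (fun a => a.1 * act a.2 φ w)).sum

/-- the law seen through an edge -/
noncomputable def edgeLaw (lam : ℝ) (μ : Law) : Law := μ.map (fun a => (a.1, smooth lam a.2))

/-- the three-atom law with parameters `(x, P)` -/
noncomputable def law3 (x P : ℝ) : Law :=
  [((x + 2 * P) / 3, ver3), (8 / 3 * (x - P), mid3), (1 - 3 * x + 2 * P, one3)]

/-- `(mass) * |z|^2`, i.e. the `x`-functional -/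
noncomputable def fA (w : V3) : ℝ := t1 w + t2 w / 4
/-- `(mass) * Re z^3`, i.e. the `P`-functional -/
noncomputable def fP (w : V3) : ℝ := t1 w - t2 w / 8

end Vale.Agent.P154.LN
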