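import Vale.Agent.Lib.P154.LN.UTab

/-!
# Potentials for the two-parameter recursion

`Psi c1 c2 c3 x P = x + c3 x^2 + c1 x P⁺ + c2 (P⁺)^2`.
-/

open scoped BigOperators

namespace Vale.Agent.P154.LN

/-- the potential -/
noncomputable def Psi (c1 c2 c3 x P : ℝ) : ℝ :=
  x + c3 * x ^ 2 + c1 * x * max P 0 + c2 * (max P 0) ^ 2

theorem Psi_nonneg {c1 c2 c3 x P : ℝ} (h1 : 0 ≤ c1) (h2 : 0 ≤ c2) (h3 : 0 ≤ c3) (hx : 0 ≤ x) :
    0 ≤ Psi c1 c2 c3 x P := by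
  have hm : 0 ≤ max P 0 := le_max_right _ _
  unfold Psi
  positivity

theorem Psi_mono {c1 c2 c3 X X' Y Y' : ℝ} (h1 : 0 ≤ c1) (h2 : 0 ≤ c2) (h3 : 0 ≤ c3)
    (hX : 0 ≤ X) (hXX : X ≤ X') (hYY : Y ≤ Y') : Psi c1 c2 c3 X Y ≤ Psi c1 c2 c3 X' Y' := by
  have hm : 0 ≤ max Y 0 := le_max_right _ _
  have hm' : max Y 0 ≤ max Y' 0 := max_le_max hYY le_rfl
  have e1 : X ^ 2 ≤ X' ^ 2 := pow_le_pow_left₀ hX hXX 2
  have e2 : (max Y 0) ^ 2 ≤ (max Y' 0) ^ 2 := pow_le_pow_left₀ hm hm' 2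
  have e3 : X * max Y 0 ≤ X' * max Y' 0 :=
    mul_le_mul hXX hm' hm (hX.trans hXX)
  unfold Psi
  have a1 := mul_le_mul_of_nonneg_left e1 h3
  have a2 := mul_le_mul_of_nonneg_left e2 h2
  have a3 := mul_le_mul_of_nonneg_left e3 h1
  nlinarith

theorem Psi_le_of {c1 c2 c3 X Y R : ℝ} (h0 : X + c3 * X ^ 2 + c1 * X * Y + c2 * Y ^ 2 ≤ R)
    (h1 : X + c3 * X ^ 2 ≤ R) : Psi c1 c2 c3 X Y ≤ R := by
  unfold Psi
  rcases le_total Y 0 with h | h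
  · rw [max_eq_right h]
    linarith
  · rw [max_eq_left h]
    exact h0

/-- a nonnegative quantity which loses a fixed multiple of `x n ^ 2` at each step forces
`x n → 0` -/
theorem tendsto_zero_of_potential {x V : ℕ → ℝ} {s : ℝ} (hs : 0 < s) (hV : ∀ n, 0 ≤ V n)
    (hdec : ∀ n, V (n + 1) ≤ V n - s * (x n) ^ 2) :
    Filter.Tendsto x Filter.atTop (nhds 0) := by
  have hsum : ∀ n, ∑ k ∈ Finset.range n, (x k) ^ 2 ≤ V 0 / s := by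
    have key : ∀ n, s * ∑ k ∈ Finset.range n, (x k) ^ 2 ≤ V 0 - V n := by
      intro n
      induction n with
      | zero => simp
      | succ n ih =>
        rw [Finset.sum_range_succ, mul_add]
        have := hdec n
        linarith
    intro n
    rw [le_div_iff₀ hs]
    have h1 := key n
    have h2 := hV n
    linarith
  have hsm : Summable (fun n => (x n) ^ 2) :=
    summable_of_sum_range_le (fun n => sq_nonneg _) hsum
  have h2 := hsm.tendsto_atTop_zero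
  have h3 : Filter.Tendsto (fun n => Real.sqrt ((x n) ^ 2)) Filter.atTop (nhds (Real.sqrt 0)) :=
    (Real.continuous_sqrt.tendsto 0).comp h2
  rw [Real.sqrt_zero] at h3
  have h4 : Filter.Tendsto (fun n => |x n|) Filter.atTop (nhds 0) := by
    refine h3.congr (fun n => ?_)
    exact Real.sqrt_sq_eq_abs (x n)
  exact (tendsto_zero_iff_abs_tendsto_zero x).2 h4

/-- bounds for `Psi` at the two bounds, used with the tables -/
noncomputable def PsiU (c1 c2 c3 t A B : ℝ) : ℝ := Psi c1 c2 c3 (Upoly uA t A B) (Upoly uP t A B)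

/-- Certificate inequality for the Poisson trees (all `d > 0`). -/
def CertPois : Prop := ∀ x p : ℝ, x ≤ 1 → -x / 2 ≤ p → p ≤ x → (p ≤ 0 → 3 * x - 2 * p ≤ 1) →
  PsiU 1 (1 / 8) 1 0 ((x + 2 * p) / 3) (2 / 3 * (x - p)) ≤
    Psi 1 (1 / 8) 1 x (max p ((3 * x - 1) / 2)) - 1 / 1000 * x ^ 2

/-- Certificate inequality for the `d`-ary trees, `d ≥ 6`, positive part, for `1 / d = t` in
`[t0, t1]`; here `τ` is an upper bound of `2 / √d`. -/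
def CertRegP (τ t0 t1 : ℝ) : Prop := ∀ t x p : ℝ, t0 ≤ t → t ≤ t1 → x ≤ 1 → 0 ≤ p → p ≤ x →
  PsiU (3 / 4) 0 (1 / 2) t ((x + 2 * (τ * p)) / 3) (2 / 3 * (x - τ * p)) ≤
    Psi (3 / 4) 0 (1 / 2) x (max p ((3 * x - 1) / 2)) - 1 / 1000 * x ^ 2

/-- Certificate inequality for the `d`-ary trees, `d ≥ 6`, negative part. -/
def CertRegN : Prop := ∀ t x p : ℝ, 0 ≤ t → t ≤ 1 / 6 → p ≤ 0 → -x / 2 ≤ p → 3 * x - 2 * p ≤ 1 →
  PsiU (3 / 4) 0 (1 / 2) t ((x + 2 * p) / 3) (2 / 3 * (x - p)) ≤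
    Psi (3 / 4) 0 (1 / 2) x 0 - 1 / 1000 * x ^ 2

/-- Local certificate, `d = 4`. -/
def Cert4 : Prop := ∀ x p : ℝ, x ≤ 1 / 4 → -x / 2 ≤ p → p ≤ x →
  PsiU 0 (3 / 2) 1 (1 / 4) ((x + 2 * p) / 3) (2 / 3 * (x - p)) ≤
    Psi 0 (3 / 2) 1 x p - 1 / 10000 * x ^ 2

/-- Local certificate, `d = 5`, positive part. -/
def Cert5P : Prop := ∀ x p : ℝ, x ≤ 3 / 10 → 0 ≤ p → p ≤ x →
  PsiU 0 (3 / 2) 1 (1 / 5) ((x + 2 * (9 / 10 * p)) / 3) (2 / 3 * (x - 9 / 10 * p)) ≤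
    Psi 0 (3 / 2) 1 x p - 1 / 10000 * x ^ 2

/-- Local certificate, `d = 5`, negative part. -/
def Cert5N : Prop := ∀ x p : ℝ, x ≤ 3 / 10 → p ≤ 0 → -x / 2 ≤ p →
  PsiU 0 (3 / 2) 1 (1 / 5) ((x + 2 * p) / 3) (2 / 3 * (x - p)) ≤
    Psi 0 (3 / 2) 1 x 0 - 1 / 10000 * x ^ 2

end Vale.Agent.P154.LN
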