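import Vale.Agent.Lib.P154.LN.ValOps

/-!
# Closed forms of the values `VA`, `VP`
-/

open scoped BigOperators
open Finset

namespace Vale.Agent.P154.LN

/-! ### Decomposition of `fA` and `fP` -/

noncomputable def lin3 (w : V3) : ℝ := e1 w / 3
noncomputable def gA (w : V3) : ℝ := e2 w / e1 w
noncomputable def gT (w : V3) : ℝ := e3 w / e1 w ^ 2

theorem fA_eq : fA = lin3 + (-1 : ℝ) • gA := by
  funext w
  show fA w = lin3 w + (-1) * gA w
  unfold fA t1 t2 lin3 gA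
  ring

theorem fP_eq : fP = lin3 + (-(3 / 2) : ℝ) • gA + (9 / 2 : ℝ) • gT := by
  funext w
  show fP w = lin3 w + (-(3 / 2)) * gA w + 9 / 2 * gT w
  unfold fP t1 t2 lin3 gA gT
  ring

theorem act_lin3 {m : V3} (hm : e1 m = 3) : act m lin3 = lin3 := by
  funext w
  have h : act m lin3 w = lin3 w * (e1 m / 3) := by
    unfold act avg lin3 e1 pm
    simp only [Matrix.cons_val_zero, Matrix.cons_val_one, Matrix.cons_val_two, Matrix.head_cons,
      Matrix.tail_cons]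
    ring
  rw [h, hm]
  ring

theorem e1_K3 : e1 K3 = 3 := by
  unfold e1 K3
  simp only [Matrix.cons_val_zero, Matrix.cons_val_one, Matrix.cons_val]
  norm_num

theorem e1_M3 : e1 M3 = 3 := by
  unfold e1 M3
  simp only [Matrix.cons_val_zero, Matrix.cons_val_one, Matrix.cons_val]
  norm_num

theorem iter_fix {α : Type*} {f : α → α} {x : α} (h : f x = x) (k : ℕ) : f^[k] x = x :=
  Function.iterate_fixed h k

theorem V_lin3 (a b : ℕ) : V lin3 a b = 1 := by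
  unfold V
  rw [iter_fix (act_lin3 e1_M3), iter_fix (act_lin3 e1_K3)]
  unfold lin3 e1 one3
  simp only [Matrix.cons_val_zero, Matrix.cons_val_one, Matrix.cons_val]
  norm_num

theorem VA_split (a b : ℕ) : VA a b = 1 - V gA a b := by
  unfold VA
  rw [fA_eq, V_add, V_smul, V_lin3]
  ring

theorem VP_split (a b : ℕ) : VP a b = 1 - 3 / 2 * V gA a b + 9 / 2 * V gT a b := by
  unfold VP
  rw [fP_eq, V_add, V_add, V_smul, V_smul, V_lin3]
  ring

/-! ### Homogeneous symmetric functionals -/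

structure Nice (ψ : V3 → ℝ) : Prop where
  hom : ∀ c x y z : ℝ, 0 ≤ c → ψ ![c * x, c * y, c * z] = c * ψ ![x, y, z]
  s01 : ∀ x y z : ℝ, ψ ![x, y, z] = ψ ![y, x, z]
  s12 : ∀ x y z : ℝ, ψ ![x, y, z] = ψ ![x, z, y]

theorem act_vec (m : V3) (ψ : V3 → ℝ) (x y z : ℝ) : act m ψ ![x, y, z] =
    (ψ ![x * m 0, y * m 1, z * m 2] + ψ ![x * m 0, y * m 2, z * m 1]
      + ψ ![x * m 1, y * m 0, z * m 2] + ψ ![x * m 1, y * m 2, z * m 0]
      + ψ ![x * m 2, y * m 0, z * m 1] + ψ ![x * m 2, y * m 1, z * m 0]) / 6 := by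
  have h : ∀ p q r : ℝ, pm ![x, y, z] ![p, q, r] = ![x * p, y * q, z * r] := by
    intro p q r
    funext i
    unfold pm
    fin_cases i <;> rfl
  unfold act avg
  simp only [h]

theorem Nice.act {ψ : V3 → ℝ} (h : Nice ψ) (m : V3) : Nice (act m ψ) where
  hom c x y z hc := by
    rw [act_vec, act_vec]
    simp only [mul_assoc]
    rw [h.hom c _ _ _ hc, h.hom c _ _ _ hc, h.hom c _ _ _ hc, h.hom c _ _ _ hc, h.hom c _ _ _ hc,
      h.hom c _ _ _ hc]
    ring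
  s01 x y z := by
    rw [act_vec, act_vec, h.s01 (y * m 0), h.s01 (y * m 0), h.s01 (y * m 1), h.s01 (y * m 1),
      h.s01 (y * m 2), h.s01 (y * m 2)]
    ring
  s12 x y z := by
    rw [act_vec, act_vec, h.s12 (x * m 0) (z * m 1), h.s12 (x * m 0) (z * m 2),
      h.s12 (x * m 1) (z * m 0), h.s12 (x * m 1) (z * m 2), h.s12 (x * m 2) (z * m 0),
      h.s12 (x * m 2) (z * m 1)]
    ring

theorem Nice.iter {ψ : V3 → ℝ} (h : Nice ψ) (m : V3) (k : ℕ) :
    Nice ((LN.act m)^[k] ψ) := by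
  induction k with
  | zero => exact h
  | succ k ih => rw [Function.iterate_succ_apply']; exact ih.act m

theorem gA_vec (x y z : ℝ) : gA ![x, y, z] = (x * y + y * z + x * z) / (x + y + z) := rfl
theorem gT_vec (x y z : ℝ) : gT ![x, y, z] = (x * y * z) / (x + y + z) ^ 2 := rfl

theorem nice_gA : Nice gA where
  hom c x y z hc := by
    rw [gA_vec, gA_vec]
    rcases hc.eq_or_lt with h | h
    · rw [← h]; simp
    · rw [show c * x * (c * y) + c * y * (c * z) + c * x * (c * z)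
        = c * (c * (x * y + y * z + x * z)) by ring,
        show c * x + c * y + c * z = c * (x + y + z) by ring, mul_div_mul_left _ _ h.ne',
        mul_div_assoc]
  s01 x y z := by
    rw [gA_vec, gA_vec]; congr 1 <;> ring
  s12 x y z := by
    rw [gA_vec, gA_vec]; congr 1 <;> ring

theorem nice_gT : Nice gT where
  hom c x y z hc := by
    rw [gT_vec, gT_vec]
    rcases hc.eq_or_lt with h | h
    · rw [← h]; simp
    · rw [show c * x * (c * y) * (c * z) = c ^ 2 * (c * (x * y * z)) by ring,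
        show (c * x + c * y + c * z) ^ 2 = c ^ 2 * (x + y + z) ^ 2 by ring,
        mul_div_mul_left _ _ (pow_pos h 2).ne', mul_div_assoc]
  s01 x y z := by
    rw [gT_vec, gT_vec]; congr 1 <;> ring
  s12 x y z := by
    rw [gT_vec, gT_vec]; congr 1 <;> ring

theorem Nice.zero {ψ : V3 → ℝ} (h : Nice ψ) : ψ ![0, 0, 0] = 0 := by
  have := h.hom 0 0 0 0 le_rfl
  simpa using this

theorem Nice.hom1 {ψ : V3 → ℝ} (h : Nice ψ) {c : ℝ} (hc : 0 ≤ c) : ψ ![0, 0, c]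
    = c * ψ ![0, 0, 1] := by
  have := h.hom c 0 0 1 hc
  simpa using this

theorem Nice.hom2 {ψ : V3 → ℝ} (h : Nice ψ) {c : ℝ} (hc : 0 ≤ c) : ψ ![0, c, c]
    = c * ψ ![0, 1, 1] := by
  have := h.hom c 0 1 1 hc
  simpa using this

theorem K3_0 : K3 0 = 0 := rfl
theorem K3_1 : K3 1 = 3 / 2 := rfl
theorem K3_2 : K3 2 = 3 / 2 := rfl
theorem M3_0 : M3 0 = 3 / 4 := rfl
theorem M3_1 : M3 1 = 3 / 4 := rfl
theorem M3_2 : M3 2 = 3 / 2 := rfl

theorem Nice.K_one {ψ : V3 → ℝ} (h : Nice ψ) : LN.act K3 ψ one3 = 3 / 2 * ψ ![0, 1, 1] := by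
  show LN.act K3 ψ ![1, 1, 1] = _
  rw [act_vec, K3_0, K3_1, K3_2]
  simp only [one_mul]
  rw [h.s01 (3 / 2) 0 (3 / 2), h.s12 (3 / 2) (3 / 2) 0, h.s01 (3 / 2) 0 (3 / 2),
    h.hom2 (by norm_num)]
  ring

theorem Nice.K_two {ψ : V3 → ℝ} (h : Nice ψ) (hs : ψ ![0, 0, 1] = 0) :
    LN.act K3 ψ ![0, 1, 1] = 1 / 2 * ψ ![0, 1, 1] := by
  rw [act_vec, K3_0, K3_1, K3_2]
  simp only [one_mul, zero_mul]
  rw [h.s12 0 (3 / 2) 0, h.hom1 (by norm_num), hs, h.hom2 (by norm_num)]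
  ring

theorem Nice.single {ψ : V3 → ℝ} (h : Nice ψ) (hs : ψ ![0, 0, 1] = 0) {c : ℝ} (hc : 0 ≤ c) :
    ψ ![0, 0, c] = 0 := by rw [h.hom1 hc, hs, mul_zero]

theorem Nice.act_single {ψ : V3 → ℝ} (h : Nice ψ) (hs : ψ ![0, 0, 1] = 0) {m : V3}
    (hm : ∀ i, 0 ≤ m i) : LN.act m ψ ![0, 0, 1] = 0 := by
  rw [act_vec]
  simp only [one_mul, zero_mul]
  rw [h.single hs (hm 0), h.single hs (hm 1), h.single hs (hm 2)]
  norm_num

theorem K3_nonneg (i : Fin 3) : 0 ≤ K3 i := by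
  fin_cases i
  · exact le_of_eq K3_0.symm
  · show (0 : ℝ) ≤ K3 1
    rw [K3_1]; norm_num
  · show (0 : ℝ) ≤ K3 2
    rw [K3_2]; norm_num

theorem M3_nonneg (i : Fin 3) : 0 ≤ M3 i := by
  fin_cases i
  · show (0 : ℝ) ≤ M3 0
    rw [M3_0]; norm_num
  · show (0 : ℝ) ≤ M3 1
    rw [M3_1]; norm_num
  · show (0 : ℝ) ≤ M3 2
    rw [M3_2]; norm_num

theorem Nice.iter_single {ψ : V3 → ℝ} (h : Nice ψ) (hs : ψ ![0, 0, 1] = 0) {m : V3}
    (hm : ∀ i, 0 ≤ m i) (k : ℕ) : (LN.act m)^[k] ψ ![0, 0, 1] = 0 := by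
  induction k with
  | zero => exact hs
  | succ k ih =>
    rw [Function.iterate_succ_apply']
    exact (h.iter m k).act_single ih hm

theorem Nice.K_iter {ψ : V3 → ℝ} (h : Nice ψ) (hs : ψ ![0, 0, 1] = 0) (k : ℕ) :
    (LN.act K3)^[k] ψ ![0, 1, 1] = (1 / 2) ^ k * ψ ![0, 1, 1] := by
  induction k with
  | zero => simp
  | succ k ih =>
    rw [Function.iterate_succ_apply', (h.iter K3 k).K_two (h.iter_single hs K3_nonneg k), ih,
      pow_succ]
    ring

theorem Nice.K_iter_one {ψ : V3 → ℝ} (h : Nice ψ) (hs : ψ ![0, 0, 1] = 0) (k : ℕ) :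
    (LN.act K3)^[k + 1] ψ one3 = 3 / 2 * (1 / 2) ^ k * ψ ![0, 1, 1] := by
  rw [Function.iterate_succ_apply', (h.iter K3 k).K_one, h.K_iter hs k]
  ring

/-- `E[gA]` on the edge, `E[gA]` and `E[gT]` in the middle -/
noncomputable def HA (k : ℕ) : ℝ := (act M3)^[k] gA ![0, 1, 1]
noncomputable def GA (k : ℕ) : ℝ := (act M3)^[k] gA one3
noncomputable def TA (k : ℕ) : ℝ := (act M3)^[k] gT one3

theorem V_gA_zero (b : ℕ) : V gA 0 b = GA b := rfl
theorem V_gT_zero (b : ℕ) : V gT 0 b = TA b := rfl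

theorem V_gA_succ (a b : ℕ) : V gA (a + 1) b = 3 / 2 * (1 / 2) ^ a * HA b := by
  unfold V
  have hs : gA ![0, 0, 1] = 0 := by rw [gA_vec]; norm_num
  exact (nice_gA.iter M3 b).K_iter_one (nice_gA.iter_single hs M3_nonneg b) a

theorem V_gT_succ (a b : ℕ) : V gT (a + 1) b = 0 := by
  unfold V
  have hs : gT ![0, 0, 1] = 0 := by rw [gT_vec]; norm_num
  rw [(nice_gT.iter M3 b).K_iter_one (nice_gT.iter_single hs M3_nonneg b) a]
  have hz : ∀ (k : ℕ) (x y : ℝ), (act M3)^[k] gT ![0, x, y] = 0 := by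
    intro k
    induction k with
    | zero =>
      intro x y
      show gT ![0, x, y] = 0
      rw [gT_vec]; simp
    | succ k ih =>
      intro x y
      rw [Function.iterate_succ_apply', act_vec]
      simp only [zero_mul, ih]
      norm_num
  rw [hz]
  ring

theorem VA_zero (b : ℕ) : VA 0 b = 1 - GA b := by rw [VA_split, V_gA_zero]
theorem VA_succ (a b : ℕ) : VA (a + 1) b = 1 - 3 / 2 * (1 / 2) ^ a * HA b := by
  rw [VA_split, V_gA_succ]
theorem VP_zero (b : ℕ) : VP 0 b = 1 - 3 / 2 * GA b + 9 / 2 * TA b := by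
  rw [VP_split, V_gA_zero, V_gT_zero]
theorem VP_succ (a b : ℕ) : VP (a + 1) b = 1 - 9 / 4 * (1 / 2) ^ a * HA b := by
  rw [VP_split, V_gA_succ, V_gT_succ]
  ring

/-! ### The multinomial formula for the middles -/

/-- pointwise scaling -/
noncomputable def Sc (d : V3) : Module.End ℝ (V3 → ℝ) where
  toFun φ := fun w => φ (pm w d)
  map_add' _ _ := rfl
  map_smul' _ _ := rfl

theorem Sc_apply (d : V3) (φ : V3 → ℝ) (w : V3) : Sc d φ w = φ (pm w d) := rfl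

theorem Sc_pow_apply (d : V3) (k : ℕ) : ∀ (φ : V3 → ℝ) (w : V3),
    (Sc d ^ k) φ w = φ (pm w (fun i => d i ^ k)) := by
  induction k with
  | zero =>
    intro φ w
    show φ w = _
    congr 1
    funext i
    unfold pm
    simp
  | succ k ih =>
    intro φ w
    rw [pow_succ, Module.End.mul_apply, ih, Sc_apply]
    congr 1
    funext i
    show w i * d i ^ k * d i = w i * d i ^ (k + 1)
    rw [pow_succ]
    ring

theorem commute_Sc (d d' : V3) : Commute (Sc d) (Sc d') := by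
  apply LinearMap.ext
  intro φ
  funext w
  show φ (pm (pm w d) d') = φ (pm (pm w d') d)
  rw [pm_right_comm]

noncomputable def A3 : V3 := ![3 / 2, 3 / 4, 3 / 4]
noncomputable def B3 : V3 := ![3 / 4, 3 / 2, 3 / 4]

theorem actL_M3 : actL M3 = (1 / 3 : ℝ) • (Sc A3 + (Sc B3 + Sc M3)) := by
  apply LinearMap.ext
  intro φ
  funext w
  show (φ (pm w ![M3 0, M3 1, M3 2]) + φ (pm w ![M3 0, M3 2, M3 1]) + φ (pm w ![M3 1, M3 0, M3 2])
    + φ (pm w ![M3 1, M3 2, M3 0]) + φ (pm w ![M3 2, M3 0, M3 1])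
    + φ (pm w ![M3 2, M3 1, M3 0])) / 6
    = 1 / 3 * (φ (pm w A3) + (φ (pm w B3) + φ (pm w M3)))
  rw [M3_0, M3_1, M3_2]
  have h : M3 = ![3 / 4, 3 / 4, 3 / 2] := rfl
  rw [h, A3, B3]
  ring

theorem act_M3_iter (k : ℕ) (φ : V3 → ℝ) (w : V3) : (act M3)^[k] φ w =
    (1 / 3) ^ k * ∑ m ∈ antidiagonal k, (k.choose m.1 : ℝ) * ∑ n ∈ antidiagonal m.2,
      (m.2.choose n.1 : ℝ) *
        φ (pm (pm (pm w (fun i => A3 i ^ m.1)) (fun i => B3 i ^ n.1)) (fun i => M3 i ^ n.2)) := by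
  rw [← actL_pow_apply, actL_M3, smul_pow,
    ((commute_Sc A3 B3).add_right (commute_Sc A3 M3)).add_pow' k]
  rw [LinearMap.smul_apply, LinearMap.sum_apply, Pi.smul_apply, Finset.sum_apply, smul_eq_mul]
  congr 1
  refine Finset.sum_congr rfl fun m _ => ?_
  rw [(commute_Sc B3 M3).add_pow' m.2, LinearMap.smul_apply, Pi.smul_apply, nsmul_eq_mul,
    Module.End.mul_apply, Sc_pow_apply, LinearMap.sum_apply, Finset.sum_apply]
  congr 1
  refine Finset.sum_congr rfl fun n _ => ?_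
  rw [LinearMap.smul_apply, Pi.smul_apply, nsmul_eq_mul, Module.End.mul_apply, Sc_pow_apply,
    Sc_pow_apply]

theorem pm_pow_vec (x y z : ℝ) (i j l : ℕ) :
    pm (pm (pm ![x, y, z] (fun c => A3 c ^ i)) (fun c => B3 c ^ j)) (fun c => M3 c ^ l) =
      ![(3 / 4) ^ (i + (j + l)) * (2 ^ i * x), (3 / 4) ^ (i + (j + l)) * (2 ^ j * y),
        (3 / 4) ^ (i + (j + l)) * (2 ^ l * z)] := by
  have h : (3 / 2 : ℝ) = 3 / 4 * 2 := by norm_num
  funext c
  fin_cases c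
  · show x * (3 / 2) ^ i * (3 / 4) ^ j * (3 / 4) ^ l = (3 / 4) ^ (i + (j + l)) * (2 ^ i * x)
    rw [h, mul_pow, pow_add, pow_add]
    ring
  · show y * (3 / 4) ^ i * (3 / 2) ^ j * (3 / 4) ^ l = (3 / 4) ^ (i + (j + l)) * (2 ^ j * y)
    rw [h, mul_pow, pow_add, pow_add]
    ring
  · show z * (3 / 4) ^ i * (3 / 4) ^ j * (3 / 2) ^ l = (3 / 4) ^ (i + (j + l)) * (2 ^ l * z)
    rw [h, mul_pow, pow_add, pow_add]
    ring

/-- Multinomial formula. -/
theorem Nice.M_iter {ψ : V3 → ℝ} (h : Nice ψ) (k : ℕ) (x y z : ℝ) :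
    (LN.act M3)^[k] ψ ![x, y, z] = (1 / 4) ^ k *
      ∑ i ∈ range (k + 1), (k.choose i : ℝ) * ∑ j ∈ range (k - i + 1),
        ((k - i).choose j : ℝ) * ψ ![2 ^ i * x, 2 ^ j * y, 2 ^ (k - i - j) * z] := by
  rw [act_M3_iter]
  have h1 : (1 / 4 : ℝ) ^ k = (1 / 3) ^ k * (3 / 4) ^ k := by
    rw [← mul_pow]; norm_num
  rw [h1, mul_assoc]
  congr 1
  rw [Finset.mul_sum, Finset.Nat.sum_antidiagonal_eq_sum_range_succ_mk]
  refine Finset.sum_congr rfl fun i hi => ?_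
  have hik : i ≤ k := Nat.lt_succ_iff.1 (Finset.mem_range.1 hi)
  show (k.choose i : ℝ) * ∑ n ∈ antidiagonal (k - i), _ = _
  rw [mul_left_comm, Finset.mul_sum (a := (3 / 4 : ℝ) ^ k)]
  congr 1
  rw [Finset.Nat.sum_antidiagonal_eq_sum_range_succ_mk]
  refine Finset.sum_congr rfl fun j hj => ?_
  have hjk : j ≤ k - i := Nat.lt_succ_iff.1 (Finset.mem_range.1 hj)
  show ((k - i).choose j : ℝ) * ψ (pm (pm (pm ![x, y, z] (fun c => A3 c ^ i))
    (fun c => B3 c ^ j)) (fun c => M3 c ^ (k - i - j))) = _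
  rw [pm_pow_vec, h.hom _ _ _ _ (by positivity)]
  have e : i + (j + (k - i - j)) = k := by omega
  rw [e]
  ring

end Vale.Agent.P154.LN
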