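import Vale.Agent.Lib.P154.LN.Ops

/-!
# Values of the products of the two message atoms and polynomial upper bounds

`V φ a b` is the value of `φ` on the product of `a` copies of the atom `K3 = (0, 3/2, 3/2)` and `b`
copies of the atom `M3 = (3/4, 3/4, 3/2)`, all in independent uniform orientations.
-/

open scoped BigOperators
open Finset

namespace Vale.Agent.P154.LN

noncomputable def K3 : V3 := ![0, 3 / 2, 3 / 2]
noncomputable def M3 : V3 := ![3 / 4, 3 / 4, 3 / 2]

theorem smooth_three (lam : ℝ) (w : V3) : smooth lam w =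
    ![lam * w 0 + (1 - lam) / 3 * (w 0 + w 1 + w 2), lam * w 1 + (1 - lam) / 3 * (w 0 + w 1 + w 2),
      lam * w 2 + (1 - lam) / 3 * (w 0 + w 1 + w 2)] := by
  funext i
  unfold smooth
  rw [Fin.sum_univ_three]
  fin_cases i <;> simp

theorem smooth_one3 (lam : ℝ) : smooth lam one3 = one3 := by
  rw [smooth_three]
  show ![lam * 1 + (1 - lam) / 3 * (1 + 1 + 1), lam * 1 + (1 - lam) / 3 * (1 + 1 + 1),
    lam * 1 + (1 - lam) / 3 * (1 + 1 + 1)] = (![1, 1, 1] : V3)
  congr 1
  · ring
  · congr 1
    · ring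
    · congr 1
      ring

theorem smooth_ver3 : smooth (-1 / 2) ver3 = K3 := by
  rw [smooth_three]
  unfold K3 ver3
  ext i
  fin_cases i <;> simp <;> norm_num

theorem smooth_mid3 : smooth (-1 / 2) mid3 = M3 := by
  rw [smooth_three]
  unfold M3 mid3
  ext i
  fin_cases i <;> simp <;> norm_num

theorem edgeLaw_law3 (a b : ℝ) : edgeLaw (-1 / 2) (law3 a b) =
    [((a + 2 * b) / 3, K3), (8 / 3 * (a - b), M3), (1 - 3 * a + 2 * b, one3)] := by
  unfold edgeLaw law3
  simp only [List.map_cons, List.map_nil, smooth_ver3, smooth_mid3, smooth_one3]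

/-! ### The message operators are linear and commute -/

theorem pm_right_comm (w v v' : V3) : pm (pm w v) v' = pm (pm w v') v := by
  funext i; unfold pm; ring

theorem avg_swap (g : V3 → V3 → ℝ) (m m' : V3) :
    avg (fun v => avg (fun v' => g v v') m') m = avg (fun v' => avg (fun v => g v v') m) m' := by
  unfold avg; ring

theorem actM_comm (m m' : V3) (φ : V3 → ℝ) : act m (act m' φ) = act m' (act m φ) := by
  funext w
  show avg (fun v => avg (fun v' => φ (pm (pm w v) v')) m') m
    = avg (fun v' => avg (fun v => φ (pm (pm w v') v)) m) m'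
  rw [avg_swap]
  congr 1
  funext v'
  congr 1
  funext v
  rw [pm_right_comm]

theorem act_one3 (φ : V3 → ℝ) : act one3 φ = φ := by
  funext w
  have h : ∀ v : V3, v = ![1, 1, 1] → pm w v = w := by
    rintro v rfl
    funext i
    unfold pm
    fin_cases i <;> simp
  unfold act avg
  have e : (![one3 0, one3 1, one3 2] : V3) = ![1, 1, 1] := rfl
  show (φ (pm w ![1, 1, 1]) + φ (pm w ![1, 1, 1]) + φ (pm w ![1, 1, 1]) + φ (pm w ![1, 1, 1])
    + φ (pm w ![1, 1, 1]) + φ (pm w ![1, 1, 1])) / 6 = φ w
  rw [h _ rfl]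
  ring

/-- `act m` as a linear operator -/
noncomputable def actL (m : V3) : Module.End ℝ (V3 → ℝ) where
  toFun := act m
  map_add' φ ψ := by
    funext w
    show avg (fun v => φ (pm w v) + ψ (pm w v)) m = avg (fun v => φ (pm w v)) m
      + avg (fun v => ψ (pm w v)) m
    unfold avg; ring
  map_smul' c φ := by
    funext w
    show avg (fun v => c * φ (pm w v)) m = c * avg (fun v => φ (pm w v)) m
    unfold avg; ring

theorem actL_apply (m : V3) (φ : V3 → ℝ) : actL m φ = act m φ := rfl

theorem actL_pow_apply (m : V3) (k : ℕ) (φ : V3 → ℝ) : (actL m ^ k) φ = (act m)^[k] φ := by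
  rw [Module.End.pow_apply]
  rfl

theorem commute_actL (m m' : V3) : Commute (actL m) (actL m') := by
  apply LinearMap.ext
  intro φ
  exact actM_comm m m' φ

/-- value of `φ` on the product of `a` copies of `K3` and `b` copies of `M3` -/
noncomputable def V (φ : V3 → ℝ) (a b : ℕ) : ℝ := ((act K3)^[a] ((act M3)^[b] φ)) one3

noncomputable def VA : ℕ → ℕ → ℝ := V fA
noncomputable def VP : ℕ → ℕ → ℝ := V fP

theorem V_eq (φ : V3 → ℝ) (a b : ℕ) : V φ a b = ((actL K3 ^ a * actL M3 ^ b) φ) one3 := by
  unfold V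
  rw [Module.End.mul_apply, actL_pow_apply, actL_pow_apply]

theorem V_add (φ ψ : V3 → ℝ) (a b : ℕ) : V (φ + ψ) a b = V φ a b + V ψ a b := by
  rw [V_eq, V_eq, V_eq, map_add]; rfl

theorem V_smul (c : ℝ) (φ : V3 → ℝ) (a b : ℕ) : V (c • φ) a b = c * V φ a b := by
  rw [V_eq, V_eq, map_smul]; rfl

theorem V_actK (φ : V3 → ℝ) (a b : ℕ) : V (act K3 φ) a b = V φ (a + 1) b := by
  rw [V_eq, V_eq]
  show ((actL K3 ^ a * actL M3 ^ b) (actL K3 φ)) one3 = _
  rw [← Module.End.mul_apply, mul_assoc, ((commute_actL M3 K3).pow_left b).eq, ← mul_assoc,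
    ← pow_succ]

theorem V_actM (φ : V3 → ℝ) (a b : ℕ) : V (act M3 φ) a b = V φ a (b + 1) := by
  rw [V_eq, V_eq]
  show ((actL K3 ^ a * actL M3 ^ b) (actL M3 φ)) one3 = _
  rw [← Module.End.mul_apply, mul_assoc, ← pow_succ]

/-- the three-atom message law -/
noncomputable def lawKM (p q r : ℝ) : Law := [(p, K3), (q, M3), (r, one3)]

theorem opL_lawKM (p q r : ℝ) (φ : V3 → ℝ) :
    opL (lawKM p q r) φ = p • act K3 φ + q • act M3 φ + r • φ := by
  funext w
  unfold opL lawKM
  simp only [List.map_cons, List.map_nil, List.sum_cons, List.sum_nil, act_one3, Pi.add_apply,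
    Pi.smul_apply, smul_eq_mul]
  ring

/-! ### The multinomial functional -/

/-- expectation of `U (N₁, N₂)`, `(N₁, N₂, N₃)` multinomial with parameters `k; p, q, r` -/
noncomputable def EL (p q r : ℝ) : ℕ → (ℕ → ℕ → ℝ) → ℝ
  | 0, U => U 0 0
  | k + 1, U => EL p q r k (fun a b => p * U (a + 1) b + q * U a (b + 1) + r * U a b)

theorem EL_mono {p q r : ℝ} (hp : 0 ≤ p) (hq : 0 ≤ q) (hr : 0 ≤ r) (k : ℕ) :
    ∀ {U U' : ℕ → ℕ → ℝ}, (∀ a b, U a b ≤ U' a b) → EL p q r k U ≤ EL p q r k U' := by
  induction k with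
  | zero => intro U U' h; exact h 0 0
  | succ k ih =>
    intro U U' h
    refine ih fun a b => ?_
    have h1 := mul_le_mul_of_nonneg_left (h (a + 1) b) hp
    have h2 := mul_le_mul_of_nonneg_left (h a (b + 1)) hq
    have h3 := mul_le_mul_of_nonneg_left (h a b) hr
    linarith

theorem EL_add (p q r : ℝ) (k : ℕ) : ∀ (U U' : ℕ → ℕ → ℝ),
    EL p q r k (fun a b => U a b + U' a b) = EL p q r k U + EL p q r k U' := by
  induction k with
  | zero => intro U U'; rfl
  | succ k ih =>
    intro U U'
    show EL p q r k _ = EL p q r k _ + EL p q r k _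
    rw [← ih]
    congr 1
    funext a b
    ring

theorem EL_smul (p q r : ℝ) (k : ℕ) : ∀ (c : ℝ) (U : ℕ → ℕ → ℝ),
    EL p q r k (fun a b => c * U a b) = c * EL p q r k U := by
  induction k with
  | zero => intro c U; rfl
  | succ k ih =>
    intro c U
    show EL p q r k _ = c * EL p q r k _
    rw [← ih]
    congr 1
    funext a b
    ring

theorem EL_zero (p q r : ℝ) (k : ℕ) : EL p q r k (fun _ _ => 0) = 0 := by
  have := EL_smul p q r k 0 (fun _ _ => 0)
  simpa using this

theorem EL_sum (p q r : ℝ) (k : ℕ) {ι : Type*} (s : Finset ι) (U : ι → ℕ → ℕ → ℝ) :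
    EL p q r k (fun a b => ∑ i ∈ s, U i a b) = ∑ i ∈ s, EL p q r k (U i) := by
  classical
  induction s using Finset.induction_on with
  | empty => simp only [Finset.sum_empty]; exact EL_zero p q r k
  | insert x s hx ih =>
    simp only [Finset.sum_insert hx]
    rw [EL_add, ih]

theorem desc_succ (n i : ℕ) :
    ((n + 1).descFactorial i : ℝ) = n.descFactorial i + i * n.descFactorial (i - 1) := by
  rcases i with _ | i
  · simp
  · rw [Nat.descFactorial_eq_factorial_mul_choose, Nat.descFactorial_eq_factorial_mul_choose,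
      Nat.add_sub_cancel, Nat.descFactorial_eq_factorial_mul_choose, Nat.choose_succ_succ,
      Nat.factorial_succ]
    push_cast
    ring

/-- factorial moments of the multinomial distribution -/
theorem EL_desc {p q r : ℝ} (h : p + q + r = 1) (k : ℕ) : ∀ i j : ℕ,
    EL p q r k (fun a b => (a.descFactorial i : ℝ) * (b.descFactorial j : ℝ)) =
      (k.descFactorial (i + j) : ℝ) * (p ^ i * q ^ j) := by
  induction k with
  | zero =>
    intro i j
    show ((0 : ℕ).descFactorial i : ℝ) * ((0 : ℕ).descFactorial j : ℝ) = _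
    rcases i with _ | i
    · rcases j with _ | j
      · simp
      · simp
    · have : i + 1 + j = (i + j) + 1 := by ring
      rw [this]
      simp
  | succ k ih =>
    intro i j
    show EL p q r k (fun a b => p * (((a + 1).descFactorial i : ℝ) * (b.descFactorial j : ℝ))
      + q * ((a.descFactorial i : ℝ) * ((b + 1).descFactorial j : ℝ))
      + r * ((a.descFactorial i : ℝ) * (b.descFactorial j : ℝ))) = _
    have e : (fun a b : ℕ => p * (((a + 1).descFactorial i : ℝ) * (b.descFactorial j : ℝ))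
      + q * ((a.descFactorial i : ℝ) * ((b + 1).descFactorial j : ℝ))
      + r * ((a.descFactorial i : ℝ) * (b.descFactorial j : ℝ))) =
      fun a b : ℕ => ((a.descFactorial i : ℝ) * (b.descFactorial j : ℝ)
        + (p * i) * ((a.descFactorial (i - 1) : ℝ) * (b.descFactorial j : ℝ)))
        + (q * j) * ((a.descFactorial i : ℝ) * (b.descFactorial (j - 1) : ℝ)) := by
      funext a b
      rw [desc_succ a i, desc_succ b j]
      have hr : r = 1 - p - q := by linarith
      rw [hr]
      ring
    rw [e, EL_add, EL_add, EL_smul, EL_smul, ih i j, ih (i - 1) j, ih i (j - 1),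
      desc_succ k (i + j)]
    push_cast
    have c1 : (i : ℝ) * (p * ((k.descFactorial (i - 1 + j) : ℝ) * (p ^ (i - 1) * q ^ j)))
        = (i : ℝ) * ((k.descFactorial (i + j - 1) : ℝ) * (p ^ i * q ^ j)) := by
      rcases i with _ | i
      · simp
      · have a1 : i + 1 - 1 + j = i + 1 + j - 1 := by omega
        rw [a1, Nat.add_sub_cancel, pow_succ]
        ring
    have c2 : (j : ℝ) * (q * ((k.descFactorial (i + (j - 1)) : ℝ) * (p ^ i * q ^ (j - 1))))
        = (j : ℝ) * ((k.descFactorial (i + j - 1) : ℝ) * (p ^ i * q ^ j)) := by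
      rcases j with _ | j
      · simp
      · have a1 : i + (j + 1 - 1) = i + (j + 1) - 1 := by omega
        rw [a1, Nat.add_sub_cancel, pow_succ]
        ring
    linear_combination c1 + c2

/-- iterates of the message operator -/
theorem opL_iterate (p q r : ℝ) (k : ℕ) : ∀ φ : V3 → ℝ,
    ((opL (lawKM p q r))^[k] φ) one3 = EL p q r k (V φ) := by
  induction k with
  | zero => intro φ; rfl
  | succ k ih =>
    intro φ
    rw [Function.iterate_succ_apply, ih, opL_lawKM]
    show EL p q r k _ = EL p q r k _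
    congr 1
    funext a b
    rw [V_add, V_add, V_smul, V_smul, V_smul, V_actK, V_actM]

end Vale.Agent.P154.LN
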