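import Vale.Agent.Lib.P154.LN.ValForm

/-!
# Rational tables of the values and the polynomial upper bounds

Interface: for a table `T` of rational coefficients (row `i`, column `j`, `i, j < 7`),
`polQ T a b = ∑ T_ij (a)_i (b)_j`. The decidable statement `Chk vaQ T c1 c2` (resp. `Chk vpQ T c1 c2`)
implies `VA a b ≤ polQ T a b` (resp. `VP`) for all `a b`, and then
`(opL μ)^[k] fA one3 ≤ ∑ T_ij (k)_{i+j} κ₁^i κ₂^j`.  Prove it by `decide +kernel`.
-/

open scoped BigOperators
open Finset

namespace Vale.Agent.P154.LN

/-- sum of `f 0, …, f (n-1)` -/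
def sumQ (f : ℕ → ℚ) : ℕ → ℚ
  | 0 => 0
  | n + 1 => sumQ f n + f n

theorem sumQ_eq (f : ℕ → ℚ) (n : ℕ) : sumQ f n = ∑ i ∈ range n, f i := by
  induction n with
  | zero => rfl
  | succ n ih => rw [Finset.sum_range_succ, ← ih]; rfl

/-- binomial coefficient, fast -/
def chQ (n k : ℕ) : ℚ := ((n.factorial / (k.factorial * (n - k).factorial) : ℕ) : ℚ)

theorem chQ_eq {n k : ℕ} (h : k ≤ n) : chQ n k = (n.choose k : ℚ) := by
  unfold chQ
  rw [Nat.choose_eq_factorial_div_factorial h]

/-- multinomial average with weights `4^{-k}` -/
def midQ (f : ℕ → ℕ → ℕ → ℚ) (k : ℕ) : ℚ :=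
  sumQ (fun i => chQ k i * sumQ (fun j => chQ (k - i) j * f i j (k - i - j)) (k - i + 1)) (k + 1)
    / 4 ^ k

theorem Nice.M_iter_cast {ψ : V3 → ℝ} (h : Nice ψ) (f : ℕ → ℕ → ℕ → ℚ) {x y z : ℝ}
    (hf : ∀ i j l, ((f i j l : ℚ) : ℝ) = ψ ![2 ^ i * x, 2 ^ j * y, 2 ^ l * z]) (k : ℕ) :
    (LN.act M3)^[k] ψ ![x, y, z] = (midQ f k : ℝ) := by
  rw [h.M_iter]
  unfold midQ
  rw [sumQ_eq]
  push_cast
  rw [one_div, inv_pow, div_eq_inv_mul]
  congr 1
  refine Finset.sum_congr rfl fun i hi => ?_
  have hik : i ≤ k := Nat.lt_succ_iff.1 (Finset.mem_range.1 hi)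
  rw [chQ_eq hik, sumQ_eq]
  push_cast
  congr 1
  refine Finset.sum_congr rfl fun j hj => ?_
  have hjk : j ≤ k - i := Nat.lt_succ_iff.1 (Finset.mem_range.1 hj)
  rw [chQ_eq hjk, hf]
  push_cast
  rfl

def fHQ (_ j l : ℕ) : ℚ := 2 ^ j * 2 ^ l / (2 ^ j + 2 ^ l)
def fGQ (i j l : ℕ) : ℚ := (2 ^ i * 2 ^ j + 2 ^ j * 2 ^ l + 2 ^ i * 2 ^ l) / (2 ^ i + 2 ^ j + 2 ^ l)
def fTQ (i j l : ℕ) : ℚ := 2 ^ i * 2 ^ j * 2 ^ l / (2 ^ i + 2 ^ j + 2 ^ l) ^ 2

theorem HA_cast (k : ℕ) : HA k = (midQ fHQ k : ℝ) := by
  unfold HA
  refine nice_gA.M_iter_cast fHQ (fun i j l => ?_) k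
  rw [gA_vec]
  unfold fHQ
  push_cast
  simp only [mul_zero, mul_one, zero_mul, zero_add, add_zero]

theorem GA_cast (k : ℕ) : GA k = (midQ fGQ k : ℝ) := by
  unfold GA
  refine nice_gA.M_iter_cast fGQ (fun i j l => ?_) k
  rw [gA_vec]
  unfold fGQ
  push_cast
  simp only [mul_one]

theorem TA_cast (k : ℕ) : TA k = (midQ fTQ k : ℝ) := by
  unfold TA
  refine nice_gT.M_iter_cast fTQ (fun i j l => ?_) k
  rw [gT_vec]
  unfold fTQ
  push_cast
  simp only [mul_one]

theorem HA_nonneg (k : ℕ) : 0 ≤ HA k := by
  unfold HA
  rw [nice_gA.M_iter]
  refine mul_nonneg (by positivity) (Finset.sum_nonneg fun i _ => mul_nonneg (by positivity)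
    (Finset.sum_nonneg fun j _ => mul_nonneg (by positivity) ?_))
  rw [gA_vec]
  positivity

theorem GA_nonneg (k : ℕ) : 0 ≤ GA k := by
  unfold GA
  rw [one3, nice_gA.M_iter]
  refine mul_nonneg (by positivity) (Finset.sum_nonneg fun i _ => mul_nonneg (by positivity)
    (Finset.sum_nonneg fun j _ => mul_nonneg (by positivity) ?_))
  rw [gA_vec]
  positivity

theorem gT_le {x y z : ℝ} (hx : 0 < x) (hy : 0 < y) (hz : 0 < z) :
    3 * gT ![x, y, z] ≤ gA ![x, y, z] := by
  rw [gA_vec, gT_vec, mul_div_assoc', div_le_div_iff₀ (by positivity) (by positivity)]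
  have h : 3 * (x * y * z) ≤ (x * y + y * z + x * z) * (x + y + z) := by
    nlinarith [mul_pos (mul_pos hx hy) hz, mul_pos (mul_pos hx hx) hy, mul_pos (mul_pos hx hx) hz,
      mul_pos (mul_pos hy hy) hx, mul_pos (mul_pos hy hy) hz, mul_pos (mul_pos hz hz) hx,
      mul_pos (mul_pos hz hz) hy]
  calc 3 * (x * y * z) * (x + y + z) ≤ (x * y + y * z + x * z) * (x + y + z) * (x + y + z) :=
        mul_le_mul_of_nonneg_right h (by positivity)
    _ = (x * y + y * z + x * z) * (x + y + z) ^ 2 := by ring

theorem TA_le (k : ℕ) : 3 * TA k ≤ GA k := by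
  unfold GA TA
  rw [one3, nice_gA.M_iter, nice_gT.M_iter, mul_left_comm]
  refine mul_le_mul_of_nonneg_left ?_ (by positivity)
  rw [Finset.mul_sum]
  refine Finset.sum_le_sum fun i _ => ?_
  rw [mul_left_comm]
  refine mul_le_mul_of_nonneg_left ?_ (by positivity)
  rw [Finset.mul_sum]
  refine Finset.sum_le_sum fun j _ => ?_
  rw [mul_left_comm]
  refine mul_le_mul_of_nonneg_left ?_ (by positivity)
  exact gT_le (by positivity) (by positivity) (by positivity)

theorem VA_le_one (a b : ℕ) : VA a b ≤ 1 := by
  rcases a with _ | a
  · rw [VA_zero]; linarith [GA_nonneg b]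
  · rw [VA_succ]
    have := mul_nonneg (by positivity : (0 : ℝ) ≤ 3 / 2 * (1 / 2) ^ a) (HA_nonneg b)
    linarith

theorem VP_le_one (a b : ℕ) : VP a b ≤ 1 := by
  rcases a with _ | a
  · rw [VP_zero]; linarith [TA_le b]
  · rw [VP_succ]
    have := mul_nonneg (by positivity : (0 : ℝ) ≤ 9 / 4 * (1 / 2) ^ a) (HA_nonneg b)
    linarith

/-! ### Tables -/

/-- the values `HA k`, `k < 25` -/
def tabH : List ℚ := [
  1 / 2,
  11 / 24,
  203 / 480,
  2257 / 5760,
  142637 / 391680,
  1169371 / 3446784,
  283803743 / 896163840,
  536951969 / 1813413888,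
  43930536281681 / 158456105533440,
  552333557708593 / 2125176003624960,
  7225677948582415913 / 29624953490531942400,
  1685752598208921101209 / 7357761176012115148800,
  305560698826164675607729 / 1418576354735135800688640,
  1207912404102509431500469979 / 5960203115048701341047193600,
  14907456495228841371165466042579 / 78126342432058377178446613708800,
  204546227564190187025716669148634203 / 1137832051180498205226896482054963200,
  50547296066821236560669986665777377522431 / 298280396552865243503820458977744492953600,
  98021996508409530310886109381645397970557849 / 613278532037234604890607984621018100782858240,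
  96991298941674867132546825510868919719695325601221 / 643071603123603461996193720513907160118889493299200,
  304855694920396463037354824778349110960485823330071 / 2140985051635056828938382393175601293978777524633600,
  13345941402807787480169862640824483019555288694111594448957049 / 99237435516714271247621391894027803099120344878191297219788800,
  273334715063771203783459098512356693389349149850835448712457180171 / 2151070652260298543563441290694946659976532595579674558536142028800,
  3152396865557991896176088222342139505993063293186854852377793452729681 / 26246534958919655222577046175325871274684714322335438252337260195217408,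
  833471475882580577526418619714620178628558656758455213660281072609267962833379 / 7339063979173601669233560424658472723588722224225731944750020396964750190182400,
  205855277638950798846963328259415163818056203662647219354895391762789501864116036007 / 1916405742497727562276944232328519031474381502078720028340904326137023428661189017600]

/-- the values `GA k`, `k < 25` -/
def tabG : List ℚ := [
  1 / 1,
  15 / 16,
  141 / 160,
  531 / 640,
  4405 / 5632,
  6346869 / 8599552,
  5338881 / 7659520,
  7652180051 / 11616157696,
  20033832199915689 / 32158807056842752,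
  52204851705267 / 88566600826880,
  48380403683393404633 / 86704796436277493760,
  1368347182422899138449903167 / 2589391860743286788875878400,
  260702458303230279744580503 / 520721704691179947227611136,
  1896986824267721251698305176892073409027 / 3997890222007516762203514943373207142400,
  401454500382658956856257479179003714255567872111 / 892419656271572240684827671875809555076297523200,
  2549721462815971099399644263461794758493226317 / 5976726060364442741345617770290498026350837760,
  7498301027821988357804440820841454429033826577322113402903734667 / 18529044315211894664158811474546472190708700864641848781234503680,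
  5996476412733460106378943952145907721652462660144550225988074770943194954527881 / 15616955482086414686057670065010978760940783172876610013698432306064177896620032,
  7668221921626571249452642414932575649801106223523181110492877009683921 / 21042786675928304228058110796607202896433734356380333501545585416601600,
  13167682989552126972758088941104380634496771440090961852954082424781550907322756876533562964839 / 38065500902474153793576327278382797924669701095005631293845977844141885300908921560734734745600,
  3964086352965807738724673248871660275490092551845167511625584223850498749543175546140247401946822550385033044712578851539 / 12069530561146931379552960682003288124521212115955634009946661405730236157089432578512406516362726584620047393860687495168,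
  1641766341979700684174328725925332058544737776932807462879063168336247750077260885121275428660793855147 / 5263815763272582123037444518286684661905416830855437342010648861018455727787467803707983863705134694400,
  245799759027630989235156129723733545592829663941785752559190078556913533677099066850983613364230046800203960328737893358050212921115173 / 829726417662786905388474379027987698211060822095093528911552791196936438605150554515337562750317116329821975838308349372841468478095360,
  2091899116973205941363814413692231754016267435511129423534441025911420533811683280329948081688915147968172978103613236228407001883589908648377886102640747399829979578703 / 7433356487112049467181539919920463958275778388021982403771077387403644137543963687327036326126860412555312685955856927059185495802393794394172277827169938559664232857600,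
  1940736665255997264421699472045019483433644176038107324279867829941239408928808504506148679616508559999414930616131922428035775072314989397300964733003 / 7258256404860576335975532330818190955390957312451615649867040283137896896951679474192629111963343058154720231196699019338564263171051824529284058316800]

/-- the values `TA k`, `k < 25` -/
def tabT : List ℚ := [
  1 / 9,
  3 / 32,
  97 / 1200,
  8291 / 117600,
  51871 / 836352,
  464785021 / 8463168480,
  100511893 / 2056177200,
  303673252372698053 / 6948944529905664000,
  145022761370485619357714993 / 3698547618338725036614512640,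
  45240990808595778033728291 / 1281891173154236639270707200,
  2890306760755337981795255379287339 / 90738454420799283526155053973504000,
  1484631442224300663991684191315093001445872637 / 51516889799376525224289017846231131532666880000,
  24021935920508761362404113457743247289625676950121501 / 919377654691164626614155490061001043971749669484625920,
  12277279768540185599596241919665148319986724853028028174547712845639137523 / 517254372378609010037311984376833796762860985884824799964574535133429760000,
  19524771179597261694519988317484951514398474806730270418657555757983171300705677179773 / 903967909779602625190232379600010643220583845680283827305883427814477332997362155520000,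
  45739169494609041435761080702840114005672027000771944213863930330015592242503154545161886503 / 2323474407272695416104186477980602042605549767061374311651559729227773253797072554264048435200,
  487397831951253296437885151977945152511217036924680278660739665273439748341520545767908731171723494879118866924982740251 / 27126173374508679040878704328895914611987857433171152848092437887650336356883429502698323240013033308624417980671852544000,
  725660271765000103621304722698341379198967789560158636469547110238764055651918226090706790258114608050216433826647361702752647016085226560114696787 / 44189911196933859712210520137774167348684292673892822085376494713894026385962492666800195402903229482137671240331964911050144790305898338508079104000,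
  261267664971708227069204820981986610791763480676047022963031321566913823977813051515794612761559642286502733502100038004830933174991989379 / 17387372873930049697065200447761044780794633966387936599495484389676836642719048531731113328752482299830320527829582049172143613719609344000,
  433819974062290892852135710645221704632809845192072502653086443507893135902805863954762946231801677297610757018965318089565367396395358640599572073265541511385216410358573283094287 / 31515681644923174380969711674993825887292465882152841748388828874584175501309182766847172967979091519804755516726727719289862910901369907108465723287701571093513677267617206763520000,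
  1041179134409676756327977443421252365444562598802962901387975030041928947226587744162396777386772687386529634589948245705735543677844077657546218158219952471616430675768500821810899670253140446081497004482154606422787736352970807 / 82482376110187247396780037836173806680074949682855552381192120693779559545728898919650258110406730572673157331125091269346623680726155483854985694785188298242969948669499915553597050780458889581181842994045698656980577201369907200,
  437539455934249071087492853627846496228517656486092722588598005545972306567821124761814143655390561763761289208495464601567668012506861374649199688607692060632408266428039940513765183824801246518151898665849 / 37761686237510123279825175627881538483907581525261393121659679749550181852798294111318824757660347914919594006255300095936108862705005648956159984216487084082647850222511629307904547441295319169206205808640000,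
  1756238168991658792135084734717212782560919963676540857042976259381664560063156908593672837996549370430681613764166970593579939648289087030907985215312204639042961848338076093998365203888896205288257150370849008613604934354718790177769826184958000482474456541 / 164976298459947474483002516706878267340287734182011767458997571847271515593464097750654092216186256603798780935883850564275575877957683392839366433797328970743940361030593177241736051968799618167429969163454571245898118858350524363246159783041946948718297088000,
  26873217687435593572639165259949299969821658963091484489402598309092542823156585306315760156746260284347056541136000806270782677777638712901410899980323052964322907428358633309804350595800695997185311177982940511087236617365742672058390857977518881181943240626716138629858619486999761479211057303067517005021016383924241 / 2745339634106787488491163604946379766074248002909202907100863731225298270548562914107602163398088371396290646760357050374852567331376108758667010016798493396262132513819604135501538827809593420790408351858314619131179752986441483186446103564543798146902289160210592517482727799949225897291339264593413543051998129029120000,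
  110312320677197752364303597906636140949156351076530773978376232261080828377606935525322856918517596644984573068054621221041438115074139591764041710048064163232673585682350566606088847498285598991921748669310390642194128935853884850427544836372145166089564254129089060338192002666420285685424856675726967044171 / 12246008786952904765965906961269388370824444006001892218131697616999533205722539014714272594234049279166713952869232185689582347457411490258005731018026570583911194180861707173967586373862952883292931642384826772560828953418330618701369601685577296600701918790665844432821029124899155707442128205662683922432000]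

theorem tabH_ok : ∀ k < 25, midQ fHQ k = tabH.getD k 0 := by decide +kernel
theorem tabG_ok : ∀ k < 25, midQ fGQ k = tabG.getD k 0 := by decide +kernel
theorem tabT_ok : ∀ k < 25, midQ fTQ k = tabT.getD k 0 := by decide +kernel

/-- rational values of `VA` -/
def vaQ : ℕ → ℕ → ℚ
  | 0, b => 1 - tabG.getD b 0
  | a + 1, b => 1 - 3 / 2 * (1 / 2) ^ a * tabH.getD b 0

/-- rational values of `VP` -/
def vpQ : ℕ → ℕ → ℚ
  | 0, b => 1 - 3 / 2 * tabG.getD b 0 + 9 / 2 * tabT.getD b 0
  | a + 1, b => 1 - 9 / 4 * (1 / 2) ^ a * tabH.getD b 0

theorem VA_cast (a : ℕ) {b : ℕ} (hb : b < 25) : VA a b = (vaQ a b : ℝ) := by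
  rcases a with _ | a
  · rw [VA_zero, GA_cast, tabG_ok b hb]
    unfold vaQ
    push_cast
    rfl
  · rw [VA_succ, HA_cast, tabH_ok b hb]
    unfold vaQ
    push_cast
    rfl

theorem VP_cast (a : ℕ) {b : ℕ} (hb : b < 25) : VP a b = (vpQ a b : ℝ) := by
  rcases a with _ | a
  · rw [VP_zero, GA_cast, TA_cast, tabG_ok b hb, tabT_ok b hb]
    unfold vpQ
    push_cast
    rfl
  · rw [VP_succ, HA_cast, tabH_ok b hb]
    unfold vpQ
    push_cast
    rfl

/-! ### Polynomials in the basis of descending factorials -/

/-- coefficient of `(a)_i (b)_j` -/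
def coef (T : List (List ℚ)) (i j : ℕ) : ℚ := (T.getD i []).getD j 0

def polQ (T : List (List ℚ)) (a b : ℕ) : ℚ :=
  sumQ (fun i => sumQ (fun j => coef T i j * ((a.descFactorial i : ℕ) : ℚ) *
    ((b.descFactorial j : ℕ) : ℚ)) 7) 7

/-- coefficients after the shift of `a` by `c` -/
def shA (T : List (List ℚ)) (c r j : ℕ) : ℚ :=
  sumQ (fun m => coef T (r + m) j * chQ (r + m) r * ((c.descFactorial m : ℕ) : ℚ)) (7 - r)

/-- coefficients after the shift of `b` by `c` -/
def shB (T : List (List ℚ)) (c i r : ℕ) : ℚ :=
  sumQ (fun m => coef T i (r + m) * chQ (r + m) r * ((c.descFactorial m : ℕ) : ℚ)) (7 - r)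

theorem desc_add (c s i : ℕ) : (c + s).descFactorial i =
    ∑ r ∈ range (i + 1), i.choose r * (c.descFactorial (i - r) * s.descFactorial r) := by
  rw [Nat.descFactorial_eq_factorial_mul_choose, add_comm c s, Nat.add_choose_eq,
    Finset.Nat.sum_antidiagonal_eq_sum_range_succ_mk, Finset.mul_sum]
  refine Finset.sum_congr rfl fun r hr => ?_
  have hri : r ≤ i := Nat.lt_succ_iff.1 (Finset.mem_range.1 hr)
  show i.factorial * (s.choose r * c.choose (i - r)) = _
  rw [Nat.descFactorial_eq_factorial_mul_choose, Nat.descFactorial_eq_factorial_mul_choose,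
    ← Nat.choose_mul_factorial_mul_factorial hri]
  ring

theorem desc_addQ (c s i : ℕ) : (((c + s).descFactorial i : ℕ) : ℚ) =
    ∑ r ∈ range (i + 1), (i.choose r : ℚ) * (((c.descFactorial (i - r) : ℕ) : ℚ) *
      ((s.descFactorial r : ℕ) : ℚ)) := by
  rw [desc_add]
  push_cast
  rfl

/-- the generic shift -/
theorem shift_aux (g : ℕ → ℚ) (c s : ℕ) :
    ∑ i ∈ range 7, g i * (((c + s).descFactorial i : ℕ) : ℚ) =
      ∑ r ∈ range 7, sumQ (fun m => g (r + m) * chQ (r + m) r * ((c.descFactorial m : ℕ) : ℚ))
        (7 - r) * ((s.descFactorial r : ℕ) : ℚ) := by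
  have h := Finset.sum_range_diag_flip 7 (fun r m => g (r + m) * ((r + m).choose r : ℚ) *
    ((c.descFactorial m : ℕ) : ℚ) * ((s.descFactorial r : ℕ) : ℚ))
  have h1 : ∑ i ∈ range 7, g i * (((c + s).descFactorial i : ℕ) : ℚ) =
      ∑ m ∈ range 7, ∑ k ∈ range (m + 1), g (k + (m - k)) * ((k + (m - k)).choose k : ℚ) *
        ((c.descFactorial (m - k) : ℕ) : ℚ) * ((s.descFactorial k : ℕ) : ℚ) := by
    refine Finset.sum_congr rfl fun i _ => ?_
    rw [desc_addQ, Finset.mul_sum]
    refine Finset.sum_congr rfl fun r hr => ?_
    have hri : r ≤ i := Nat.lt_succ_iff.1 (Finset.mem_range.1 hr)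
    rw [Nat.add_sub_cancel' hri]
    ring
  rw [h1, h]
  refine Finset.sum_congr rfl fun r _ => ?_
  rw [sumQ_eq, Finset.sum_mul]
  refine Finset.sum_congr rfl fun m _ => ?_
  rw [chQ_eq (Nat.le_add_right r m)]

theorem polQ_eq (T : List (List ℚ)) (a b : ℕ) : polQ T a b =
    ∑ i ∈ range 7, ∑ j ∈ range 7, coef T i j * ((a.descFactorial i : ℕ) : ℚ) *
      ((b.descFactorial j : ℕ) : ℚ) := by
  unfold polQ
  rw [sumQ_eq]
  refine Finset.sum_congr rfl fun i _ => ?_
  rw [sumQ_eq]

theorem polQ_shA (T : List (List ℚ)) (c s b : ℕ) : polQ T (c + s) b =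
    ∑ r ∈ range 7, ∑ j ∈ range 7, shA T c r j * (((s.descFactorial r : ℕ) : ℚ) *
      ((b.descFactorial j : ℕ) : ℚ)) := by
  rw [polQ_eq, Finset.sum_comm, Finset.sum_comm (s := range 7) (t := range 7)
    (f := fun r j => shA T c r j * (((s.descFactorial r : ℕ) : ℚ) *
      ((b.descFactorial j : ℕ) : ℚ)))]
  refine Finset.sum_congr rfl fun j _ => ?_
  have h := shift_aux (fun i => coef T i j) c s
  have e1 : ∑ i ∈ range 7, coef T i j * (((c + s).descFactorial i : ℕ) : ℚ) *
      ((b.descFactorial j : ℕ) : ℚ) = (∑ i ∈ range 7, coef T i j *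
        (((c + s).descFactorial i : ℕ) : ℚ)) * ((b.descFactorial j : ℕ) : ℚ) := by
    rw [Finset.sum_mul]
  rw [e1, h, Finset.sum_mul]
  refine Finset.sum_congr rfl fun r _ => ?_
  unfold shA
  ring

theorem polQ_shB (T : List (List ℚ)) (c s a : ℕ) : polQ T a (c + s) =
    ∑ i ∈ range 7, ∑ r ∈ range 7, shB T c i r * (((a.descFactorial i : ℕ) : ℚ) *
      ((s.descFactorial r : ℕ) : ℚ)) := by
  rw [polQ_eq]
  refine Finset.sum_congr rfl fun i _ => ?_
  have h := shift_aux (fun j => coef T i j) c s
  have e1 : ∑ j ∈ range 7, coef T i j * ((a.descFactorial i : ℕ) : ℚ) *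
      (((c + s).descFactorial j : ℕ) : ℚ) = ((a.descFactorial i : ℕ) : ℚ) *
      ∑ j ∈ range 7, coef T i j * (((c + s).descFactorial j : ℕ) : ℚ) := by
    rw [Finset.mul_sum]
    exact Finset.sum_congr rfl fun j _ => by ring
  rw [e1, h, Finset.mul_sum]
  refine Finset.sum_congr rfl fun r _ => ?_
  unfold shB
  ring

/-- the decidable certificate -/
def Chk (v : ℕ → ℕ → ℚ) (T : List (List ℚ)) (c1 c2 : ℕ) : Prop :=
  c2 ≤ 25 ∧ (∀ a < c1, ∀ b < c2, v a b ≤ polQ T a b) ∧
    (∀ r < 7, ∀ j < 7, 0 ≤ shA T c1 r j) ∧ 1 ≤ shA T c1 0 0 ∧
    (∀ i < 7, ∀ r < 7, 0 ≤ shB T c2 i r) ∧ 1 ≤ shB T c2 0 0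

instance (v : ℕ → ℕ → ℚ) (T : List (List ℚ)) (c1 c2 : ℕ) : Decidable (Chk v T c1 c2) := by
  unfold Chk; infer_instance

theorem one_le_sum {F : ℕ → ℕ → ℚ} (h0 : ∀ r < 7, ∀ j < 7, 0 ≤ F r j) (h1 : 1 ≤ F 0 0)
    (s b : ℕ) : 1 ≤ ∑ r ∈ range 7, ∑ j ∈ range 7, F r j * (((s.descFactorial r : ℕ) : ℚ) *
      ((b.descFactorial j : ℕ) : ℚ)) := by
  have hnn : ∀ r ∈ range 7, ∀ j ∈ range 7, 0 ≤ F r j * (((s.descFactorial r : ℕ) : ℚ) *
      ((b.descFactorial j : ℕ) : ℚ)) := fun r hr j hj =>
    mul_nonneg (h0 r (Finset.mem_range.1 hr) j (Finset.mem_range.1 hj)) (by positivity)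
  calc (1 : ℚ) ≤ F 0 0 * (((s.descFactorial 0 : ℕ) : ℚ) * ((b.descFactorial 0 : ℕ) : ℚ)) := by
        simpa using h1
    _ ≤ ∑ j ∈ range 7, F 0 j * (((s.descFactorial 0 : ℕ) : ℚ) * ((b.descFactorial j : ℕ) : ℚ)) :=
        Finset.single_le_sum (f := fun j => F 0 j * (((s.descFactorial 0 : ℕ) : ℚ) *
          ((b.descFactorial j : ℕ) : ℚ))) (fun j hj => hnn 0 (by simp) j hj) (by simp)
    _ ≤ _ := Finset.single_le_sum (f := fun r => ∑ j ∈ range 7, F r j *
          (((s.descFactorial r : ℕ) : ℚ) * ((b.descFactorial j : ℕ) : ℚ)))
          (fun r hr => Finset.sum_nonneg fun j hj => hnn r hr j hj) (by simp)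

theorem Chk.bound {v : ℕ → ℕ → ℚ} {Vr : ℕ → ℕ → ℝ} (hv : ∀ a b, b < 25 → Vr a b = (v a b : ℝ))
    (h1 : ∀ a b, Vr a b ≤ 1) {T : List (List ℚ)} {c1 c2 : ℕ} (h : Chk v T c1 c2) (a b : ℕ) :
    Vr a b ≤ (polQ T a b : ℝ) := by
  obtain ⟨hc, hin, hA, hA0, hB, hB0⟩ := h
  rcases lt_or_ge a c1 with ha | ha
  · rcases lt_or_ge b c2 with hb | hb
    · rw [hv a b (lt_of_lt_of_le hb hc)]
      exact_mod_cast hin a ha b hb
    · obtain ⟨s, rfl⟩ := Nat.exists_eq_add_of_le hb
      refine (h1 _ _).trans ?_
      rw [polQ_shB]
      exact_mod_cast one_le_sum hB hB0 a s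
  · obtain ⟨s, rfl⟩ := Nat.exists_eq_add_of_le ha
    refine (h1 _ _).trans ?_
    rw [polQ_shA]
    exact_mod_cast one_le_sum hA hA0 s b

theorem VA_le_polQ {T : List (List ℚ)} {c1 c2 : ℕ} (h : Chk vaQ T c1 c2) (a b : ℕ) :
    VA a b ≤ (polQ T a b : ℝ) :=
  h.bound (fun a _ hb => VA_cast a hb) VA_le_one a b

theorem VP_le_polQ {T : List (List ℚ)} {c1 c2 : ℕ} (h : Chk vpQ T c1 c2) (a b : ℕ) :
    VP a b ≤ (polQ T a b : ℝ) :=
  h.bound (fun a _ hb => VP_cast a hb) VP_le_one a b

/-- expectation of the polynomial -/
theorem EL_polQ {p q r : ℝ} (hs : p + q + r = 1) (T : List (List ℚ)) (k : ℕ) :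
    EL p q r k (fun a b => (polQ T a b : ℝ)) =
      ∑ i ∈ range 7, ∑ j ∈ range 7, (coef T i j : ℝ) *
        ((k.descFactorial (i + j) : ℝ) * (p ^ i * q ^ j)) := by
  have e : (fun a b : ℕ => ((polQ T a b : ℚ) : ℝ)) = fun a b : ℕ =>
      ∑ i ∈ range 7, ∑ j ∈ range 7, (coef T i j : ℝ) *
        ((a.descFactorial i : ℝ) * (b.descFactorial j : ℝ)) := by
    funext a b
    rw [polQ_eq]
    push_cast
    refine Finset.sum_congr rfl fun i _ => Finset.sum_congr rfl fun j _ => ?_
    ring
  rw [e, EL_sum]
  refine Finset.sum_congr rfl fun i _ => ?_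
  rw [EL_sum]
  refine Finset.sum_congr rfl fun j _ => ?_
  rw [EL_smul, EL_desc hs]

theorem opL_fA_le {T : List (List ℚ)} {c1 c2 : ℕ} (h : Chk vaQ T c1 c2) {p q r : ℝ} (hp : 0 ≤ p)
    (hq : 0 ≤ q) (hr : 0 ≤ r) (hs : p + q + r = 1) (k : ℕ) :
    ((opL (lawKM p q r))^[k] fA) one3 ≤
      ∑ i ∈ range 7, ∑ j ∈ range 7, (coef T i j : ℝ) *
        ((k.descFactorial (i + j) : ℝ) * (p ^ i * q ^ j)) := by
  rw [opL_iterate, ← EL_polQ hs]
  exact EL_mono hp hq hr k (VA_le_polQ h)

theorem opL_fP_le {T : List (List ℚ)} {c1 c2 : ℕ} (h : Chk vpQ T c1 c2) {p q r : ℝ} (hp : 0 ≤ p)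
    (hq : 0 ≤ q) (hr : 0 ≤ r) (hs : p + q + r = 1) (k : ℕ) :
    ((opL (lawKM p q r))^[k] fP) one3 ≤
      ∑ i ∈ range 7, ∑ j ∈ range 7, (coef T i j : ℝ) *
        ((k.descFactorial (i + j) : ℝ) * (p ^ i * q ^ j)) := by
  rw [opL_iterate, ← EL_polQ hs]
  exact EL_mono hp hq hr k (VP_le_polQ h)

theorem edgeLaw_lawKM (a b : ℝ) : edgeLaw (-1 / 2) (law3 a b) =
    lawKM ((a + 2 * b) / 3) (8 / 3 * (a - b)) (1 - (a + 2 * b) / 3 - 8 / 3 * (a - b)) := by
  rw [edgeLaw_law3]
  unfold lawKM
  rw [show 1 - 3 * a + 2 * b = 1 - (a + 2 * b) / 3 - 8 / 3 * (a - b) by ring]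

theorem opL_edge_fA_le {T : List (List ℚ)} {c1 c2 : ℕ} (h : Chk vaQ T c1 c2) {a b : ℝ}
    (hp : 0 ≤ (a + 2 * b) / 3) (hq : 0 ≤ 8 / 3 * (a - b)) (hr : 0 ≤ 1 - 3 * a + 2 * b) (k : ℕ) :
    ((opL (edgeLaw (-1 / 2) (law3 a b)))^[k] fA) one3 ≤
      ∑ i ∈ range 7, ∑ j ∈ range 7, (coef T i j : ℝ) *
        ((k.descFactorial (i + j) : ℝ) * (((a + 2 * b) / 3) ^ i * (8 / 3 * (a - b)) ^ j)) := by
  rw [edgeLaw_lawKM]
  exact opL_fA_le h hp hq (by linarith) (by ring) k

theorem opL_edge_fP_le {T : List (List ℚ)} {c1 c2 : ℕ} (h : Chk vpQ T c1 c2) {a b : ℝ}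
    (hp : 0 ≤ (a + 2 * b) / 3) (hq : 0 ≤ 8 / 3 * (a - b)) (hr : 0 ≤ 1 - 3 * a + 2 * b) (k : ℕ) :
    ((opL (edgeLaw (-1 / 2) (law3 a b)))^[k] fP) one3 ≤
      ∑ i ∈ range 7, ∑ j ∈ range 7, (coef T i j : ℝ) *
        ((k.descFactorial (i + j) : ℝ) * (((a + 2 * b) / 3) ^ i * (8 / 3 * (a - b)) ^ j)) := by
  rw [edgeLaw_lawKM]
  exact opL_fP_le h hp hq (by linarith) (by ring) k

end Vale.Agent.P154.LN
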